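import Vale.Agent.P257.Det.Bor
import Vale.Agent.P251.Q.Additive
import Vale.Agent.P251.G.LensFrames

/-!
# P257, detection: the Borel class of an equivariant map to a Thom space

For a cyclic covering with frames `L : CycF B p` and an equivariant map `f : ℂ^W ⟶ Th n I`
(`EQ p γ δ f`) the class `beta o L γ δ f : U B` is the pull back of the Thom class along the map of
Borel constructions, divided by the Thom class of the bundle associated to `ℂ^W`.
-/

set_option linter.unusedSectionVars false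
set_option linter.style.haveILetI false

open CategoryTheory MonoidalCategory Matrix Topology Filter OnePoint
open Vale.Agent.P251.G Vale.Agent.P251.G.LC Vale.Agent.P251.Q Vale.Agent.P251.Q.MultTheory

universe v

noncomputable section

namespace Vale.Agent.P257.Det

variable {n m k : ℕ} {I J K W W' : Type} [Fintype I] [Fintype J] [Fintype K] [Fintype W]
  [Fintype W'] [DecidableEq I] [DecidableEq J] [DecidableEq K] [DecidableEq W] [DecidableEq W']

/-- a unitary matrix of order dividing `p` -/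
structure IsU (p : ℕ) (γ : Matrix W W ℂ) : Prop where
  isom : γᴴ * γ = 1
  pow : γ ^ p = 1

theorem IsU.one (p : ℕ) : IsU p (1 : Matrix W W ℂ) := ⟨isom_one, one_pow p⟩

theorem IsU.sum {p : ℕ} {γ : Matrix W W ℂ} {γ' : Matrix W' W' ℂ} (h : IsU p γ) (h' : IsU p γ') :
    IsU p (fromBlocks γ 0 0 γ') :=
  ⟨isom_fromBlocks h.isom h'.isom, by rw [fromBlocks_diagonal_pow, h.pow, h'.pow, fromBlocks_one]⟩

theorem IsU.perm {p : ℕ} (g : Equiv.Perm W) (hg : g ^ p = 1) : IsU p (injMat g) := by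
  refine ⟨injMat_isom g.injective, ?_⟩
  have h : ∀ j : ℕ, injMat g ^ j = injMat (g ^ j : Equiv.Perm W) := by
    intro j
    induction j with
    | zero => rw [pow_zero, pow_zero]; exact injMat_id.symm
    | succ j ih => rw [pow_succ, ih, pow_succ, Equiv.Perm.coe_mul, injMat_comp]
  rw [h, hg]
  exact injMat_id

/-- an equivariant map to a Thom space -/
structure EQ (p : ℕ) (γ : Matrix W W ℂ) (δ : Matrix I I ℂ) (f : Cpow W ⟶ LC.of (Th n I)) :
    Prop where
  src : IsU p γ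
  tgt : IsU p δ
  eqv : Eqv (Z := Cpow W) (fun v => γ *ᵥ v) (Th.mapFun δ tgt.isom) f

/-- A cyclic covering with a family of frames which is permuted cyclically. -/
structure CycF (B : LC) (r : ℕ) extends Cyc B where
  /-- the ambient index type -/
  κ : Type
  [fin : Fintype κ]
  [dec : DecidableEq κ]
  /-- the frames -/
  Φ : S → Matrix κ (Fin (r + 1)) ℂ
  cont_Φ : Continuous Φ
  isom : ∀ e, (Φ e)ᴴ * Φ e = 1
  Φ_τ : ∀ e c j, Φ (τ e) c j = Φ e c (j + 1)

attribute [instance] CycF.fin CycF.dec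

section frame

variable {r : ℕ}

/-- `v ↦ p^(-1/2) (γ^j v)_j` -/
def orbMat (r : ℕ) (γ : Matrix W W ℂ) : Matrix (W × Fin (r + 1)) W ℂ :=
  Matrix.of fun a b => rsp (r + 1) * (γ ^ (a.2 : ℕ)) a.1 b

theorem IsU.pow_isom {p : ℕ} {γ : Matrix W W ℂ} (h : IsU p γ) (j : ℕ) : (γ ^ j)ᴴ * γ ^ j = 1 := by
  induction j with
  | zero => rw [pow_zero]; exact isom_one
  | succ j ih => rw [pow_succ]; exact isom_mul ih h.isom

theorem orbMat_isom {γ : Matrix W W ℂ} (h : IsU (r + 1) γ) :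
    (orbMat r γ)ᴴ * orbMat r γ = 1 := by
  ext a b
  rw [Matrix.mul_apply, Fintype.sum_prod_type, Finset.sum_comm]
  have h1 : ∀ j : Fin (r + 1), ∑ x : W, (orbMat r γ)ᴴ a (x, j) * orbMat r γ (x, j) b =
      ((r + 1 : ℕ) : ℂ)⁻¹ * (1 : Matrix W W ℂ) a b := by
    intro j
    rw [← h.pow_isom j, Matrix.mul_apply, Finset.mul_sum]
    refine Finset.sum_congr rfl fun x _ => ?_
    rw [conjTranspose_apply, conjTranspose_apply, orbMat, of_apply, of_apply, star_mul', star_rsp,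
      ← rsp_mul_rsp]
    ring
  rw [Finset.sum_congr rfl fun j _ => h1 j, Finset.sum_const, Finset.card_univ, Fintype.card_fin,
    nsmul_eq_mul, ← mul_assoc, mul_inv_cancel₀ (by exact_mod_cast Nat.succ_ne_zero r), one_mul]

theorem IsU.pow_succ_fin {γ : Matrix W W ℂ} (h : IsU (r + 1) γ) (j : Fin (r + 1)) :
    γ ^ ((j + 1 : Fin (r + 1)) : ℕ) = γ ^ (j : ℕ) * γ := by
  rw [← pow_succ, Fin.val_add, Fin.val_one', Nat.add_mod_mod]
  conv_rhs => rw [← Nat.mod_add_div ((j : ℕ) + 1) (r + 1), pow_add, pow_mul, h.pow, one_pow,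
    mul_one]

variable {B : LC} [CompactSpace B] (L : CycF B r)

/-- the standard frame -/
def CycF.fr {γ : Matrix W W ℂ} (h : IsU (r + 1) γ) : L.toCyc.Fr γ (W × L.κ) where
  Ψ e := amp W (L.Φ e) * orbMat r γ
  cont := by
    refine Continuous.matrix_mul (continuous_matrix fun a b => ?_) continuous_const
    simp only [amp_apply]
    split_ifs
    · exact L.cont_Φ.matrix_elem _ _
    · exact continuous_const
  isom e := isom_mul (amp_conjTranspose_mul_amp (L.isom e)) (orbMat_isom h)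
  rel e := by
    have key : ∀ (Φ : Matrix L.κ (Fin (r + 1)) ℂ) (N : Matrix (W × Fin (r + 1)) W ℂ) a b,
        (amp W Φ * N) a b = ∑ j, Φ a.2 j * N (a.1, j) b := by
      intro Φ N a b
      rw [Matrix.mul_apply, Fintype.sum_prod_type, Finset.sum_eq_single a.1]
      · simp [amp_apply]
      · intro c _ hc
        simp [amp_apply, hc.symm]
      · simp
    ext a b
    rw [Matrix.mul_assoc, key, key, ← Equiv.sum_comp (Equiv.addRight (1 : Fin (r + 1)))
      fun j => L.Φ e a.2 j * orbMat r γ (a.1, j) b]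
    refine Finset.sum_congr rfl fun j _ => ?_
    rw [L.Φ_τ, Equiv.coe_addRight]
    congr 1
    rw [orbMat, of_apply, h.pow_succ_fin, Matrix.mul_apply, Matrix.mul_apply, Finset.mul_sum]
    refine Finset.sum_congr rfl fun x _ => ?_
    rw [of_apply, mul_assoc]

end frame

variable {E : MultTheory.{v}} (o : Orientation E) {B : LC} [CompactSpace B]

section bcl

variable {C : Cyc B} {Z : LC} {σ : Z → Z} {γ : Matrix I I ℂ} {hγ : γᴴ * γ = 1}

/-- the pull back of the Thom class does not depend on the frame -/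
theorem map_borel_tau (M : C.Model Z σ) [E.Good M.T] (F : C.Fr γ J) (F' : C.Fr γ K)
    (f : Z ⟶ LC.of (Th n I)) (hf : Eqv σ (Th.mapFun γ hγ) f) :
    E.map (M.borel F f hf) (o.tau n J) = E.map (M.borel F' f hf) (o.tau n K) := by
  haveI := o.goodTh
  have ha := injMat_isom (Sum.inl_injective (α := J) (β := K))
  have hb := injMat_isom (Sum.inr_injective (α := J) (β := K))
  have h := M.borel_rot (F.post _ ha) (F'.post _ hb) (fun e => by
    have h0 : (injMat (Sum.inl : J → J ⊕ K))ᴴ * injMat (Sum.inr : K → J ⊕ K) = 0 := by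
      ext j l
      rw [Matrix.mul_apply]
      simp [injMat_apply, conjTranspose_apply]
    change (injMat Sum.inl * F.Ψ e)ᴴ * (injMat Sum.inr * F'.Ψ e) = 0
    rw [conjTranspose_mul, Matrix.mul_assoc, ← Matrix.mul_assoc _ (injMat _), h0, Matrix.zero_mul,
      Matrix.mul_zero]) f hf
  have h2 := map_homotopic h (o.tau n (J ⊕ K))
  rwa [M.borel_post, M.borel_post, MultTheory.map_comp, MultTheory.map_comp, tau_map, tau_map]
    at h2

end bcl

variable [hB : GoodBase E B] {r : ℕ} (L : CycF B r)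

instance good_model {C : Cyc B} {γ : Matrix I I ℂ} (F : C.Fr γ J) : E.Good F.model.T :=
  hB.tot F.bun F.bun_isRank

instance good_bun {C : Cyc B} {γ : Matrix I I ℂ} (F : C.Fr γ J) : E.Good F.bun.tot :=
  hB.tot F.bun F.bun_isRank

instance good_triv {C : Cyc B} (Z : LC) [E.Good Z] : E.Good (C.triv Z).T :=
  inferInstanceAs (E.Good (Z ⊗ B))

/-- the Thom class of the bundle associated to a frame -/
def thF {C : Cyc B} {γ : Matrix I I ℂ} (F : C.Fr γ J) : E.U F.model.T :=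
  o.thomCl F.bun F.bun_isRank

theorem thF_bijective {C : Cyc B} {γ : Matrix I I ℂ} (F : C.Fr γ J) :
    Function.Bijective fun b : E.U B => E.act F.model.base b (thF o F) :=
  act_thomCl_bijective o F.bun F.bun_isRank

theorem thF_eq {C : Cyc B} {γ : Matrix I I ℂ} (hγ : γᴴ * γ = 1) (F : C.Fr γ J) (F' : C.Fr γ K)
    (h : Fintype.card I = n) :
    thF o F = E.map (F.model.borel F' (Th.incl' h) (Cyc.eqv_lin (hγ := hγ) h)) (o.tau n K) := by
  subst h
  rw [← map_borel_tau o F.model F F', Cyc.Fr.borel_lin]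
  rfl

open scoped Classical in
/-- **The Borel class** of an equivariant map. -/
def beta (γ : Matrix W W ℂ) (δ : Matrix I I ℂ) (f : Cpow W ⟶ LC.of (Th n I)) : E.U B :=
  if h : EQ (r + 1) γ δ f then ((thF_bijective o (L.fr h.src)).2
    (E.map ((L.fr h.src).model.borel (L.fr h.tgt) f h.eqv) (o.tau n (I × L.κ)))).choose else 0

variable {γ : Matrix W W ℂ} {γ' : Matrix W' W' ℂ} {δ : Matrix I I ℂ} {δ' : Matrix J J ℂ}

/-- pull back along a map of Borel constructions -/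
theorem map_push_act {C : Cyc B} {Z Z' : LC} {σ : Z → Z} {σ' : Z' → Z'} (M : C.Model Z σ)
    (M' : C.Model Z' σ') [E.Good M.T] [E.Good M'.T] (φ : Z ⟶ Z') (hφ : Eqv σ σ' φ) (b : E.U B)
    (t : E.U M'.T) : E.map (M.push M' φ hφ) (E.act M'.base b t) =
      E.act M.base b (E.map (M.push M' φ hφ) t) :=
  map_act _ _ _ (M.base_push M' φ hφ) b t

/-- the defining property, for an arbitrary model of a space mapping to `ℂ^W` -/
theorem beta_spec' {f : Cpow W ⟶ LC.of (Th n I)} (h : EQ (r + 1) γ δ f) {Z : LC} {σ : Z → Z}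
    (M : L.toCyc.Model Z σ) [E.Good M.T] (φ : Z ⟶ Cpow W)
    (hφ : Eqv σ (fun v => γ *ᵥ v) φ) (F : L.toCyc.Fr γ J) (F' : L.toCyc.Fr δ K)
    (hm : Fintype.card W = m) :
    E.act M.base (beta o L γ δ f) (E.map (M.borel F (φ ≫ Th.incl' hm)
      (hφ.comp (Cyc.eqv_lin (hγ := h.src.isom) hm))) (o.tau m J)) =
      E.map (M.borel F' (φ ≫ f) (hφ.comp h.eqv)) (o.tau n K) := by
  haveI := o.goodTh
  have h1 : E.act (L.fr h.src).model.base (beta o L γ δ f) (thF o (L.fr h.src)) =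
      E.map ((L.fr h.src).model.borel (L.fr h.tgt) f h.eqv) (o.tau n (I × L.κ)) := by
    rw [beta, dif_pos h]
    exact ((thF_bijective o (L.fr h.src)).2
      (E.map ((L.fr h.src).model.borel (L.fr h.tgt) f h.eqv) (o.tau n (I × L.κ)))).choose_spec
  have h2 := congrArg (E.map (M.push (L.fr h.src).model φ hφ)) h1
  rw [map_push_act, thF_eq o h.src.isom _ F hm, ← MultTheory.map_comp, ← MultTheory.map_comp,
    Cyc.Model.push_borel, Cyc.Model.push_borel, map_borel_tau o M (L.fr h.tgt) F'] at h2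
  exact h2

theorem beta_spec {f : Cpow W ⟶ LC.of (Th n I)} (h : EQ (r + 1) γ δ f) (F : L.toCyc.Fr γ J)
    (F' : L.toCyc.Fr δ K) : E.act F.model.base (beta o L γ δ f) (thF o F) =
      E.map (F.model.borel F' f h.eqv) (o.tau n K) := by
  have h1 := beta_spec' o L h F.model (𝟙 _) (Eqv.id _) F F' rfl
  simp only [Category.id_comp] at h1
  rw [thF_eq o h.src.isom F F rfl]
  exact h1

theorem beta_unique {f : Cpow W ⟶ LC.of (Th n I)} (h : EQ (r + 1) γ δ f) (F : L.toCyc.Fr γ J)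
    (F' : L.toCyc.Fr δ K) {b : E.U B} (hb : E.act F.model.base b (thF o F) =
      E.map (F.model.borel F' f h.eqv) (o.tau n K)) : beta o L γ δ f = b :=
  (thF_bijective o F).1 ((beta_spec o L h F F').trans hb.symm)

/-- homotopy invariance -/
theorem beta_homotopic {f g : Cpow W ⟶ LC.of (Th n I)} (hf : EQ (r + 1) γ δ f)
    (hg : EQ (r + 1) γ δ g) (H : Cpow W ⊗ II ⟶ LC.of (Th n I))
    (hH : Eqv (Z := Cpow W ⊗ II) (Prod.map (fun v => γ *ᵥ v) id) (Th.mapFun δ hf.tgt.isom) H)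
    (h0 : incl 0 _ ≫ H = f) (h1 : incl 1 _ ≫ H = g) : beta o L γ δ f = beta o L γ δ g := by
  haveI := o.goodTh
  refine beta_unique o L hf (L.fr hf.src) (L.fr hf.tgt) ?_
  rw [beta_spec o L hg _ (L.fr hf.tgt)]
  exact (map_homotopic (Cyc.Model.borel_homotopic _ _ hf.eqv hg.eqv H hH h0 h1) _).symm

theorem eqv_thMap (hδ : δᴴ * δ = 1) (hδ' : δ'ᴴ * δ' = 1) (u : Matrix J I ℂ) (hu : uᴴ * u = 1)
    (h : u * δ = δ' * u) : Eqv (Z := LC.of (Th n I)) (Z' := LC.of (Th n J)) (Th.mapFun δ hδ)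
      (Th.mapFun δ' hδ') (Th.map u hu) :=
  Eqv.of_comm (s := Th.map δ hδ) (s' := Th.map δ' hδ') (fun _ => rfl) (fun _ => rfl)
    (by rw [Th.map_comp, Th.map_comp]; exact Th.map_congr h _ _)

theorem EQ.map {p : ℕ} {f : Cpow W ⟶ LC.of (Th n I)} (hf : EQ p γ δ f) (hδ' : IsU p δ')
    (u : Matrix J I ℂ) (hu : uᴴ * u = 1) (h : u * δ = δ' * u) : EQ p γ δ' (f ≫ Th.map u hu) :=
  ⟨hf.src, hδ', hf.eqv.comp (eqv_thMap hf.tgt.isom hδ'.isom u hu h)⟩

/-- invariance under equivariant isometries of the target -/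
theorem beta_map {f : Cpow W ⟶ LC.of (Th n I)} (hf : EQ (r + 1) γ δ f) (hδ' : IsU (r + 1) δ')
    (u : Matrix J I ℂ) (hu : uᴴ * u = 1) (h : u * δ = δ' * u) :
    beta o L γ δ' (f ≫ Th.map u hu) = beta o L γ δ f := by
  refine beta_unique o L (hf.map hδ' u hu h) (L.fr hf.src) (L.fr hδ') ?_
  rw [beta_spec o L hf _ ((L.fr hδ').pre u hu h), Cyc.Model.borel_pre]

theorem EQ.lin {p : ℕ} (h : IsU p γ) (hm : Fintype.card W = m) : EQ p γ γ (Th.incl' hm) :=
  ⟨h, h, Cyc.eqv_lin hm⟩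

/-- normalisation -/
theorem beta_lin (h : IsU (r + 1) γ) (hm : Fintype.card W = m) :
    beta o L γ γ (Th.incl' hm) = 1 := by
  refine beta_unique o L (EQ.lin h hm) (L.fr h) (L.fr h) ?_
  rw [one_def, act_oneU]
  exact thF_eq o h.isom _ _ hm

theorem EQ.comp {p : ℕ} {f : Cpow W ⟶ LC.of (Th n I)} (hf : EQ p γ δ f) (h' : IsU p γ')
    {φ : Cpow W' ⟶ Cpow W} (hφ : Eqv (Z := Cpow W') (Z' := Cpow W) (fun v => γ' *ᵥ v)
      (fun v => γ *ᵥ v) φ) : EQ p γ' δ (φ ≫ f) := ⟨h', hf.tgt, hφ.comp hf.eqv⟩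

/-- composition with an equivariant map of representation spheres -/
theorem beta_comp {f : Cpow W ⟶ LC.of (Th n I)} (hf : EQ (r + 1) γ δ f) (h' : IsU (r + 1) γ')
    {φ : Cpow W' ⟶ Cpow W} (hφ : Eqv (Z := Cpow W') (Z' := Cpow W) (fun v => γ' *ᵥ v)
      (fun v => γ *ᵥ v) φ) (hm : Fintype.card W = m) :
    beta o L γ' δ (φ ≫ f) = beta o L γ' γ (φ ≫ Th.incl' hm) * beta o L γ δ f := by
  refine beta_unique o L (hf.comp h' hφ) (L.fr h') (L.fr hf.tgt) ?_
  rw [← beta_spec' o L hf (L.fr h').model φ hφ (L.fr hf.src) (L.fr hf.tgt) hm,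
    ← beta_spec o L ((EQ.lin hf.src hm).comp h' hφ) (L.fr h') (L.fr hf.src), ← act_mul, mul_comm]

theorem eqv_cmap (u : Matrix W W' ℂ) (hu : uᴴ * u = 1) (h : u * γ' = γ * u) :
    Eqv (Z := Cpow W') (Z' := Cpow W) (fun v => γ' *ᵥ v) (fun v => γ *ᵥ v) (Th.cmap u hu) :=
  fun v => by
    change ((u *ᵥ (γ' *ᵥ v) : W → ℂ) : OnePoint (W → ℂ)) = ((γ *ᵥ (u *ᵥ v) : W → ℂ) : OnePoint _)
    rw [mulVec_mulVec, mulVec_mulVec, h]

/-- invariance under equivariant unitary isomorphisms of the source -/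
theorem beta_cmap {f : Cpow W ⟶ LC.of (Th n I)} (hf : EQ (r + 1) γ δ f) (h' : IsU (r + 1) γ')
    (u : Matrix W W' ℂ) (hu : uᴴ * u = 1) (h : u * γ' = γ * u)
    (hc : Fintype.card W' = Fintype.card W) (hu' : u * uᴴ = 1) :
    beta o L γ' δ (Th.cmap u hu ≫ f) = beta o L γ δ f := by
  rw [beta_comp o L hf h' (eqv_cmap u hu h) rfl, ← Th.incl_map hc rfl u hu hu',
    beta_map o L (EQ.lin h' hc) hf.src u hu h, beta_lin o L h', one_mul]

/-- restriction to a point -/
theorem beta_pt {f : Cpow W ⟶ LC.of (Th n I)} (hf : EQ (r + 1) γ δ f) (b : B) :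
    E.toA (E.map (point b) (beta o L γ δ f)) • o.lin W = E.map f (o.tau n I) := by
  haveI := o.goodTh
  obtain ⟨e, rfl⟩ := L.surj b
  have h1 := congrArg (E.map ((L.fr hf.src).model.fib e))
    (beta_spec o L hf (L.fr hf.src) (L.fr hf.tgt))
  rw [← MultTheory.map_comp, Cyc.Model.fib_borel, MultTheory.map_comp, tau_map,
    map_act _ _ (⟨fun _ => L.π e, continuous_const⟩ : C((Cpow W : LC), B)),
    thF_eq o hf.src.isom _ (L.fr hf.src) rfl, ← MultTheory.map_comp, Cyc.Model.fib_borel,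
    MultTheory.map_comp, tau_map, map_incl'] at h1
  · rw [← h1, smul_eq_act, ofA_toA]
    exact act_map _ _ _ (fun _ => rfl) _ _
  · intro w z hz
    rw [Cyc.Model.app_fib] at hz
    rw [← OnePoint.coe_injective hz]
    exact (L.fr hf.src).model.base_q e w

/-- additivity for disjoint supports -/
theorem beta_add {f g s : Cpow W ⟶ LC.of (Th n I)} (hf : EQ (r + 1) γ δ f)
    (hg : EQ (r + 1) γ δ g) (hs : EQ (r + 1) γ δ s) (h : ∀ x, app f x = ∞ ∨ app g x = ∞)
    (h1 : ∀ x, app g x = ∞ → app s x = app f x) (h2 : ∀ x, app f x = ∞ → app s x = app g x) :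
    beta o L γ δ s = beta o L γ δ f + beta o L γ δ g := by
  haveI := o.goodTh
  refine beta_unique o L hs (L.fr hs.src) (L.fr hs.tgt) ?_
  rw [map_add, AddMonoidHom.add_apply, beta_spec o L hf _ (L.fr hs.tgt),
    beta_spec o L hg _ (L.fr hs.tgt)]
  symm
  have key : ∀ (u : Matrix (I × L.κ) I ℂ) (hu : uᴴ * u = 1) (x : OnePoint (Th n I)),
      app (Th.map u hu) x = ∞ → x = ∞ := by
    intro u hu x hx
    induction x using OnePoint.rec with
    | infty => rfl
    | coe x => exact absurd hx (OnePoint.coe_ne_infty _)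
  have cs : ∀ x : OnePoint (L.fr hs.src).model.T, x = ∞ ∨ ∃ e z,
      x = ((L.fr hs.src).model.q (e, z) : OnePoint (L.fr hs.src).model.T) := by
    intro x
    induction x using OnePoint.rec with
    | infty => exact Or.inl rfl
    | coe x =>
      obtain ⟨⟨e, z⟩, rfl⟩ := (L.fr hs.src).model.surj x
      exact Or.inr ⟨e, z, rfl⟩
  apply map_add_of_disjoint
  · intro x
    rcases cs x with rfl | ⟨e, z, rfl⟩
    · exact Or.inl (app_infty _)
    · rw [Cyc.Model.app_borel, Cyc.Model.app_borel]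
      rcases h z with hz | hz
      · left; rw [hz]; exact app_infty _
      · right; rw [hz]; exact app_infty _
  · intro x hx
    rcases cs x with rfl | ⟨e, z, rfl⟩
    · rw [app_infty, app_infty]
    · rw [Cyc.Model.app_borel] at hx
      rw [Cyc.Model.app_borel, Cyc.Model.app_borel, h1 _ (key _ _ _ hx)]
  · intro x hx
    rcases cs x with rfl | ⟨e, z, rfl⟩
    · rw [app_infty, app_infty]
    · rw [Cyc.Model.app_borel] at hx
      rw [Cyc.Model.app_borel, Cyc.Model.app_borel, h2 _ (key _ _ _ hx)]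

/-! ### Products -/

theorem eqv_csum_inv : Eqv (Z := Cpow (W ⊕ W')) (Z' := Cpow W ⊗ Cpow W')
    (fun v => fromBlocks γ 0 0 γ' *ᵥ v) (Prod.map (fun v => γ *ᵥ v) (fun v => γ' *ᵥ v))
    (Th.csum W W').inv := fun v => by
  refine congrArg OnePoint.some (Prod.ext ?_ ?_)
  · funext i
    simp [fromBlocks_mulVec]
    rfl
  · funext i
    simp [fromBlocks_mulVec]
    rfl

theorem eqv_csum_hom : Eqv (Z := Cpow W ⊗ Cpow W') (Z' := Cpow (W ⊕ W'))
    (Prod.map (fun v => γ *ᵥ v) (fun v => γ' *ᵥ v)) (fun v => fromBlocks γ 0 0 γ' *ᵥ v)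
    (Th.csum W W').hom := by
  rintro ⟨v, w⟩
  refine congrArg OnePoint.some ?_
  change Sum.elim (γ *ᵥ v) (γ' *ᵥ w) = fromBlocks γ 0 0 γ' *ᵥ Sum.elim v w
  simp [fromBlocks_mulVec]

theorem eqv_thSum (hδ : δᴴ * δ = 1) (hδ' : δ'ᴴ * δ' = 1) (hk : n + m = k) :
    Eqv (Z := LC.of (Th n I) ⊗ LC.of (Th m J)) (Z' := LC.of (Th k (I ⊕ J)))
      (Prod.map (Th.mapFun δ hδ) (Th.mapFun δ' hδ'))
      (Th.mapFun (fromBlocks δ 0 0 δ') (isom_fromBlocks hδ hδ')) (Th.sum hk) :=
  Eqv.of_comm (s := Th.map δ hδ ⊗ₘ Th.map δ' hδ')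
    (s' := Th.map (fromBlocks δ 0 0 δ') (isom_fromBlocks hδ hδ')) (fun _ => rfl) (fun _ => rfl)
    (Th.sum_naturality hk δ hδ δ' hδ')

/-- the direct sum of two maps -/
def thSum (hk : n + m = k) (f : Cpow W ⟶ LC.of (Th n I)) (g : Cpow W' ⟶ LC.of (Th m J)) :
    Cpow (W ⊕ W') ⟶ LC.of (Th k (I ⊕ J)) := (Th.csum W W').inv ≫ (f ⊗ₘ g) ≫ Th.sum hk

theorem EQ.sum {p : ℕ} (hk : n + m = k) {f : Cpow W ⟶ LC.of (Th n I)}
    {g : Cpow W' ⟶ LC.of (Th m J)} (hf : EQ p γ δ f) (hg : EQ p γ' δ' g) :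
    EQ p (fromBlocks γ 0 0 γ') (fromBlocks δ 0 0 δ') (thSum hk f g) :=
  ⟨hf.src.sum hg.src, hf.tgt.sum hg.tgt,
    eqv_csum_inv.comp ((hf.eqv.tensor hg.eqv).comp (eqv_thSum _ _ hk))⟩

theorem thSum_lin {a b c : ℕ} (ha : Fintype.card W = a) (hb : Fintype.card W' = b)
    (hc : Fintype.card (W ⊕ W') = c) (h : a + b = c) :
    thSum h (Th.incl' ha) (Th.incl' hb) = Th.incl' hc := by
  rw [thSum, Th.incl_sum ha hb hc h, Iso.inv_hom_id_assoc]

/-- the model of the product -/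
def prodModel {C : Cyc B} (F : C.Fr (fromBlocks γ 0 0 γ') K) :
    C.Model (Cpow W ⊗ Cpow W') (Prod.map (fun v => γ *ᵥ v) (fun v => γ' *ᵥ v)) where
  T := F.model.T
  q a := F.model.q (a.1, Sum.elim a.2.1 a.2.2)
  prop := F.model.prop.comp (isProperMap_id.prodMap
    (Homeomorph.sumArrowHomeomorphProdArrow (ι := W) (ι' := W') (X := ℂ)).symm.isProperMap)
  surj t := by
    obtain ⟨⟨e, v⟩, rfl⟩ := F.model.surj t
    exact ⟨(e, (v ∘ Sum.inl, v ∘ Sum.inr)), by
      change F.model.q (e, Sum.elim (v ∘ Sum.inl) (v ∘ Sum.inr)) = _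
      rw [Sum.elim_comp_inl_inr]⟩
  q_τ e z := by
    rw [← F.model.q_τ e (Sum.elim z.1 z.2)]
    congr 2
    change Sum.elim (γ *ᵥ z.1) (γ' *ᵥ z.2) = fromBlocks γ 0 0 γ' *ᵥ Sum.elim z.1 z.2
    simp [fromBlocks_mulVec]
  inj e z e' z' h := by
    obtain ⟨j, h1, h2⟩ := F.model.inj _ _ _ _ h
    refine ⟨j, h1, ?_⟩
    have h3 : ∀ j : ℕ, (fun v => fromBlocks γ 0 0 γ' *ᵥ v)^[j] (Sum.elim z.1 z.2) =
        Sum.elim ((Prod.map (fun v => γ *ᵥ v) (fun v => γ' *ᵥ v))^[j] z).1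
          ((Prod.map (fun v => γ *ᵥ v) (fun v => γ' *ᵥ v))^[j] z).2 := by
      intro j
      induction j with
      | zero => rfl
      | succ j ih =>
        rw [Function.iterate_succ_apply', ih, Function.iterate_succ_apply']
        simp [fromBlocks_mulVec]
    have h4 := h2.trans (h3 j)
    exact Prod.ext (funext fun i => congrFun h4 (Sum.inl i)) (funext fun i => congrFun h4 (Sum.inr i))
  base := F.model.base
  base_q e z := F.model.base_q e _

/-- the diagonal map of the bundle of a direct sum -/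
def diaF {C : Cyc B} {K' K'' : Type} [Fintype K'] [Fintype K''] [DecidableEq K'] [DecidableEq K'']
    (F : C.Fr (fromBlocks γ 0 0 γ') K) (F₁ : C.Fr γ K') (F₂ : C.Fr γ' K'') :
    F.model.T ⟶ F₁.model.T ⊗ F₂.model.T := Cyc.Model.dia F₁.model F₂.model (prodModel F)

theorem app_diaF {C : Cyc B} {K' K'' : Type} [Fintype K'] [Fintype K''] [DecidableEq K']
    [DecidableEq K''] (F : C.Fr (fromBlocks γ 0 0 γ') K) (F₁ : C.Fr γ K') (F₂ : C.Fr γ' K'')
    (e : C.S) (z : W → ℂ) (z' : W' → ℂ) :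
    app (diaF F F₁ F₂) (F.model.q (e, Sum.elim z z') : OnePoint F.model.T) =
      smash (F₁.model.q (e, z) : OnePoint F₁.model.T) (F₂.model.q (e, z') : OnePoint F₂.model.T) :=
  Cyc.Model.app_dia F₁.model F₂.model (prodModel F) e z z'

theorem map_borel_thSum {p : ℕ} {C : Cyc B} {K' K'' K₁ K₂ : Type} [Fintype K'] [Fintype K'']
    [Fintype K₁] [Fintype K₂] [DecidableEq K'] [DecidableEq K''] [DecidableEq K₁] [DecidableEq K₂]
    (F : C.Fr (fromBlocks γ 0 0 γ') K) (F₁ : C.Fr γ K') (F₂ : C.Fr γ' K'') (G₁ : C.Fr δ K₁)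
    (G₂ : C.Fr δ' K₂) (hk : n + m = k) {f : Cpow W ⟶ LC.of (Th n I)}
    {g : Cpow W' ⟶ LC.of (Th m J)} (hf : EQ p γ δ f) (hg : EQ p γ' δ' g) :
    E.map (F.model.borel (G₁.sum G₂) (thSum hk f g) (EQ.sum hk hf hg).eqv) (o.tau k (K₁ ⊕ K₂)) =
      E.map (diaF F F₁ F₂)
        (E.cross (E.map (F₁.model.borel G₁ f hf.eqv) (o.tau n K₁))
          (E.map (F₂.model.borel G₂ g hg.eqv) (o.tau m K₂))) := by
  haveI := o.goodTh
  rw [cross_map, ← tau_sum' o hk, ← MultTheory.map_comp, ← MultTheory.map_comp]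
  refine congrArg (fun x => E.map x _) ?_
  apply (prodModel F).hom_ext'
  rintro e ⟨z, z'⟩
  refine (F.model.app_borel (G₁.sum G₂) (thSum hk f g) (EQ.sum hk hf hg).eqv e
    (Sum.elim z z')).trans ?_
  have h1 : app (thSum hk f g) ((Sum.elim z z' : W ⊕ W' → ℂ) : OnePoint (W ⊕ W' → ℂ)) =
      app (Th.sum hk) (smash (app f (z : OnePoint (W → ℂ))) (app g (z' : OnePoint (W' → ℂ)))) :=
    congrArg (app (Th.sum hk)) (app_tensorHom_coe f g z z')
  have h2 := app_diaF F F₁ F₂ e z z'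
  refine Eq.trans ?_ (congrArg (fun x => app (Th.sum hk) (app (F₁.model.borel G₁ f hf.eqv ⊗ₘ
    F₂.model.borel G₂ g hg.eqv) x)) h2).symm
  rw [h1, app_tensorHom_smash, Cyc.Model.app_borel, Cyc.Model.app_borel,
    ← app_tensorHom_smash (Th.map _ _) (Th.map _ _), ← app_comp (Th.map _ _ ⊗ₘ Th.map _ _),
    Th.sum_naturality]
  rfl

/-- multiplicativity -/
theorem beta_sum (hk : n + m = k) {f : Cpow W ⟶ LC.of (Th n I)}
    {g : Cpow W' ⟶ LC.of (Th m J)} (hf : EQ (r + 1) γ δ f) (hg : EQ (r + 1) γ' δ' g) :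
    beta o L (fromBlocks γ 0 0 γ') (fromBlocks δ 0 0 δ') (thSum hk f g) =
      beta o L γ δ f * beta o L γ' δ' g := by
  have hs := EQ.sum hk hf hg
  set F := L.fr hs.src
  set F₁ := L.fr hf.src
  set F₂ := L.fr hg.src
  refine beta_unique o L hs F ((L.fr hf.tgt).sum (L.fr hg.tgt)) ?_
  have h1 := map_borel_thSum o F F₁ F₂ F₁ F₂ rfl (EQ.lin hf.src rfl) (EQ.lin hg.src rfl)
  simp only [thSum_lin rfl rfl Fintype.card_sum rfl] at h1
  rw [← thF_eq o hs.src.isom, ← thF_eq o hf.src.isom, ← thF_eq o hg.src.isom] at h1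
  rw [map_borel_thSum o F F₁ F₂ _ _ hk hf hg, ← beta_spec o L hf, ← beta_spec o L hg, h1,
    ← act_cross_left, ← act_cross_right, act_mul]
  have key : ∀ (b : E.U B) (t : E.U (F₁.model.T ⊗ F₂.model.T))
      (π : C((F₁.model.T ⊗ F₂.model.T : LC), B))
      (_ : ∀ e z z', π (F₁.model.q (e, z), F₂.model.q (e, z')) = L.π e),
      E.map (diaF F F₁ F₂) (E.act π b t) =
        E.act F.model.base b (E.map (diaF F F₁ F₂) t) := by
    intro b t π hπ
    refine map_act _ _ _ ?_ b t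
    intro w z hz
    obtain ⟨⟨e, x, x'⟩, rfl⟩ := (prodModel F).surj w
    have h2 := (app_diaF F F₁ F₂ e x x').symm.trans hz
    rw [← OnePoint.coe_injective h2, hπ]
    exact ((prodModel F).base_q e (x, x')).symm
  rw [key _ _ _ (fun e z _ => F₁.model.base_q e z), key _ _ _ (fun e _ z => F₂.model.base_q e z)]

/-! ### Trivial actions -/

theorem eqv_one : Eqv (Z := Cpow W) (Z' := Cpow W) id (fun v => (1 : Matrix W W ℂ) *ᵥ v) (𝟙 _) :=
  fun v => by
    change (v : OnePoint (W → ℂ)) = (((1 : Matrix W W ℂ) *ᵥ v : W → ℂ) : OnePoint (W → ℂ))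
    rw [one_mulVec]

theorem map_borel_triv {C : Cyc B} {Z : LC} [E.Good Z] (f : Z ⟶ LC.of (Th n I))
    (hf : Eqv id (Th.mapFun (1 : Matrix I I ℂ) isom_one) f) :
    E.map ((C.triv Z).borel (Cyc.Fr.one C I) f hf) (o.tau n I) =
      E.cross (E.map f (o.tau n I)) 1 := by
  haveI := o.goodTh
  rw [one_def, oneU, cross_map, cross_one, ← MultTheory.map_comp]
  refine congrArg (fun x => E.map x _) ?_
  apply (C.triv Z).hom_ext'
  intro e z
  rw [Cyc.Model.app_borel]
  have h1 : app ((f ⊗ₘ cmap (toPt B)) ≫ (ρ_ (LC.of (Th n I))).hom)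
      (smash (z : OnePoint Z) (C.π e : OnePoint B)) = app f (z : OnePoint Z) := by
    rw [app_comp, app_tensorHom_smash]
    exact app_rightUnitor_smash _ _
  refine Eq.trans ?_ h1.symm
  exact congrArg (fun x => app x (app f (z : OnePoint Z))) Th.map_one

/-- trivial action on the source -/
theorem beta_triv {f : Cpow W ⟶ LC.of (Th n I)} (hf : EQ (r + 1) 1 δ f) (F' : L.toCyc.Fr δ K) :
    E.cross (o.lin W) (beta o L 1 δ f) =
      E.map ((L.toCyc.triv (Cpow W)).borel F' (𝟙 _ ≫ f) (eqv_one.comp hf.eqv)) (o.tau n K) := by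
  rw [← beta_spec' o L hf (L.toCyc.triv (Cpow W)) (𝟙 _) eqv_one (Cyc.Fr.one _ W) F' rfl,
    map_borel_triv, Category.id_comp, map_incl']
  have h := act_cross_right (ContinuousMap.id B) (beta o L 1 δ f) (o.lin W) 1
  rw [← MultTheory.mul_def, mul_one] at h
  exact h.symm

theorem EQ.triv (p : ℕ) (f : Cpow W ⟶ LC.of (Th n I)) : EQ p 1 1 f :=
  ⟨IsU.one p, IsU.one p, fun v => by
    rw [← app_thMap, Th.map_one]
    change app f (((1 : Matrix W W ℂ) *ᵥ v : W → ℂ) : OnePoint (W → ℂ)) = _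
    rw [one_mulVec]
    rfl⟩

theorem cross_lin_injective (X : LC) [E.Good X] :
    Function.Injective fun u : E.U X => E.cross (o.lin W) u := by
  intro a b h
  refine (lin_bijective o W X).1 ?_
  change E.cross a (o.lin W) = E.cross b (o.lin W)
  rw [← cross_comm a, ← cross_comm b]
  exact congrArg _ h

/-- trivial action on source and target -/
theorem beta_const (f : Cpow W ⟶ LC.of (Th n I)) {x : E.A}
    (hx : E.map f (o.tau n I) = x • o.lin W) : beta o L 1 1 f = algebraMap E.A (E.U B) x := by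
  refine cross_lin_injective o (W := W) B ?_
  change E.cross (o.lin W) _ = E.cross (o.lin W) _
  rw [beta_triv o L (EQ.triv _ f) (Cyc.Fr.one _ I), map_borel_triv, Category.id_comp, hx,
    Algebra.algebraMap_eq_smul_one, cross_smul_left, cross_smul_right]

end Vale.Agent.P257.Det
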