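import Vale.Agent.P257.Det.Trunc

/-!
# P257, detection: the tower of the cohomology rings of the lens spaces

`LTower F p` : the formal properties of the rings `R k = U(B_k)`.  With
`𝔞 = (t^p, ⟨p⟩(t)) ⊆ A⟦t⟧` and `R̄ = R k₀ / (v^p, ⟨p⟩(v))`:

* `ker_evb` : the kernel of `A⟦t⟧ → R̄` is `𝔞`;
* `red_eq_zero` : `w`-torsion classes of `R K` go to zero in `R̄`, for large `K`;
* `exists_red` : classes with `w^e y` a series in `v` go to the image of `A⟦t⟧`;
* `LTower.det` : the computation of `(P x - x^p) / w` at the base point.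
-/

open Finset PowerSeries
open Vale.Agent.P217 Vale.Agent.P251.F Vale.Agent.P251.Q

universe v

set_option linter.style.haveILetI false

noncomputable section

namespace Vale.Agent.P257.Det

/-! ### Power series -/

section series

variable {A : Type*} [CommRing A]

theorem X_pow_dvd_of_mul {s : A⟦X⟧} (hs : ∀ a : A, constantCoeff s * a = 0 → a = 0) (j : ℕ) :
    ∀ α : A⟦X⟧, (X : A⟦X⟧) ^ j ∣ s * α → (X : A⟦X⟧) ^ j ∣ α := by
  induction j with
  | zero => intro α _; rw [pow_zero]; exact one_dvd _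
  | succ j ih =>
    intro α h
    obtain ⟨β, rfl⟩ := ih α ((pow_dvd_pow _ (Nat.le_succ j)).trans h)
    rw [mul_left_comm, pow_succ] at h
    obtain ⟨γ, hγ⟩ := h
    rw [mul_assoc] at hγ
    have h1 : s * β = X * γ := X_pow_mul_cancel hγ
    have h2 : constantCoeff β = 0 := by
      refine hs _ ?_
      rw [← map_mul, h1, map_mul, constantCoeff_X, zero_mul]
    rw [pow_succ]
    exact mul_dvd_mul_left _ (X_dvd_iff.2 h2)

variable (F : FormalGroup A) (p : ℕ)

/-- the ideal `(t^p, ⟨p⟩(t))` -/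
def aId : Ideal A⟦X⟧ := Ideal.span {X ^ p, divSeries F p}

variable {F p}

theorem mem_aId {g : A⟦X⟧} : g ∈ aId F p ↔ ∃ a b, a * X ^ p + b * divSeries F p = g :=
  Ideal.mem_span_pair

theorem X_pow_mem_aId : (X : A⟦X⟧) ^ p ∈ aId F p := mem_aId.2 ⟨1, 0, by ring⟩

theorem div_mem_aId : divSeries F p ∈ aId F p := mem_aId.2 ⟨0, 1, by ring⟩

theorem constantCoeff_div : constantCoeff (divSeries F p) = (p : A) := by
  rw [← coeff_zero_eq_constantCoeff_apply, coeff_zero_divSeries]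

theorem constantCoeff_fSeries : constantCoeff (fSeries F p) = ((p - 1).factorial : A) := by
  rw [← coeff_zero_eq_constantCoeff_apply, coeff_zero_fSeries]

theorem wilson_int (hp : p.Prime) : ∃ c : ℤ, (((p - 1).factorial : ℕ) : ℤ) + 1 = p * c := by
  haveI := Fact.mk hp
  have h : ((((p - 1).factorial : ℕ) + 1 : ℤ) : ZMod p) = 0 := by
    push_cast
    rw [ZMod.wilsons_lemma]
    ring
  exact (ZMod.intCast_zmod_eq_zero_iff_dvd _ _).1 h

theorem wilson (hp : p.Prime) : ∃ c : A, (((p - 1).factorial : ℕ) : A) = p * c - 1 := by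
  obtain ⟨c, hc⟩ := wilson_int hp
  refine ⟨c, ?_⟩
  have h := congrArg (Int.cast : ℤ → A) hc
  push_cast at h
  linear_combination h

/-- `θ = ∏ [j](t) / t` is a unit modulo `𝔞` -/
theorem isUnit_theta (hp : p.Prime) : IsUnit (Ideal.Quotient.mk (aId F p) (fSeries F p)) := by
  obtain ⟨c, hc⟩ := wilson (A := A) hp
  have h1 : X ∣ fSeries F p + 1 - C c * divSeries F p := by
    rw [X_dvd_iff, map_sub, map_add, map_mul, constantCoeff_fSeries, constantCoeff_div, hc,
      map_one, constantCoeff_C]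
    ring
  obtain ⟨g, hg⟩ := h1
  have h2 : Ideal.Quotient.mk (aId F p) (fSeries F p) =
      -(1 - Ideal.Quotient.mk (aId F p) X * Ideal.Quotient.mk (aId F p) g) := by
    have h3 : fSeries F p = X * g - 1 + C c * divSeries F p := by linear_combination hg
    rw [h3, map_add, map_mul (Ideal.Quotient.mk _) (C c),
      Ideal.Quotient.eq_zero_iff_mem.2 (div_mem_aId (F := F) (p := p)), mul_zero, add_zero,
      map_sub, map_mul, map_one]
    ring
  have h4 : IsNilpotent (Ideal.Quotient.mk (aId F p) X) :=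
    ⟨p, by rw [← map_pow]; exact Ideal.Quotient.eq_zero_iff_mem.2 X_pow_mem_aId⟩
  rw [h2]
  exact ((Commute.isNilpotent_mul_right (Commute.all _ _) h4).isUnit_one_sub).neg

/-- the last step for `m = 0` -/
theorem mem_of_w_mul_zero (hp : p.Prime) (hreg : ∀ a : A, (p : A) * a = 0 → a = 0) {Z : A⟦X⟧}
    (h : wSeries F p * Z ∈ aId F p) : constantCoeff Z ∈ Ideal.span {(p : A)} := by
  obtain ⟨a, b, hab⟩ := mem_aId.1 h
  have hp1 : p = p - 1 + 1 := by have := hp.pos; omega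
  have h1 : (X : A⟦X⟧) ^ (p - 1) ∣ divSeries F p * b := by
    refine ⟨fSeries F p * Z - a * X, ?_⟩
    rw [wSeries_eq] at hab
    have h2 : (X : A⟦X⟧) ^ p = X ^ (p - 1) * X := by rw [← pow_succ, ← hp1]
    rw [h2] at hab
    linear_combination hab
  obtain ⟨b', rfl⟩ := X_pow_dvd_of_mul (by rwa [constantCoeff_div]) _ _ h1
  have h3 : fSeries F p * Z = a * X + b' * divSeries F p := by
    refine X_pow_mul_cancel (k := p - 1) ?_
    rw [wSeries_eq] at hab
    have h2 : (X : A⟦X⟧) ^ p = X ^ (p - 1) * X := by rw [← pow_succ, ← hp1]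
    rw [h2] at hab
    linear_combination -hab
  have h4 := congrArg constantCoeff h3
  rw [map_mul, map_add, map_mul, map_mul, constantCoeff_X, constantCoeff_div,
    constantCoeff_fSeries] at h4
  obtain ⟨c, hc⟩ := wilson (A := A) hp
  rw [hc] at h4
  exact Ideal.mem_span_singleton'.2 ⟨c * constantCoeff Z - constantCoeff b', by
    linear_combination h4⟩

/-- `p = w v₁` modulo `𝔞` -/
theorem p_sub_mem (hp : p.Prime) [F.IsComm] :
    (p : A⟦X⟧) - wSeries F p * C (vF p F 1) ∈ aId F p ∧ (p : A⟦X⟧) * p ∈ aId F p := by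
  haveI := Fact.mk hp
  have hp2 := hp.two_le
  -- the coefficients of `⟨p⟩` below `p - 1` are multiples of `p`
  have hco : ∀ l, l + 1 < p → ∃ b : A, coeff l (divSeries F p) = b * p := by
    intro l hl
    have h1 := coeff_multSeries_mem p F 1 (l + 1) fun hd => by
      rw [pow_one] at hd
      have := Nat.le_of_dvd (Nat.succ_pos l) hd
      omega
    have h2 : IF p F 1 ≤ Ideal.span {(p : A)} := by
      rw [IF_le_iff]
      intro i hi
      rw [show i = 0 by omega, vF_zero]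
      exact Ideal.mem_span_singleton_self _
    obtain ⟨b, hb⟩ := Ideal.mem_span_singleton'.1 (h2 h1)
    exact ⟨b, by rw [divSeries, coeff_mk, hb]⟩
  choose! b hb using hco
  -- `⟨p⟩ = p + p t ε + v₁ t^(p-1) + t^p δ`
  set ε : A⟦X⟧ := PowerSeries.mk fun l => if l + 2 < p then b (l + 1) else 0 with hε
  have h1 : (X : A⟦X⟧) ^ p ∣ divSeries F p - (C (p : A) + C (p : A) * (X * ε) +
      C (vF p F 1) * X ^ (p - 1)) := by
    rw [X_pow_dvd_iff]
    intro l hl
    rw [map_sub, map_add, map_add, coeff_C_mul, coeff_C_mul, coeff_X_pow, sub_eq_zero]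
    rcases l with _ | l
    · rw [coeff_zero_divSeries, coeff_zero_C, coeff_zero_X_mul, if_neg (by omega)]
      ring
    · rw [coeff_succ_X_mul, coeff_C, if_neg (Nat.succ_ne_zero l), hε, coeff_mk]
      by_cases h : l + 2 < p
      · rw [if_pos h, if_neg (by omega), hb (l + 1) h]
        ring
      · rw [if_neg h, if_pos (by omega), divSeries, coeff_mk, vF, pow_one,
          show l + 1 + 1 = p by omega]
        ring
  obtain ⟨δ, hδ⟩ := h1
  set π := Ideal.Quotient.mk (aId F p) with hπ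
  set t := π X with ht
  have ht0 : t ^ p = 0 := by
    rw [ht, ← map_pow]
    exact Ideal.Quotient.eq_zero_iff_mem.2 X_pow_mem_aId
  have hd0 : π (divSeries F p) = 0 := Ideal.Quotient.eq_zero_iff_mem.2 div_mem_aId
  have h2 := congrArg π hδ
  rw [map_sub, hd0, map_mul π (X ^ p), map_pow, ← ht, ht0, zero_mul, map_add, map_add,
    map_mul π (C (p : A)), map_mul π X, map_mul π (C _), map_pow, ← ht, map_natCast C,
    map_natCast π] at h2
  have htp : t ^ (p - 1) * t = 0 := by rw [← pow_succ, show p - 1 + 1 = p by omega, ht0]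
  have hu : IsUnit (1 + t * π ε) :=
    (Commute.isNilpotent_mul_right (Commute.all _ _) ⟨p, ht0⟩).isUnit_one_add
  have hpt : (p : A⟦X⟧ ⧸ aId F p) * t = 0 := by
    refine (hu.mul_left_eq_zero).1 ?_
    linear_combination (-t) * h2 - π (C (vF p F 1)) * htp
  have h3 : (p : A⟦X⟧ ⧸ aId F p) = -(π (C (vF p F 1)) * t ^ (p - 1)) := by
    linear_combination -h2 - π ε * hpt
  obtain ⟨c, hc⟩ := wilson (A := A) hp
  obtain ⟨θ', hθ'⟩ : X ∣ fSeries F p - C ((p : A) * c - 1) := by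
    rw [X_dvd_iff, map_sub, constantCoeff_fSeries, constantCoeff_C, hc, sub_self]
  have h4 : π (fSeries F p) = (p * π (C c) - 1) + t * π θ' := by
    rw [sub_eq_iff_eq_add'.1 hθ', map_add, map_mul π X, map_sub C, map_mul C, map_natCast C,
      map_one C, map_sub, map_mul, map_natCast π, map_one]
  have hptp : (p : A⟦X⟧ ⧸ aId F p) * t ^ (p - 1) = 0 := by
    rw [show p - 1 = p - 2 + 1 by omega, pow_succ', ← mul_assoc, hpt, zero_mul]
  constructor
  · rw [← Ideal.Quotient.eq_zero_iff_mem, ← hπ, map_sub, map_mul, wSeries_eq, map_mul, map_pow,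
      ← ht, h4, map_natCast]
    linear_combination h3 - π (C (vF p F 1)) * π (C c) * hptp -
      π (C (vF p F 1)) * π θ' * htp
  · rw [← Ideal.Quotient.eq_zero_iff_mem, ← hπ, map_mul, map_natCast]
    linear_combination (p : A⟦X⟧ ⧸ aId F p) * h3 - π (C (vF p F 1)) * hptp

/-- the value of a series at the class of `X` in a quotient -/
theorem nev1_mk {S : Type*} [CommRing S] [Algebra A S] (φ : A⟦X⟧ →ₐ[A] S) {n : ℕ}
    (hn : φ X ^ n = 0) (g : A⟦X⟧) : nev1 (φ X) g = φ g := by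
  have h1 : (X : A⟦X⟧) ^ n ∣ g - ∑ i ∈ range n, coeff i g • X ^ i := by
    rw [X_pow_dvd_iff]
    intro l hl
    rw [map_sub, map_sum, sum_eq_single l, coeff_smul, coeff_X_pow_self, smul_eq_mul, mul_one,
      sub_self]
    · intro i _ hi
      rw [coeff_smul, coeff_X_pow, if_neg (Ne.symm hi), smul_zero]
    · intro h
      exact absurd (mem_range.2 hl) h
  obtain ⟨r, hr⟩ := h1
  rw [nev1_eq_sum hn]
  conv_rhs => rw [sub_eq_iff_eq_add'.1 hr]
  rw [map_add, map_mul, map_pow, hn, zero_mul, add_zero, map_sum]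
  refine sum_congr rfl fun i _ => ?_
  rw [map_smul, map_pow]

/-- `∑ c_j f(z)^(j+1) - f([p] z)` -/
def eqn (F : FormalGroup A) (p N : ℕ) {S : Type*} [CommRing S] [Algebra A S] (c : ℕ → S) (t : S) :
    TR S N :=
  ∑ j ∈ range N, algebraMap S (TR S N) (c j) *
    fz F p (TR.z S N) (algebraMap S (TR S N) t) ^ (j + 1) -
    fz F p (mt F p (TR.z S N)) (algebraMap S (TR S N) t)

theorem map_eqn {N : ℕ} {S S' : Type*} [CommRing S] [CommRing S'] [Algebra A S] [Algebra A S']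
    (φ : S →ₐ[A] S') (c : ℕ → S) {t : S} (ht : IsNilpotent t) :
    TR.map φ N (eqn F p N c t) = eqn F p N (fun j => φ (c j)) (φ t) := by
  rw [eqn, eqn, map_sub, map_sum,
    map_fz F _ p (isNilpotent_mt F p (TR.isNilpotent_z _ _)) (ht.map _),
    map_mt F _ p (TR.isNilpotent_z _ _), TR.map_z, TR.map_of]
  congr 1
  refine sum_congr rfl fun j _ => ?_
  rw [map_mul, map_pow, map_fz F _ p (TR.isNilpotent_z _ _) (ht.map _), TR.map_z, TR.map_of,
    TR.map_of]

theorem lift_eqn {N : ℕ} {S W : Type*} [CommRing S] [CommRing W] [Algebra A S] [Algebra A W]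
    [Algebra S W] [IsScalarTower A S W] {z : W} (hz : z ^ (N + 1) = 0) (c : ℕ → S) {t : S}
    (ht : IsNilpotent t) :
    TR.lift A z hz (eqn F p N c t) = ∑ j ∈ range N, algebraMap S W (c j) *
      fz F p z (algebraMap S W t) ^ (j + 1) - fz F p (mt F p z) (algebraMap S W t) := by
  rw [eqn, map_sub, map_sum,
    map_fz F _ p (isNilpotent_mt F p (TR.isNilpotent_z _ _)) (ht.map _),
    map_mt F _ p (TR.isNilpotent_z _ _), TR.lift_z, TR.lift_of]
  congr 1
  refine sum_congr rfl fun j _ => ?_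
  rw [map_mul, map_pow, map_fz F _ p (TR.isNilpotent_z _ _) (ht.map _), TR.lift_z, TR.lift_of,
    TR.lift_of]

end series

/-! ### The tower -/

/-- The formal properties of the cohomology rings of the lens spaces. -/
structure LTower {A : Type v} [CommRing A] (F : FormalGroup A) (p : ℕ) where
  /-- the rings -/
  R : ℕ → Type v
  [ring : ∀ k, CommRing (R k)]
  [alg : ∀ k, Algebra A (R k)]
  /-- the Euler class -/
  v : ∀ k, R k
  v_pow : ∀ k, v k ^ (k + 1) = 0
  /-- restriction -/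
  res : ∀ k, R (k + 1) →ₐ[A] R k
  res_v : ∀ k, res k (v (k + 1)) = v k
  /-- restriction to the base point -/
  pt : ∀ k, R k →ₐ[A] A
  pt_v : ∀ k, pt k (v k) = 0
  pt_res : ∀ k z, pt k (res k z) = pt (k + 1) z
  mult : ∀ k, nev1 (v k) (multSeries F p) = 0
  lens : ∀ k (z : R (k + 2)), v (k + 2) * z = 0 →
    ∃ a : A, res k (res (k + 1) z) = a • nev1 (v k) (divSeries F p)

attribute [instance] LTower.ring LTower.alg

namespace LTower

variable {A : Type v} [CommRing A] {F : FormalGroup A} {p : ℕ} (T : LTower F p)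

theorem nil (k : ℕ) : IsNilpotent (T.v k) := ⟨_, T.v_pow k⟩

/-- the value of a series -/
def ev (k : ℕ) : A⟦X⟧ →ₐ[A] T.R k := nevHom (a := fun _ : Unit => T.v k) fun _ => T.nil k

theorem ev_apply (k : ℕ) (g : A⟦X⟧) : T.ev k g = nev1 (T.v k) g := nevHom_apply _ _

theorem ev_X (k : ℕ) : T.ev k X = T.v k := by rw [ev_apply, nev1_X (T.nil k)]

theorem res_ev (k : ℕ) (g : A⟦X⟧) : T.res k (T.ev (k + 1) g) = T.ev k g := by
  rw [ev_apply, ev_apply, map_nev1 _ (T.nil _), T.res_v]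

theorem pt_ev (k : ℕ) (g : A⟦X⟧) : T.pt k (T.ev k g) = constantCoeff g := by
  rw [ev_apply, map_nev1 _ (T.nil _), T.pt_v, nev1_eq_sum (n := 1) (pow_one _), sum_range_one,
    pow_zero, smul_eq_mul, mul_one, coeff_zero_eq_constantCoeff_apply]

/-- iterated restriction -/
def rs (k : ℕ) : ∀ d, T.R (k + d) →ₐ[A] T.R k
  | 0 => AlgHom.id A _
  | d + 1 => (rs k d).comp (T.res (k + d))

theorem rs_succ (k d : ℕ) (y : T.R (k + (d + 1))) :
    T.rs k (d + 1) y = T.rs k d (T.res (k + d) y) := rfl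

theorem rs_ev (k d : ℕ) (g : A⟦X⟧) : T.rs k d (T.ev (k + d) g) = T.ev k g := by
  induction d with
  | zero => rfl
  | succ d ih => exact (congrArg (T.rs k d) (T.res_ev (k + d) g)).trans ih

theorem rs_v (k d : ℕ) : T.rs k d (T.v (k + d)) = T.v k := by
  rw [← ev_X, rs_ev, ev_X]

theorem pt_rs (k d : ℕ) (y : T.R (k + d)) : T.pt k (T.rs k d y) = T.pt (k + d) y := by
  induction d with
  | zero => rfl
  | succ d ih => exact (ih _).trans (T.pt_res (k + d) y)

/-- Division by `v ^ m`. -/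
theorem poly (k m : ℕ) : ∀ (d : ℕ) (_ : 2 * m ≤ d) (y : T.R (k + d)) (g : A⟦X⟧)
    (_ : T.v (k + d) ^ m * y = T.ev (k + d) g),
    ∃ g' α, T.rs k d y = T.ev k g' ∧ X ^ m * g' = g + X * divSeries F p * α := by
  induction m with
  | zero =>
    intro d _ y g h
    rw [pow_zero, one_mul] at h
    exact ⟨g, 0, by rw [h, rs_ev], by ring⟩
  | succ m ih =>
    intro d hd y g h
    obtain ⟨d, rfl⟩ : ∃ d', d = d' + 2 := ⟨d - 2, by omega⟩
    have h0 : constantCoeff g = 0 := by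
      rw [← T.pt_ev (k + (d + 2)), ← h, map_mul, map_pow, T.pt_v, zero_pow (Nat.succ_ne_zero m),
        zero_mul]
    obtain ⟨g₁, rfl⟩ := X_dvd_iff.2 h0
    have h1 : T.v (k + d + 2) * (T.v (k + d + 2) ^ m * y - T.ev (k + d + 2) g₁) = 0 := by
      rw [map_mul, ev_X] at h
      rw [mul_sub, ← mul_assoc, ← pow_succ']
      exact sub_eq_zero.2 h
    obtain ⟨a, ha⟩ := T.lens (k + d) _ h1
    rw [map_sub, map_sub, map_mul, map_mul, map_pow, map_pow, T.res_v, T.res_v, res_ev, res_ev,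
      ← ev_apply, sub_eq_iff_eq_add, ← map_smul, ← map_add] at ha
    obtain ⟨g', α, h2, h3⟩ := ih d (by omega) _ _ ha
    refine ⟨g', C a + X * α, h2, ?_⟩
    rw [smul_eq_C_mul] at h3
    linear_combination X * h3

/-- the level at which the computation is done -/
def k0 (p : ℕ) : ℕ := 0 + 2 * (p + 1)

/-- the ring `R k₀ / (v^p, ⟨p⟩(v))` -/
abbrev Rb : Type v :=
  T.R (k0 p) ⧸ Ideal.span {T.v (k0 p) ^ p, T.ev (k0 p) (divSeries F p)}

/-- the value of a series in `R̄` -/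
def evb : A⟦X⟧ →ₐ[A] T.Rb := (Ideal.Quotient.mkₐ A _).comp (T.ev (k0 p))

/-- the reduction `R (k₀ + d) → R̄` -/
def red (d : ℕ) : T.R (k0 p + d) →ₐ[A] T.Rb := (Ideal.Quotient.mkₐ A _).comp (T.rs (k0 p) d)

theorem red_ev (d : ℕ) (g : A⟦X⟧) : T.red d (T.ev _ g) = T.evb g :=
  congrArg (Ideal.Quotient.mkₐ A _) (T.rs_ev _ d g)

theorem red_v (d : ℕ) : T.red d (T.v _) = T.evb X :=
  (congrArg (T.red d) (T.ev_X _).symm).trans (T.red_ev d X)

theorem evb_eq_zero_iff (g : A⟦X⟧) : T.evb g = 0 ↔ g ∈ aId F p := by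
  constructor
  · intro h
    have h1 : T.ev (k0 p) g ∈ Ideal.span {T.v (k0 p) ^ p, T.ev (k0 p) (divSeries F p)} :=
      Ideal.Quotient.eq_zero_iff_mem.1 h
    obtain ⟨a, b, hab⟩ := Ideal.mem_span_pair.1 h1
    have h2 : T.v (k0 p) * T.ev (k0 p) (divSeries F p) = 0 := by
      rw [← ev_X, ← map_mul, X_mul_divSeries, ev_apply, T.mult]
    have h3 : T.v (k0 p) ^ (p + 1) * a = T.ev (k0 p) (X * g) := by
      rw [map_mul, ev_X, ← hab]
      linear_combination (-b) * h2
    obtain ⟨g', α, -, h4⟩ := T.poly 0 (p + 1) (2 * (p + 1)) le_rfl a (X * g) h3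
    refine mem_aId.2 ⟨g', -α, ?_⟩
    refine X_pow_mul_cancel (k := 1) ?_
    linear_combination h4
  · intro h
    obtain ⟨a, b, rfl⟩ := mem_aId.1 h
    refine Ideal.Quotient.eq_zero_iff_mem.2 (Ideal.mem_span_pair.2 ⟨T.ev _ a, T.ev _ b, ?_⟩)
    change _ = T.ev (k0 p) _
    rw [map_add, map_mul, map_mul, map_pow, ev_X]

/-- `A⟦t⟧ / 𝔞 → R̄` -/
def iota : (A⟦X⟧ ⧸ aId F p) →ₐ[A] T.Rb :=
  Ideal.Quotient.liftₐ (aId F p) T.evb fun g hg => (T.evb_eq_zero_iff g).2 hg

theorem iota_mk (g : A⟦X⟧) : T.iota (Ideal.Quotient.mk _ g) = T.evb g := rfl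

theorem iota_injective : Function.Injective T.iota := by
  rw [injective_iff_map_eq_zero]
  intro y hy
  obtain ⟨g, rfl⟩ := Ideal.Quotient.mk_surjective y
  exact Ideal.Quotient.eq_zero_iff_mem.2 ((T.evb_eq_zero_iff g).1 hy)

theorem isUnit_evb_theta (hp : p.Prime) : IsUnit (T.evb (fSeries F p)) :=
  (isUnit_theta hp).map T.iota

/-- the class `w` -/
def w (k : ℕ) : T.R k := T.ev k (wSeries F p)

theorem w_pow_mul (k e : ℕ) (y : T.R k) :
    T.w k ^ e * y = T.v k ^ ((p - 1) * e) * (T.ev k (fSeries F p) ^ e * y) := by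
  rw [w, wSeries_eq, map_mul, map_pow, ev_X, mul_pow, ← pow_mul, mul_assoc]

theorem red_eq_zero (hp : p.Prime) (hreg : ∀ a : A, (p : A) * a = 0 → a = 0) {d e : ℕ}
    (hd : 2 * ((p - 1) * (e + 1)) ≤ d) {y : T.R (k0 p + d)} (h : T.w _ ^ e * y = 0) :
    T.red d y = 0 := by
  have h1 : T.w _ ^ (e + 1) * y = T.ev _ 0 := by
    rw [map_zero, pow_succ', mul_assoc, h, mul_zero]
  rw [w_pow_mul] at h1
  obtain ⟨g', α, h2, h3⟩ := T.poly _ _ d hd _ _ h1
  obtain ⟨j, hj⟩ : ∃ j, (p - 1) * (e + 1) = j + 1 :=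
    ⟨(p - 1) * (e + 1) - 1, by
      have : 0 < (p - 1) * (e + 1) := Nat.mul_pos (by have := hp.two_le; omega) (Nat.succ_pos e)
      omega⟩
  rw [hj, zero_add] at h3
  have h4 : X ^ j * g' = divSeries F p * α := by
    refine X_pow_mul_cancel (k := 1) ?_
    linear_combination h3
  obtain ⟨α', rfl⟩ := X_pow_dvd_of_mul (by rwa [constantCoeff_div]) j α ⟨g', h4.symm⟩
  have h5 : g' = α' * divSeries F p := by
    refine X_pow_mul_cancel (k := j) ?_
    linear_combination h4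
  have h6 : T.evb g' = 0 := (T.evb_eq_zero_iff _).2 (mem_aId.2 ⟨0, α', by rw [h5]; ring⟩)
  have h7 : T.red d (T.ev _ (fSeries F p) ^ (e + 1) * y) = T.evb g' :=
    congrArg (Ideal.Quotient.mkₐ A _) h2
  rw [h6, map_mul, map_pow, red_ev] at h7
  exact (((T.isUnit_evb_theta hp).pow _).mul_right_eq_zero).1 h7

/-- `w ^ e y` is a series in `v` -/
def WPoly {k : ℕ} (e : ℕ) (y : T.R k) : Prop := ∃ g, T.w k ^ e * y = T.ev k g

variable {T}

theorem WPoly.mono {k e e' : ℕ} {y : T.R k} (h : T.WPoly e y) (he : e ≤ e') : T.WPoly e' y := by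
  obtain ⟨g, hg⟩ := h
  obtain ⟨c, rfl⟩ := Nat.exists_eq_add_of_le he
  refine ⟨wSeries F p ^ c * g, ?_⟩
  rw [map_mul, map_pow, ← hg, pow_add]
  change _ = T.w k ^ c * _
  ring

theorem WPoly.exists_red (hp : p.Prime) {d e : ℕ} (hd : 2 * ((p - 1) * e) ≤ d)
    {y : T.R (k0 p + d)} (h : T.WPoly e y) : ∃ g, T.red d y = T.evb g := by
  obtain ⟨g, hg⟩ := h
  rw [w_pow_mul] at hg
  obtain ⟨g', α, h2, -⟩ := T.poly _ _ d hd _ _ hg
  have h7 : T.red d (T.ev _ (fSeries F p) ^ e * y) = T.evb g' :=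
    congrArg (Ideal.Quotient.mkₐ A _) h2
  rw [map_mul, map_pow, red_ev] at h7
  obtain ⟨q, hq⟩ := (isUnit_theta (F := F) hp).exists_left_inv
  obtain ⟨θ', rfl⟩ := Ideal.Quotient.mk_surjective q
  have h8 : T.evb θ' * T.evb (fSeries F p) = 1 := by
    have := congrArg T.iota hq
    rwa [map_mul, map_one] at this
  refine ⟨θ' ^ e * g', ?_⟩
  rw [map_mul, map_pow, ← h7, ← mul_assoc, ← mul_pow, h8, one_pow, one_mul]

theorem pt_sub_mem {d : ℕ} (hp : p.Prime) {y : T.R (k0 p + d)} {g : A⟦X⟧}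
    (h : T.red d y = T.evb g) : T.pt _ y - constantCoeff g ∈ Ideal.span {(p : A)} := by
  have h1 : T.rs (k0 p) d y - T.ev (k0 p) g ∈
      Ideal.span {T.v (k0 p) ^ p, T.ev (k0 p) (divSeries F p)} := Ideal.Quotient.eq.1 h
  obtain ⟨a, b, hab⟩ := Ideal.mem_span_pair.1 h1
  have h2 := congrArg (T.pt (k0 p)) hab
  rw [map_add, map_mul, map_mul, map_pow, T.pt_v, zero_pow hp.ne_zero, mul_zero, zero_add, pt_ev,
    constantCoeff_div, map_sub, pt_rs, pt_ev] at h2
  exact Ideal.mem_span_singleton'.2 ⟨_, h2⟩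

theorem WPoly.ev {k : ℕ} (g : A⟦X⟧) : T.WPoly 0 (T.ev k g) := ⟨g, by rw [pow_zero, one_mul]⟩

theorem WPoly.const {k : ℕ} (a : A) : T.WPoly 0 (algebraMap A (T.R k) a) :=
  ⟨C a, by rw [pow_zero, one_mul]; exact ((T.ev k).commutes a).symm⟩

theorem WPoly.intCast {k : ℕ} (a : ℤ) : T.WPoly 0 (a : T.R k) :=
  ⟨a, by rw [pow_zero, one_mul, map_intCast]⟩

theorem WPoly.add {k e : ℕ} {y y' : T.R k} (h : T.WPoly e y) (h' : T.WPoly e y') :
    T.WPoly e (y + y') := by
  obtain ⟨g, hg⟩ := h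
  obtain ⟨g', hg'⟩ := h'
  exact ⟨g + g', by rw [mul_add, hg, hg', map_add]⟩

theorem WPoly.sub {k e : ℕ} {y y' : T.R k} (h : T.WPoly e y) (h' : T.WPoly e y') :
    T.WPoly e (y - y') := by
  obtain ⟨g, hg⟩ := h
  obtain ⟨g', hg'⟩ := h'
  exact ⟨g - g', by rw [mul_sub, hg, hg', map_sub]⟩

theorem WPoly.mul {k e e' : ℕ} {y y' : T.R k} (h : T.WPoly e y) (h' : T.WPoly e' y') :
    T.WPoly (e + e') (y * y') := by
  obtain ⟨g, hg⟩ := h
  obtain ⟨g', hg'⟩ := h'
  exact ⟨g * g', by rw [map_mul, ← hg, ← hg', pow_add]; ring⟩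

theorem WPoly.sum {k e : ℕ} {ι : Type*} (s : Finset ι) {y : ι → T.R k}
    (h : ∀ i ∈ s, T.WPoly e (y i)) : T.WPoly e (∑ i ∈ s, y i) := by
  classical
  induction s using Finset.induction_on with
  | empty => exact ⟨0, by rw [sum_empty, mul_zero, map_zero]⟩
  | insert a s ha ih =>
    rw [sum_insert ha]
    exact (h a (mem_insert_self a s)).add (ih fun i hi => h i (mem_insert_of_mem hi))

theorem WPoly.of_eq {k e e' : ℕ} {H y : T.R k} (h : T.w k ^ e * (T.w k * H - y) = 0)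
    (hy : T.WPoly e' y) : T.WPoly (e + e' + 1) H := by
  obtain ⟨g, hg⟩ := (hy.mono (Nat.le_add_left e' e))
  refine ⟨g, ?_⟩
  rw [← hg]
  linear_combination T.w k ^ e' * h

theorem red_w (d : ℕ) : T.red d (T.w _) = T.evb (wSeries F p) := T.red_ev d _

/-- **The computation for `m = 0`.** -/
theorem det_zero (hp : p.Prime) [F.IsComm] (hreg : ∀ a : A, (p : A) * a = 0 → a = 0) {d e : ℕ}
    (hd : 2 * ((p - 1) * (e + 1)) ≤ d) (H : T.R (k0 p + d)) (n u : ℤ) (z : A)
    (h2 : T.w _ ^ e * (T.w _ * H - ((n : T.R (k0 p + d)) *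
      ((u : T.R (k0 p + d)) * (p : T.R (k0 p + d))) -
      algebraMap A _ (z * ((u : A) * (p : A)) ^ p))) = 0) :
    T.pt _ H - n * u * vF p F 1 ∈ IF p F 1 := by
  have hH : T.WPoly (e + 0 + 1) H := by
    refine WPoly.of_eq (e' := 0) h2 (WPoly.sub ?_ (WPoly.const _))
    have h := WPoly.intCast (T := T) (k := k0 p + d) (n * (u * p))
    push_cast at h
    exact h
  obtain ⟨g, hg⟩ := hH.exists_red hp hd
  have h3 := T.red_eq_zero hp hreg hd h2
  rw [map_sub, map_mul, red_w, hg, map_sub, AlgHom.commutes, map_mul, map_mul, map_intCast,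
    map_intCast, map_natCast, map_mul, map_pow, map_mul, map_intCast, map_natCast] at h3
  obtain ⟨h4, h5⟩ := p_sub_mem (F := F) hp
  rw [← T.evb_eq_zero_iff] at h4 h5
  rw [map_sub, map_mul, map_natCast] at h4
  rw [map_mul, map_natCast] at h5
  have h6 : ((u : T.Rb) * p) ^ p = 0 := by
    obtain ⟨j, hj⟩ := Nat.exists_eq_add_of_le hp.two_le
    have : (p : T.Rb) ^ p = 0 := pow_eq_zero_of_le hp.two_le (by rw [sq, h5])
    rw [mul_pow, this, mul_zero]
  have h7 : wSeries F p * (g - n * u * C (vF p F 1)) ∈ aId F p := by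
    rw [← T.evb_eq_zero_iff, map_mul, map_sub, map_mul, map_mul, map_intCast, map_intCast]
    linear_combination h3 + (n * u : T.Rb) * h4 - algebraMap A T.Rb z * h6
  have h8 := mem_of_w_mul_zero hp hreg h7
  rw [map_sub, map_mul, map_mul, map_intCast, map_intCast, constantCoeff_C] at h8
  have h9 := pt_sub_mem hp hg
  have h10 : Ideal.span {(p : A)} ≤ IF p F 1 := by
    rw [Ideal.span_le, Set.singleton_subset_iff, ← vF_zero p F]
    exact vF_mem p F Nat.one_pos
  have h11 := add_mem h9 h8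
  rw [sub_add_sub_cancel] at h11
  exact h10 h11

/-- **The computation for `m ≥ 1`.** -/
theorem det_pos (hp : p.Prime) [F.IsComm] (hreg : ∀ a : A, (p : A) * a = 0 → a = 0) {m : ℕ}
    (hm : 1 ≤ m) {d e : ℕ} (hd : 2 * ((p - 1) * (3 * e + 1)) ≤ d)
    (c Y : ℕ → T.R (k0 p + d)) (H : T.R (k0 p + d)) {x : A} (hx : x ∈ IF p F (m + 1)) (n u : ℤ)
    (z : A) (hc : ∀ j < p ^ (m + 1), T.WPoly e (c j)) (hY : ∀ i < m, T.WPoly e (Y i))
    (h1 : algebraMap _ (TR (T.R (k0 p + d)) (p ^ (m + 1))) (T.w (k0 p + d) ^ e) *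
      eqn F p (p ^ (m + 1)) c (T.v (k0 p + d)) = 0)
    (h2 : T.w _ ^ e * (T.w _ * H - ((n : T.R (k0 p + d)) * (∑ i ∈ range m, Y i * c (p ^ i - 1) +
      (u : T.R (k0 p + d)) * c (p ^ m - 1)) - algebraMap A _ (z * x ^ p))) = 0) :
    T.pt _ H - n * u * vF p F (m + 1) ∈ IF p F (m + 1) := by
  haveI := Fact.mk hp
  have hp2 := hp.two_le
  set N := p ^ (m + 1) with hN
  have hlt : ∀ i ≤ m, p ^ i - 1 < N := fun i hi => by
    have h1 : p ^ i ≤ p ^ (m + 1) := Nat.pow_le_pow_right hp.pos (by omega)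
    have h2 : 0 < p ^ i := pow_pos hp.pos _
    omega
  have hd1 : 2 * ((p - 1) * (e + 1)) ≤ d :=
    le_trans (Nat.mul_le_mul_left _ (Nat.mul_le_mul_left _ (by omega))) hd
  have hd0 : 2 * ((p - 1) * e) ≤ d :=
    le_trans (Nat.mul_le_mul_left _ (Nat.mul_le_mul_left _ (by omega))) hd
  have hH : T.WPoly (e + (e + e) + 1) H := by
    refine WPoly.of_eq h2 ?_
    have h3 : T.WPoly (e + e) (∑ i ∈ range m, Y i * c (p ^ i - 1) +
        (u : T.R (k0 p + d)) * c (p ^ m - 1)) := by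
      refine WPoly.add (WPoly.sum _ fun i hi => ?_) ?_
      · rw [mem_range] at hi
        exact (hY i hi).mul (hc _ (hlt i hi.le))
      · exact ((WPoly.intCast u).mul (hc _ (hlt m le_rfl))).mono (by omega)
    exact (((WPoly.intCast n).mul h3).mono (by omega)).sub
      ((WPoly.const _).mono (Nat.zero_le _))
  obtain ⟨g, hg⟩ := hH.exists_red hp (by rwa [show e + (e + e) + 1 = 3 * e + 1 by omega])
  have hc' : ∀ j, ∃ g, j < N → T.red d (c j) = T.evb g := fun j => by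
    by_cases hj : j < N
    · obtain ⟨g, hg⟩ := (hc j hj).exists_red hp hd0
      exact ⟨g, fun _ => hg⟩
    · exact ⟨0, fun h => absurd h hj⟩
  have hY' : ∀ i, ∃ g, i < m → T.red d (Y i) = T.evb g := fun i => by
    by_cases hi : i < m
    · obtain ⟨g, hg⟩ := (hY i hi).exists_red hp hd0
      exact ⟨g, fun _ => hg⟩
    · exact ⟨0, fun h => absurd h hi⟩
  choose gc hgc using hc'
  choose gY hgY using hY'
  -- the ring `S`
  set I := IF p F (m + 1) with hI
  let S := (A ⧸ I)⟦X⟧ ⧸ Ideal.span {(X : (A ⧸ I)⟦X⟧) ^ p}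
  let ψ₀ : A⟦X⟧ →ₐ[A] S :=
    (Ideal.Quotient.mkₐ A _).comp (PowerSeries.mapAlgHom (Ideal.Quotient.mkₐ A I))
  have hψ₀ : ∀ s : A⟦X⟧, ψ₀ s = 0 ↔ ∀ l < p, coeff l s ∈ I := by
    intro s
    change Ideal.Quotient.mk _ (PowerSeries.map (Ideal.Quotient.mk I) s) = 0 ↔ _
    rw [Ideal.Quotient.eq_zero_iff_mem, Ideal.mem_span_singleton, X_pow_dvd_iff]
    refine forall₂_congr fun l _ => ?_
    rw [coeff_map, Ideal.Quotient.eq_zero_iff_mem]
  have hXp : ψ₀ X ^ p = 0 := by
    rw [← map_pow, hψ₀]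
    intro l hl
    rw [coeff_X_pow, if_neg hl.ne]
    exact zero_mem _
  have hdiv : ψ₀ (divSeries F p) = 0 := by
    rw [hψ₀]
    intro l hl
    rw [divSeries, coeff_mk]
    refine coeff_multSeries_mem p F (m + 1) (l + 1) fun hdv => ?_
    have h3 := Nat.le_of_dvd (Nat.succ_pos l) hdv
    have h4 : p ^ 1 < p ^ (m + 1) := Nat.pow_lt_pow_right hp.one_lt (by omega)
    rw [pow_one] at h4
    omega
  let ψ : (A⟦X⟧ ⧸ aId F p) →ₐ[A] S := Ideal.Quotient.liftₐ (aId F p) ψ₀ fun s hs => by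
    obtain ⟨a, b, rfl⟩ := mem_aId.1 hs
    rw [map_add, map_mul, map_mul, map_pow, hXp, hdiv, mul_zero, mul_zero, add_zero]
  have hIS : ∀ a ∈ I, algebraMap A S a = 0 := by
    intro a ha
    rw [← ψ₀.commutes, hψ₀]
    intro l _
    change coeff l (C a) ∈ I
    rw [coeff_C]
    split_ifs
    · exact ha
    · exact zero_mem _
  -- the first equation
  set π := Ideal.Quotient.mkₐ A (aId F p) with hπ
  have hπX : IsNilpotent (π X) :=
    ⟨p, by rw [← map_pow]; exact Ideal.Quotient.eq_zero_iff_mem.2 X_pow_mem_aId⟩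
  have e1 := TR.map_eq_zero (T.red d) (fun s hs => T.red_eq_zero hp hreg hd1 hs) h1
  rw [map_eqn _ _ (T.nil _)] at e1
  have e2 : eqn F p N (fun j => π (gc j)) (π X) = 0 := by
    refine TR.map_injective T.iota_injective ?_
    rw [map_eqn _ _ hπX, map_zero, ← e1, red_v, eqn, eqn]
    congr 1
    refine sum_congr rfl fun j hj => ?_
    rw [hgc j (mem_range.1 hj)]
    rfl
  have e3 := congrArg (TR.map ψ N) e2
  rw [map_eqn _ _ hπX, map_zero, eqn, sub_eq_zero] at e3
  obtain ⟨e4, e5⟩ := tri F hIS (t := ψ₀ X) hXp (fun j => ψ₀ (gc j)) e3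
  rw [nev1_mk ψ₀ hXp] at e5
  -- the second equation
  have e6 := T.red_eq_zero hp hreg hd1 h2
  have e7 : wSeries F p * g - (n * (∑ i ∈ range m, gY i * gc (p ^ i - 1) + u * gc (p ^ m - 1)) -
      algebraMap A _ (z * x ^ p)) ∈ aId F p := by
    rw [← T.evb_eq_zero_iff, ← e6]
    simp only [map_sub, map_mul, map_add, map_sum, map_pow, map_intCast, AlgHom.commutes, red_w,
      hg, hgc _ (hlt m le_rfl)]
    congr 4
    refine sum_congr rfl fun i hi => ?_
    rw [mem_range] at hi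
    rw [hgY i hi, hgc _ (hlt i hi.le)]
  have e8 : ψ₀ (wSeries F p * g - (n * (∑ i ∈ range m, gY i * gc (p ^ i - 1) +
      u * gc (p ^ m - 1)) - algebraMap A _ (z * x ^ p))) = 0 := by
    change ψ (π _) = 0
    rw [show π _ = 0 from Ideal.Quotient.eq_zero_iff_mem.2 e7, map_zero]
  have e9 : ∑ i ∈ range m, ψ₀ (gY i) * ψ₀ (gc (p ^ i - 1)) = 0 := by
    refine sum_eq_zero fun i hi => ?_
    rw [mem_range] at hi
    have h3 : p ^ i < p ^ m := Nat.pow_lt_pow_right hp.one_lt hi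
    have h4 : 0 < p ^ i := pow_pos hp.pos _
    rw [e4 (p ^ i - 1) (by omega), mul_zero]
  simp only [map_sub, map_mul, map_add, map_sum, map_pow, map_intCast, AlgHom.commutes] at e8
  rw [e9, e5, hIS x hx, zero_pow hp.ne_zero] at e8
  have e10 : ψ₀ (wSeries F p * (g - n * u * algebraMap A _ (vF p F (m + 1)))) = 0 := by
    simp only [map_sub, map_mul, map_intCast, AlgHom.commutes]
    linear_combination e8
  have e11 := (hψ₀ _).1 e10 (p - 1) (by omega)
  rw [wSeries_eq, mul_assoc, coeff_X_pow_mul', if_pos le_rfl, Nat.sub_self,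
    coeff_zero_eq_constantCoeff_apply, map_mul, constantCoeff_fSeries] at e11
  obtain ⟨c₀, hc₀⟩ := wilson (A := A) hp
  have hpI : (p : A) ∈ I := by
    rw [← vF_zero p F]
    exact vF_mem p F (Nat.succ_pos m)
  have e12 : constantCoeff
      (g - (n : A⟦X⟧) * (u : A⟦X⟧) * algebraMap A A⟦X⟧ (vF p F (m + 1))) ∈ I := by
    have h3 := sub_mem (I.mul_mem_right (c₀ * constantCoeff
      (g - (n : A⟦X⟧) * (u : A⟦X⟧) * algebraMap A A⟦X⟧ (vF p F (m + 1)))) hpI) e11
    rw [hc₀] at h3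
    convert h3 using 1
    ring
  rw [map_sub, map_mul, map_mul, map_intCast, map_intCast] at e12
  have e13 : constantCoeff (algebraMap A A⟦X⟧ (vF p F (m + 1))) = vF p F (m + 1) :=
    constantCoeff_C _
  rw [e13] at e12
  have e14 := (Ideal.span_le.2 (Set.singleton_subset_iff.2 hpI)) (pt_sub_mem hp hg)
  have e15 := add_mem e14 e12
  rwa [sub_add_sub_cancel] at e15

end LTower

end Vale.Agent.P257.Det
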