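import Vale.Agent.P257.Det.Defs
import Vale.Agent.P257.Det.Tower
import Vale.Agent.P251.Q.Main

/-!
# P257, detection: notations for the lens spaces

`Bk r k` the lens space of `ℂ^(k+1)` for `p = r + 1`, `Fk r k` its frames, `wk` the Euler class of
`ρ̄`, `ptk` the restriction to the base point, `cTh` the class of `((P, v), b) ↦ (P ⊗ ρ, v ⊗ s)`,
`IsPsi f y` : `y` is the value of the (non normalised) power operation on `f^* τ`.
`DetU` is the statement of the computation of the power operation on `v_m`.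
-/

open CategoryTheory MonoidalCategory Matrix
open Vale.Agent.P251.G Vale.Agent.P251.G.LC Vale.Agent.P251.Q Vale.Agent.P251.Q.MultTheory
open Vale.Agent.P217 Vale.Agent.P251.F

universe v

noncomputable section

namespace Vale.Agent.P257.Det

/-- the lens space -/
abbrev Bk (r k : ℕ) : LC := LC.of (Lens (r + 1) (Idx k))

/-- the frames over the lens space -/
abbrev Fk (r k : ℕ) :
    Frames (Lens (r + 1) (Idx k)) (Unit ⊕ RbarIdx (r + 1) (Idx k)) (Fin (r + 1)) :=
  lensFrames (r + 1) (Nat.succ_ne_zero r) (Idx k)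

variable {E : MultTheory.{v}}

instance goodBase_Bk (r k : ℕ) : GoodBase E (Bk r k) := inferInstance

instance good_Bk (r k : ℕ) : E.Good (Bk r k) := (goodBase_Bk r k).toGood

variable (o : Orientation E)

/-- the Euler class of `ρ̄` -/
def wk (r k : ℕ) : E.U (Bk r k) :=
  nev1 (o.vL (r + 1) (Idx k)) (wSeries o.law.toFG (r + 1))

variable (E) in
/-- the restriction to the base point -/
def ptk (r k : ℕ) (y : E.U (Bk r k)) : E.A :=
  E.toA (E.map (point (X := Bk r k) (lensBasePt (r + 1) k)) y)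

/-- the class of `((P, v), b) ↦ (P ⊗ ρ_b, v ⊗ s_b)` -/
def cTh (r k m : ℕ) (I : Type) [Fintype I] : E.U (LC.of (Th m I) ⊗ Bk r k) :=
  E.map ((Fk r k).cl (ι := I) (n := m) (N := (r + 1) * m) (by rw [Fintype.card_fin]))
    (o.tau ((r + 1) * m) (I × (Unit ⊕ RbarIdx (r + 1) (Idx k))))

/-- `y` is the value of the non normalised power operation on `f` -/
def IsPsi (r k : ℕ) {m : ℕ} {I W : Type} [Fintype I] [Fintype W] [DecidableEq W]
    (f : Cpow W ⟶ LC.of (Th m I)) (y : E.U (Bk r k)) : Prop :=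
  E.cross (o.lin W) y = E.map (f ▷ Bk r k) (cTh o r k m I)

/-- The computation of the power operation on `v_m`. -/
def DetU (r : ℕ) : Prop :=
  ∀ (m : ℕ) {n : ℕ} {I W : Type} [Fintype I] [DecidableEq I] [Fintype W] [DecidableEq W]
    (f : Cpow W ⟶ LC.of (Th n I)) (x : E.A) (_ : E.map f (o.tau n I) = x • o.lin W)
    (_ : n + ((r + 1) ^ m - 1) = Fintype.card W) (u : ℤ)
    (_ : x - u * vF (r + 1) o.law.toFG m ∈ IF (r + 1) o.law.toFG m) (e : ℕ),
    ∃ k : ℕ, ∀ (H y : E.U (Bk r k)) (N : ℤ) (z : E.A), IsPsi o r k f y →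
      wk o r k ^ e * (wk o r k ^ (Fintype.card W + 1) * H - (N * y -
        wk o r k ^ Fintype.card W * algebraMap E.A (E.U (Bk r k)) (z * x ^ (r + 1)))) = 0 →
      ptk E r k H - N * u * vF (r + 1) o.law.toFG (m + 1) ∈ IF (r + 1) o.law.toFG (m + 1)

end Vale.Agent.P257.Det
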