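import Vale.Agent.P257.Det.PowExp
import Vale.Agent.P257.Det.Lens
import Vale.Agent.P251.Q.Q4
import Vale.Agent.P251.Q.HasLaw

/-!
# P257, detection: the power operation over the lens spaces

* `lensExp`, `lensFam` : the classes `cTh` are exponential, with integral values;
* `lensTow` : the tower of the cohomology rings of the lens spaces;
* `cTh_poly` : the classes `cTh` are sums of products with series in `v`;
* `map_zeroCl_cTh` : the value on the Euler class of a line bundle.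
-/

open CategoryTheory MonoidalCategory Matrix Finset
open Vale.Agent.P251.G Vale.Agent.P251.G.LC Vale.Agent.P251.Q Vale.Agent.P251.Q.MultTheory
open Vale.Agent.P217 Vale.Agent.P251.F

universe v

set_option linter.unusedSectionVars false
set_option linter.style.haveILetI false

noncomputable section

namespace Vale.Agent.P257.Det

/-! ### Geometry of the map `cl` -/

section frames

variable {B : Type} [TopologicalSpace B] [CompactSpace B] [T2Space B]
variable {κ J I I' : Type} [Fintype κ] [Fintype J] [Fintype I] [Fintype I'] [DecidableEq J]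
  [Nonempty J] [DecidableEq κ] [DecidableEq I] [DecidableEq I'] (F : Frames B κ J)

theorem cl_isom {n N : ℕ} (hN : Fintype.card J * n = N) (u : Matrix I' I ℂ) (hu : uᴴ * u = 1) :
    (Th.map u hu ▷ LC.of B) ≫ F.cl (ι := I') hN = F.cl (ι := I) hN ≫
      Th.map (kroneckerMap (· * ·) u (1 : Matrix κ κ ℂ)) (Orientation.kron_isom hu isom_one) := by
  apply tensor_ext
  intro x b
  have h1 : app ((Th.map u hu ▷ LC.of B) ≫ F.cl (ι := I') hN)
      (smash (x : OnePoint (Th n I)) (b : OnePoint B)) =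
      (F.clFun hN (Th.mapFun u hu x, b) : OnePoint (Th N (I' × κ))) := rfl
  have h2 : app (F.cl (ι := I) hN ≫
      Th.map (kroneckerMap (· * ·) u (1 : Matrix κ κ ℂ)) (Orientation.kron_isom hu isom_one))
      (smash (x : OnePoint (Th n I)) (b : OnePoint B)) =
      (Th.mapFun (kroneckerMap (· * ·) u (1 : Matrix κ κ ℂ)) (Orientation.kron_isom hu isom_one)
        (F.clFun hN (x, b)) : OnePoint (Th N (I' × κ))) := rfl
  rw [h1, h2]
  refine congrArg OnePoint.some (Th.ext ?_ ?_)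
  · change (F.clFun hN (Th.mapFun u hu x, b)).P = kroneckerMap (· * ·) u (1 : Matrix κ κ ℂ) *
      (F.clFun hN (x, b)).P * (kroneckerMap (· * ·) u (1 : Matrix κ κ ℂ))ᴴ
    rw [F.clFun_P, F.clFun_P, ← Orientation.kron_conj]
    congr 1
    simp
  · change (F.clFun hN (Th.mapFun u hu x, b)).v = kroneckerMap (· * ·) u (1 : Matrix κ κ ℂ) *ᵥ
      (F.clFun hN (x, b)).v
    rw [F.clFun_v, F.clFun_v]
    ext ⟨a, c⟩
    change (u *ᵥ x.v) a * F.s b c = _
    simp [mulVec, dotProduct, Fintype.sum_prod_type, Matrix.one_apply, Finset.sum_mul, mul_assoc]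

theorem cl_sum {n m k N M K : ℕ} (h : n + m = k) (hN : Fintype.card J * n = N)
    (hM : Fintype.card J * m = M) (hK : Fintype.card J * k = K) (h' : N + M = K) :
    (Th.sum h ▷ LC.of B) ≫ F.cl (ι := I ⊕ I') hK =
      muB _ _ _ ≫ (F.cl (ι := I) hN ⊗ₘ F.cl (ι := I') hM) ≫ Th.sum h' ≫
        (Th.reindex (Equiv.sumProdDistrib I I' κ).symm).hom := by
  apply tensor_ext
  rintro ⟨x, y⟩ b
  have h1 : app ((Th.sum h ▷ LC.of B) ≫ F.cl (ι := I ⊕ I') hK)
      (smash (((x, y) : Th n I × Th m I') : OnePoint (Th n I × Th m I')) (b : OnePoint B)) =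
      (F.clFun hK (Th.sumFun h x y, b) : OnePoint (Th K ((I ⊕ I') × κ))) := rfl
  have h2 : app (muB _ _ _ ≫ (F.cl (ι := I) hN ⊗ₘ F.cl (ι := I') hM) ≫ Th.sum h' ≫
        (Th.reindex (Equiv.sumProdDistrib I I' κ).symm).hom)
      (smash (((x, y) : Th n I × Th m I') : OnePoint (Th n I × Th m I')) (b : OnePoint B)) =
      app (Th.reindex (Equiv.sumProdDistrib I I' κ).symm).hom
        (Th.sumFun h' (F.clFun hN (x, b)) (F.clFun hM (y, b)) :
          OnePoint (Th K ((I × κ) ⊕ (I' × κ)))) := rfl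
  refine h1.trans (Eq.trans ?_ h2.symm)
  rw [Th.app_reindex_hom_coe]
  refine congrArg OnePoint.some (Th.ext ?_ ?_)
  · change (F.clFun hK (Th.sumFun h x y, b)).P = (Matrix.fromBlocks (F.clFun hN (x, b)).P 0 0
      (F.clFun hM (y, b)).P).submatrix (Equiv.sumProdDistrib I I' κ) (Equiv.sumProdDistrib I I' κ)
    rw [F.clFun_P, F.clFun_P, F.clFun_P]
    ext ⟨a, c⟩ ⟨a', c'⟩
    change Matrix.fromBlocks x.P 0 0 y.P a a' * F.ρ.P b c c' = _
    rcases a with a | a <;> rcases a' with a' | a' <;> simp [kroneckerMap_apply]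
  · change (F.clFun hK (Th.sumFun h x y, b)).v = Sum.elim (F.clFun hN (x, b)).v
      (F.clFun hM (y, b)).v ∘ (Equiv.sumProdDistrib I I' κ)
    rw [F.clFun_v, F.clFun_v, F.clFun_v]
    ext ⟨a, c⟩
    change Sum.elim x.v y.v a * F.s b c = _
    rcases a with a | a <;> simp

end frames

/-! ### Series in the class `v` -/

section series

theorem map_wSeries {R S : Type*} [CommRing R] [CommRing S] (φ : R →+* S) (F : FormalGroup R)
    (p : ℕ) : PowerSeries.map φ (wSeries F p) = wSeries (F.map φ) p := by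
  rw [wSeries, wSeries, map_prod]
  exact prod_congr rfl fun i _ => map_multSeries φ F (i + 1)

theorem map_divSeries {R S : Type*} [CommRing R] [CommRing S] (φ : R →+* S) (F : FormalGroup R)
    (p : ℕ) : PowerSeries.map φ (divSeries F p) = divSeries (F.map φ) p := by
  ext l
  rw [PowerSeries.coeff_map, divSeries, divSeries, PowerSeries.coeff_mk, PowerSeries.coeff_mk,
    ← map_multSeries, PowerSeries.coeff_map]

variable {E : MultTheory.{v}} (o : Orientation E) (r k : ℕ)

theorem tau_reindex {I J : Type} [Fintype I] [Fintype J] [DecidableEq I] [DecidableEq J] (n : ℕ)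
    (e : I ≃ J) : E.map (Th.reindex e).hom (o.tau n J) = o.tau n I :=
  tau_map o n (injMat e) (injMat_isom e.injective)

/-- the class `v` -/
abbrev vk : E.U (Bk r k) := o.vL (r + 1) (Idx k)

theorem vk_pow : vk o r k ^ (k + 1) = 0 := vL_pow_eq_zero o (card_Idx k).le

theorem vk_nil : IsNilpotent (vk o r k) := ⟨_, vk_pow o r k⟩

theorem ev_wSeries_eq : o.coeff.ev k (vk o r k) (wSeries o.coeff.F (r + 1)) = wk o r k := by
  rw [ev_eq_nev (vk_pow o r k), map_wSeries, coeff_F_map]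
  rfl

theorem euler_k (m : ℕ) (I : Type) [Fintype I] :
    EulerForm o (rhobar (r + 1) (Idx k)) (rhobar_isRank (r + 1) (Idx k)) (wk o r k)
      (o.coeff.vspan (vk o r k) : Set (E.U (Bk r k))) m I := by
  rw [← ev_wSeries_eq]
  exact eulerForm_lens o (hasLaw_coeff o) (card_Idx k).le m I

theorem sqrt_pos' : 0 < Real.sqrt ((r + 1 : ℕ) : ℝ) :=
  Real.sqrt_pos.mpr (by exact_mod_cast Nat.succ_pos r)

theorem map_diag_thomCl_k (hpos : ∀ j : ℤ, 0 < j → ∀ x ∈ E.deg (𝟙_ LC) j, x = 0) (V : Type)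
    [Fintype V] [DecidableEq V] :
    E.map (Fk r k).diag (thomCl o ((Fk r k).ρW V) (isRank_ρW (Fk r k))) =
      E.cross (o.lin V) (wk o r k ^ Fintype.card V) :=
  haveI : E.Good ((Fk r k).ρW V).tot := good_ρW (Fk r k)
  map_diag_thomCl o (Fk r k) (rhobar_isRank (r + 1) (Idx k)) hpos
    (lensFrames_ρ (r + 1) (Nat.succ_ne_zero r) (Idx k)) (sqrt_pos' r)
    (lensFrames_s (r + 1) (Nat.succ_ne_zero r) (Idx k)) (euler_k o r k _ V)

theorem mem_range_of_vspan {c : E.U (Bk r k)} (hc : c ∈ o.coeff.vspan (vk o r k)) :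
    ∃ g : PowerSeries E.A, c = nev1 (vk o r k) g := by
  have hv := vk_nil o r k
  refine AddSubgroup.closure_induction ?_ ?_ ?_ ?_ hc
  · rintro z ⟨c, l, rfl⟩
    refine ⟨o.coeff.φ c • PowerSeries.X ^ l, ?_⟩
    rw [nev1, nev_smul (fun _ => hv), nev_pow (fun _ => hv)]
    exact congrArg (fun t => o.coeff.φ c • t ^ l) (nev1_X hv).symm
  · exact ⟨0, (nev1_zero hv).symm⟩
  · rintro a b _ _ ⟨g, rfl⟩ ⟨g', rfl⟩
    exact ⟨g + g', (nev_add (fun _ => hv) g g').symm⟩
  · rintro a _ ⟨g, rfl⟩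
    refine ⟨0 - g, ?_⟩
    rw [nev1, nev1, nev_sub (fun _ => hv), nev_zero (fun _ => hv), zero_sub]

/-- the classes `cTh` are sums of products with series in `v` -/
theorem cTh_poly (n : ℕ) (I : Type) [Fintype I] :
    ∃ (T : Type) (_ : Fintype T) (s : T → E.U (LC.of (Th n I))) (g : T → PowerSeries E.A),
      cTh o r k n I = ∑ t, E.cross (s t) (nev1 (vk o r k) (g t)) := by
  classical
  obtain ⟨T, hT, g, d, c, -, -, hc, h⟩ := euler_k o r k n I
  choose q hq using fun t => mem_range_of_vspan o r k (hc t)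
  have h1 := map_cl_tau' o (Fk r k) (rhobar_isRank (r + 1) (Idx k))
    (lensFrames_ρ (r + 1) (Nat.succ_ne_zero r) (Idx k)) (sqrt_pos' r)
    (lensFrames_s (r + 1) (Nat.succ_ne_zero r) (Idx k)) (N := (r + 1) * n)
    (by rw [Fintype.card_fin]) h
  refine ⟨Option T, inferInstance,
    fun t => t.elim (o.tau n I) fun t => E.act (grC n I) (g t) (o.tau n I),
    fun t => t.elim (wSeries o.law.toFG (r + 1) ^ n) q, ?_⟩
  rw [Fintype.sum_option]
  refine h1.trans ?_
  congr 1
  · congr 1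
    exact (nev_pow (fun _ => vk_nil o r k) _ n).symm
  · exact sum_congr rfl fun t _ => congrArg _ (hq t)

end series

/-! ### The exponential classes -/

section inst

variable (E : ThomTheory.{v}) (r : ℕ)

/-- The classes `cTh` are exponential. -/
abbrev lensExp (k : ℕ) : ExpCl E.o (Bk r k) where
  w := wk E.o r k
  c := cTh E.o r k
  isom u hu := by
    rw [cTh, cTh, ← MultTheory.map_comp, cl_isom, MultTheory.map_comp, tau_map]
  sum {n m l} h I J _ _ := by
    classical
    rw [cTh, cTh, cTh, ← MultTheory.map_comp, cl_sum (Fk r k) h (N := (r + 1) * n)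
      (M := (r + 1) * m) (by rw [Fintype.card_fin]) (by rw [Fintype.card_fin]) _
      (by rw [← h, mul_add]), MultTheory.map_comp, MultTheory.map_comp, MultTheory.map_comp]
    rw [tau_reindex, tau_sum', ← cross_map, bx_apply]
  lin V _ _ h := by
    subst h
    haveI : E.Good ((Fk r k).ρW V).tot := good_ρW (Fk r k)
    rw [cTh, ← MultTheory.map_comp, ← linMap_eq, ← diag_classHom, MultTheory.map_comp]
    exact map_diag_thomCl_k E.o r k E.deg_unit_pos V

/-- The exponential classes over the lens spaces take integral values. -/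
abbrev lensFam : PFam E where
  B := Bk r
  C := lensExp E r
  int k X _ V I _ _ _ n f := by
    haveI : E.Good ((Fk r k).ρW V).tot := good_ρW (Fk r k)
    have hN : Fintype.card (Fin (r + 1)) * n = (r + 1) * n := by rw [Fintype.card_fin]
    obtain ⟨P, hP⟩ := (thomX_bijective E.o X ((Fk r k).ρW V) (isRank_ρW (Fk r k))).2
      (E.map ((Fk r k).pow hN f) (E.o.tau _ _))
    refine ⟨P, ?_⟩
    have h1 := congrArg (fun y => E.map (α_ X (LC.of (V → ℂ)) (Bk r k)).hom
      (E.map (X ◁ (Fk r k).diag) y)) hP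
    rw [thomX_apply, ← MultTheory.map_comp (X ◁ (Fk r k).diag), diag_kap, MultTheory.map_comp,
      ← cross_map_right, map_diag_thomCl_k E.o r k E.deg_unit_pos, map_tauMor,
      ← MultTheory.map_comp, ← MultTheory.map_comp, ← MultTheory.map_comp, Category.assoc,
      (Fk r k).pow_diag hN f, MultTheory.map_comp (f ▷ _)] at h1
    rw [ExpCl.Psi, sus_apply, bx_cross_one]
    exact h1

end inst

/-! ### Line bundles -/

section line

variable {E : MultTheory.{v}} (o : Orientation E) (r k : ℕ)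
variable {X : LC} [CompactSpace X] [hX : GoodBase E X] [hXB : GoodBase E (X ⊗ Bk r k)]
  {ι : Type} [Fintype ι]

theorem e_tensor_rhobar (L : Bun X ι) (hL : L.IsRank 1)
    (h : Bun.IsRank (X := (X ⊗ Bk r k : LC)) ((L.pullback (fstC X (Bk r k))).tensor
      ((rhobar (r + 1) (Idx k)).pullback (sndC X (Bk r k)))) (1 * (r + 1 - 1))) :
    o.e (B := X ⊗ Bk r k) _ h = ∏ j ∈ range (r + 1 - 1),
      nev ![E.mapAlg (fstC X (Bk r k)) (o.e L hL),
        mt o.law.toFG (j + 1) (E.mapAlg (sndC X (Bk r k)) (vk o r k))]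
        o.law.toFG.toPowerSeries := by
  classical
  haveI := o.goodGr
  have hL' : Bun.IsRank (X := (X ⊗ Bk r k : LC)) (L.pullback (fstC X (Bk r k))) 1 :=
    hL.pullback _
  have hT : ∀ j : Fin (r + 1 - 1), Bun.IsRank (X := (X ⊗ Bk r k : LC))
      ((lensT (r + 1) (Idx k) j).pullback (sndC X (Bk r k))) 1 :=
    fun j => (lensT_isRank (r + 1) (Idx k) j).pullback _
  have h3 : ∀ j : Fin (r + 1 - 1), Bun.IsRank (X := (X ⊗ Bk r k : LC))
      ((L.pullback (fstC X (Bk r k))).tensor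
        ((lensT (r + 1) (Idx k) j).pullback (sndC X (Bk r k)))) 1 := fun j => hL'.tensor (hT j)
  let φ := Bun.Isom.tensorSigma (X := (X ⊗ Bk r k : LC)) (L.pullback (fstC X (Bk r k)))
    fun j : Fin (r + 1 - 1) => (lensT (r + 1) (Idx k) j).pullback (sndC X (Bk r k))
  have hs : (∑ _j : Fin (r + 1 - 1), 1) = 1 * (r + 1 - 1) := by simp
  have h4 := φ.isRank h
  have h' : Bun.IsRank (X := (X ⊗ Bk r k : LC)) ((L.pullback (fstC X (Bk r k))).tensor
      (Bun.sigma fun j : Fin (r + 1 - 1) =>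
        (lensT (r + 1) (Idx k) j).pullback (sndC X (Bk r k)))) (1 * (r + 1 - 1)) := h
  haveI := hXB.tot _ h'
  haveI := hXB.tot _ h4
  have h5 := e_isom o (B := X ⊗ Bk r k) φ h' h4
  refine h5.trans ?_
  rw [e_congr_rank o hs.symm h4 (Bun.IsRank.sigma h3), e_sigma o _ (fun _ => 1) h3,
    ← Fin.prod_univ_eq_prod_range (fun j => nev ![E.mapAlg (fstC X (Bk r k)) (o.e L hL),
        mt o.law.toFG (j + 1) (E.mapAlg (sndC X (Bk r k)) (vk o r k))]
        o.law.toFG.toPowerSeries) (r + 1 - 1)]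
  refine prod_congr rfl fun j _ => ?_
  rw [hasLaw o (X ⊗ Bk r k) _ _ _ _ hL' (hT j) (h3 j), e_pull o _ L hL,
    e_pull o (X := Bk r k) _ _ (lensT_isRank (r + 1) (Idx k) j), ← map_mt _ _ _ (vk_nil o r k)]
  have h6 : o.e (B := Bk r k) (lensT (r + 1) (Idx k) j) (lensT_isRank (r + 1) (Idx k) j) =
      mt o.law.toFG ((j : ℕ) + 1) (vk o r k) :=
    e_tpow o (hasLaw o) (lensL (r + 1) (Idx k)) (lensL_isRank (r + 1) (Idx k)) ((j : ℕ) + 1)
  rw [h6]

/-- the value on the Euler class of a line bundle -/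
theorem map_zeroCl_cTh (L : Bun X ι) (hL : L.IsRank 1) :
    E.map ((zeroCl (Z := X) L hL : X ⟶ _) ▷ Bk r k) (cTh o r k 1 ι) =
      fz o.law.toFG (r + 1) (E.mapAlg (fstC X (Bk r k)) (o.e L hL))
        (E.mapAlg (sndC X (Bk r k)) (vk o r k)) := by
  classical
  haveI := o.goodGr
  haveI := hX.tot L hL
  let g : C((X ⊗ Bk r k : LC), (LC.of (Gr 1 ι) ⊗ Bk r k : LC)) :=
    pairC ((lineCls L hL).comp (fstC X (Bk r k))) (sndC X (Bk r k))
  have h1 : ((zeroCl (Z := X) L hL : X ⟶ _) ▷ Bk r k) ≫ grMor 1 ι (Lens (r + 1) (Idx k)) =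
      P251.Q.diag (X ⊗ Bk r k) ≫ ((cmap (fstC X (Bk r k)) ≫ (zeroCl (Z := X) L hL : X ⟶ _)) ⊗ₘ
        cmap g) := by
    apply tensor_ext
    intro x b
    rfl
  have h2 := map_cl_tau (Fk r k) (rhobar_isRank (r + 1) (Idx k))
    (lensFrames_ρ (r + 1) (Nat.succ_ne_zero r) (Idx k)) (sqrt_pos' r)
    (lensFrames_s (r + 1) (Nat.succ_ne_zero r) (Idx k)) o (ι := ι) (m := 1) (N := (r + 1) * 1)
    (by rw [Fintype.card_fin])
  have h3 : E.map (zeroCl (Z := X) L hL : X ⟶ _) (o.tau 1 ι) = o.e L hL :=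
    (eulerCl_eq_eu o L hL).trans (o.eu_eq_e L hL)
  have hr : Bun.IsRank (X := (X ⊗ Bk r k : LC)) ((L.pullback (fstC X (Bk r k))).tensor
      ((rhobar (r + 1) (Idx k)).pullback (sndC X (Bk r k)))) (1 * (r + 1 - 1)) :=
    (hL.pullback _).tensor ((rhobar_isRank (r + 1) (Idx k)).pullback _)
  haveI := hXB.tot _ hr
  have h4 : E.map (cmap g) (eulerCl o (gamRho 1 ι (rhobar (r + 1) (Idx k)))
      (gamRho_isRank 1 (rhobar_isRank (r + 1) (Idx k))) : E.U (LC.of (Gr 1 ι) ⊗ Bk r k)) =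
      o.e (B := X ⊗ Bk r k) _ hr := by
    rw [← o.eu_eq_e]
    refine (congrArg (E.map (cmap g)) (eulerCl_eq_eu o (X := LC.of (Gr 1 ι) ⊗ Bk r k)
      (gamRho 1 ι (rhobar (r + 1) (Idx k)))
      (gamRho_isRank 1 (rhobar_isRank (r + 1) (Idx k))))).trans ?_
    exact o.map_eu g _ _
  rw [cTh, h2, ← MultTheory.map_comp, h1, MultTheory.map_comp, ← cross_map, ← mul_eq,
    MultTheory.map_comp, h3, h4, e_tensor_rhobar o r k L hL hr]
  rfl

end line

end Vale.Agent.P257.Det
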