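import Vale.Agent.P257.Det.Beta
import Vale.Agent.P257.Det.PowLens
import Vale.Agent.P251.G.CellTh

/-!
# P257, detection: Borel classes over the lens spaces

* `lensCyc r k` : the sphere over the lens space, `cyc r` the cyclic permutation;
* `beta_diag`, `beta_diag'` : the Borel class of the diagonal is the Euler class `wk`;
* `powF f` : the power of a map to a Thom space, `isPsi_powF`, `isPsi_of`, `map_powF_tau`;
* `nil_of_point` : classes which vanish at all points are nilpotent.
-/

set_option linter.unusedSectionVars false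
set_option linter.style.haveILetI false

open CategoryTheory MonoidalCategory Matrix Topology Filter OnePoint
open Vale.Agent.P251.G Vale.Agent.P251.G.LC Vale.Agent.P251.Q Vale.Agent.P251.Q.MultTheory

universe v

noncomputable section

namespace Vale.Agent.P257.Det

/-! ### The cyclic covering of the lens space -/

section cyc

theorem normSq_zetaC (r : ℕ) : Complex.normSq (zetaC (r + 1)) = 1 :=
  normSq_of_pow_eq (Nat.succ_ne_zero r) (c := 1) (by simp) (zetaC_pow_self (r + 1))

/-- the generator of the deck transformations -/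
def lensTau (r k : ℕ) (x : SS (Idx k)) : SS (Idx k) := SS.smul (zetaC (r + 1)) (normSq_zetaC r) x

theorem lensTau_iterate (r k m : ℕ) (x : SS (Idx k)) :
    ((lensTau r k)^[m] x).v = zetaC (r + 1) ^ m • x.v := by
  induction m with
  | zero => simp
  | succ m ih =>
    rw [Function.iterate_succ_apply', lensTau, SS.smul_v, ih, smul_smul, pow_succ']

theorem frameΦ_smul (r : ℕ) {κ : Type} (x : κ → ℂ) (c : RhoIdx (r + 1) κ) (j : Fin (r + 1)) :
    frameΦ (r + 1) (zetaC (r + 1) • x) c j = frameΦ (r + 1) x c (j + 1) := by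
  rcases c with a | b
  · rfl
  · rw [frameΦ_inr, frameΦ_inr, tp_smul, Fin.val_add, Fin.val_one', Nat.add_mod_mod]
    have h1 : zetaC (r + 1) ^ ((((j : ℕ) + 1) % (r + 1)) * (b.1 + 1)) =
        zetaC (r + 1) ^ (((j : ℕ) + 1) * (b.1 + 1)) := by
      rw [pow_mul, pow_mul]
      congr 1
      conv_rhs => rw [← Nat.mod_add_div ((j : ℕ) + 1) (r + 1)]
      rw [pow_add, pow_mul, zetaC_pow_self, one_pow, mul_one]
    rw [h1, Pi.smul_apply, smul_eq_mul, add_mul, pow_add (zetaC (r + 1)) ((j : ℕ) * _), one_mul]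
    ring

/-- The sphere over the lens space. -/
def lensCyc (r k : ℕ) : CycF (Bk r k) r where
  S := LC.of (SS (Idx k))
  π := SS.lens (r + 1)
  cont_π := SS.continuous_lens (r + 1)
  surj := SS.lens_surjective (Nat.succ_ne_zero r)
  τ := lensTau r k
  π_τ e := ((SS.lens_eq_iff (Nat.succ_ne_zero r)).2 ⟨_, zetaC_pow_self (r + 1), rfl⟩).symm
  ex e e' h := by
    obtain ⟨c, hc, hy⟩ := (SS.lens_eq_iff (Nat.succ_ne_zero r)).1 h
    obtain ⟨m, -, rfl⟩ := (isPrimitiveRoot_zetaC (Nat.succ_ne_zero r)).eq_pow_of_pow_eq_one hc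
    exact ⟨m, Subtype.ext (hy.trans (lensTau_iterate r k m e).symm)⟩
  κ := Unit ⊕ RbarIdx (r + 1) (Idx k)
  Φ x := frameΦ (r + 1) (SS.v x)
  cont_Φ := (continuous_frameΦ (r + 1)).comp SS.continuous_v
  isom x := frameΦ_isom (Nat.succ_ne_zero r) (SS.nsq_v x)
  Φ_τ e c j := frameΦ_smul r (SS.v e) c j

/-- the cyclic permutation `j ↦ j - 1` -/
def cyc (r : ℕ) : Equiv.Perm (Fin (r + 1)) := (Equiv.addRight (1 : Fin (r + 1))).symm

theorem cyc_symm_apply (r : ℕ) (j : Fin (r + 1)) : (cyc r).symm j = j + 1 := rfl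

theorem cyc_add_one (r : ℕ) (j : Fin (r + 1)) : cyc r j + 1 = j :=
  (cyc r).symm_apply_apply j

theorem cyc_pow (r : ℕ) : cyc r ^ (r + 1) = 1 := by
  have h : ∀ (m : ℕ) (j : Fin (r + 1)), (cyc r ^ m) j + m • (1 : Fin (r + 1)) = j := by
    intro m
    induction m with
    | zero => intro j; simp
    | succ m ih =>
      intro j
      rw [pow_succ', Equiv.Perm.mul_apply, succ_nsmul', ← add_assoc, cyc_add_one, ih]
  ext j
  have h1 := h (r + 1) j
  have h2 : (r + 1) • (1 : Fin (r + 1)) = 0 := by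
    have := card_nsmul_eq_zero (G := Fin (r + 1)) (x := 1)
    rwa [Fintype.card_fin] at this
  rw [h2, add_zero] at h1
  rw [h1]
  rfl

variable (W : Type) [Fintype W] [DecidableEq W]

/-- the permutation `id × cyc` -/
def cycP (r : ℕ) : Equiv.Perm (W × Fin (r + 1)) := Equiv.prodCongr (Equiv.refl W) (cyc r)

/-- the matrix of the permutation `id × cyc` -/
abbrev cycM (r : ℕ) : Matrix (W × Fin (r + 1)) (W × Fin (r + 1)) ℂ := injMat (cycP W r)

theorem cycP_pow (r : ℕ) : cycP W r ^ (r + 1) = 1 := by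
  have h : ∀ m : ℕ, cycP W r ^ m = Equiv.prodCongr (Equiv.refl W) (cyc r ^ m) := by
    intro m
    induction m with
    | zero => rfl
    | succ m ih => rw [pow_succ, ih, pow_succ]; rfl
  rw [h, cyc_pow]
  rfl

theorem isU_cycM (r : ℕ) : IsU (r + 1) (cycM W r) := IsU.perm _ (cycP_pow W r)

theorem cycM_mulVec (r : ℕ) (v : W × Fin (r + 1) → ℂ) :
    cycM W r *ᵥ v = fun a => v (a.1, a.2 + 1) := injMat_equiv_mulVec _ v

theorem mul_injMat {I J K : Type} [Fintype J] [DecidableEq J] (M : Matrix K J ℂ) (f : I → J) :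
    M * injMat f = M.submatrix id f := by
  ext a b
  rw [Matrix.mul_apply]
  simp [injMat_apply]

/-- the frame for the permutation representation -/
def CycF.frP {B : LC} {r : ℕ} (L : CycF B r) : L.toCyc.Fr (cycM W r) (W × L.κ) where
  Ψ e := amp W (L.Φ e)
  cont := continuous_amp L.cont_Φ
  isom e := amp_conjTranspose_mul_amp (L.isom e)
  rel e := by
    rw [mul_injMat]
    ext a b
    change amp W (L.Φ (L.τ e)) a (b.1, cyc r b.2) = _
    rw [amp_apply, amp_apply, L.Φ_τ, cyc_add_one]

end cyc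

/-! ### Powers of maps -/

section pow

variable {n N : ℕ} {I W : Type} [Fintype I] [Fintype W] [DecidableEq I] [DecidableEq W]

/-- `ℂ^(W × J) = (ℂ^W)^J` -/
def uncur (W J : Type) [Fintype W] [Fintype J] : Cpow (W × J) ≅ LC.powObj J (Cpow W) :=
  ofHomeo (X := Cpow (W × J)) (Y := LC.powObj J (Cpow W))
    { toFun := fun v j a => v (a, j)
      invFun := fun w a => w a.2 a.1
      left_inv := fun _ => rfl
      right_inv := fun _ => rfl
      continuous_toFun := by fun_prop
      continuous_invFun := by fun_prop }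

/-- the diagonal `ℂ^W ⟶ ℂ^(W × J)` -/
def diagC (W : Type) [Fintype W] (r : ℕ) : Cpow W ⟶ Cpow (W × Fin (r + 1)) :=
  mdiag r (Cpow W) ≫ (uncur W (Fin (r + 1))).inv

theorem app_diagC (r : ℕ) (z : W → ℂ) : app (diagC W r) (z : OnePoint (W → ℂ)) =
    ((fun a => z a.1 : W × Fin (r + 1) → ℂ) : OnePoint (W × Fin (r + 1) → ℂ)) := rfl

/-- the power of a map to a Thom space -/
def powF (q : ℕ) (hN : q * n = N) (f : Cpow W ⟶ LC.of (Th n I)) :
    Cpow (W × Fin q) ⟶ LC.of (Th N (I × Fin q)) :=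
  (uncur W (Fin q)).hom ≫ powHom (Fin q) f ≫ thPow hN I 1 isom_one

theorem app_thPow {q : ℕ} {κ : Type} [Fintype κ] [DecidableEq κ] (hN : q * n = N)
    (Φ : Matrix κ (Fin q) ℂ) (hΦ : Φᴴ * Φ = 1) (x : OnePoint (Fin q → Th n I)) :
    app (thPow hN I Φ hΦ) x =
      OnePoint.map (Th.pow (by rw [Fintype.card_fin, hN]) Φ hΦ) x := by
  induction x using OnePoint.rec with
  | infty => exact app_infty _
  | coe x => rfl

theorem app_powF (q : ℕ) (hN : q * n = N) (f : Cpow W ⟶ LC.of (Th n I)) (v : W × Fin q → ℂ) :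
    app (powF q hN f) (v : OnePoint (W × Fin q → ℂ)) =
      OnePoint.map (Th.pow (by rw [Fintype.card_fin, hN]) 1 isom_one)
        (OP.smash fun j => app f ((fun a => v (a, j) : W → ℂ) : OnePoint (W → ℂ))) :=
  app_thPow hN 1 isom_one _

theorem amp_mul {κ J K : Type} [Fintype κ] [Fintype J] (Φ : Matrix K κ ℂ) (Ψ : Matrix κ J ℂ) :
    amp I Φ * amp I Ψ = amp I (Φ * Ψ) := by
  rw [amp, amp, amp, ← Matrix.mul_kronecker_mul, Matrix.one_mul]

theorem mapFun_amp_pow {κ J K : Type} [Fintype κ] [Fintype J] [Fintype K] [DecidableEq κ]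
    [DecidableEq J] [DecidableEq K] (hN : Fintype.card J * n = N) (Φ : Matrix K κ ℂ)
    (hΦ : Φᴴ * Φ = 1) (Ψ : Matrix κ J ℂ) (hΨ : Ψᴴ * Ψ = 1) (t : J → Th n I) :
    Th.mapFun (amp I Φ) (amp_conjTranspose_mul_amp hΦ) (Th.pow hN Ψ hΨ t) =
      Th.pow hN (Φ * Ψ) (isom_mul hΦ hΨ) t := by
  refine Th.ext ?_ ?_
  · change amp I Φ * powMat Ψ _ * (amp I Φ)ᴴ = powMat (Φ * Ψ) _
    rw [powMat_eq, powMat_eq, ← amp_mul, conjTranspose_mul]
    simp only [Matrix.mul_assoc]
  · change amp I Φ *ᵥ powVec Ψ _ = powVec (Φ * Ψ) _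
    rw [← amp_mulVec, ← amp_mulVec, mulVec_mulVec, amp_mul]

theorem pow_congr {κ J : Type} [Fintype κ] [Fintype J] [DecidableEq J]
    (hN : Fintype.card J * n = N) {Φ Φ' : Matrix κ J ℂ} (h : Φ = Φ') (hΦ : Φᴴ * Φ = 1)
    (hΦ' : Φ'ᴴ * Φ' = 1) (t : J → Th n I) : Th.pow hN Φ hΦ t = Th.pow hN Φ' hΦ' t := by
  subst h
  rfl

theorem amp_injMat {J K : Type} [DecidableEq K] (g : J → K) :
    amp I (injMat g) = injMat (Prod.map (id : I → I) g) := by
  ext a b
  simp only [amp, injMat, kroneckerMap_apply, of_apply, Matrix.one_apply]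
  by_cases h1 : a.1 = b.1 <;> by_cases h2 : a.2 = g b.2 <;> simp [h1, h2, Prod.ext_iff]

/-- the power of a map is equivariant for all permutations -/
theorem eqv_powF (q : ℕ) (hN : q * n = N) (f : Cpow W ⟶ LC.of (Th n I)) (g : Equiv.Perm (Fin q))
    (h : (injMat (Equiv.prodCongr (Equiv.refl I) g))ᴴ *
      injMat (Equiv.prodCongr (Equiv.refl I) g) = (1 : Matrix (I × Fin q) (I × Fin q) ℂ)) :
    Eqv (Z := Cpow (W × Fin q)) (fun v => injMat (Equiv.prodCongr (Equiv.refl W) g) *ᵥ v)
      (Th.mapFun (injMat (Equiv.prodCongr (Equiv.refl I) g)) h) (powF q hN f) := fun v => by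
  beta_reduce
  rw [injMat_equiv_mulVec, app_powF, app_powF]
  cases isEmpty_or_nonempty (Fin q) with
  | inl hq =>
    have e : ∀ y : Fin q → OnePoint (Th n I), OP.smash y =
        ((fun j => hq.elim j : Fin q → Th n I) : OnePoint (Fin q → Th n I)) := fun y => by
      rw [← OP.smash_coe]
      exact congrArg _ (Subsingleton.elim _ _)
    rw [e, e]
    refine congrArg OnePoint.some (Th.ext ?_ ?_)
    · ext a
      exact hq.elim a.2
    · ext a
      exact hq.elim a.2
  | inr hq =>
    refine (congrArg _ (Frames.smash_perm g.symm fun j =>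
      app f ((fun a => v (a, j) : W → ℂ) : OnePoint (W → ℂ)))).trans ?_
    generalize (OP.smash fun j => app f ((fun a => v (a, j) : W → ℂ) : OnePoint (W → ℂ))) = z
    induction z using OnePoint.rec with
    | infty => rfl
    | coe t =>
      refine congrArg OnePoint.some ?_
      have hg := injMat_isom g.injective
      have h1 := mapFun_amp_pow (I := I) (n := n) (N := N) (by rw [Fintype.card_fin, hN])
        (injMat g) hg 1 isom_one t
      have h2 := Th.pow_perm (ι := I) (n := n) (N := N) (by rw [Fintype.card_fin, hN])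
        (injMat g * 1) 1 (isom_mul hg isom_one) isom_one g.symm (by
          rw [Matrix.mul_one, ← mul_injMat, injMat_comp, Equiv.self_comp_symm, injMat_id]) t
      refine h2.trans (h1.symm.trans ?_)
      refine Th.ext ?_ ?_
      · rw [Th.mapFun_P, Th.mapFun_P, amp_injMat]
        rfl
      · rw [Th.mapFun_v, Th.mapFun_v, amp_injMat]
        rfl

theorem eq_powF (r : ℕ) (hN : (r + 1) * n = N) (f : Cpow W ⟶ LC.of (Th n I)) :
    EQ (r + 1) (cycM W r) (cycM I r) (powF (r + 1) hN f) :=
  ⟨isU_cycM W r, isU_cycM I r, eqv_powF (r + 1) hN f (cyc r) _⟩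

theorem powF_incl (q : ℕ) (hN : q * n = N) (h : Fintype.card W = n)
    (h' : Fintype.card (W × Fin q) = N) : powF q hN (Th.incl' h) = Th.incl' h' := by
  apply LC.hom_ext
  intro v
  rw [app_powF, Th.app_incl'_coe]
  simp only [Th.app_incl'_coe]
  rw [OP.smash_coe]
  refine congrArg OnePoint.some (Th.ext ?_ ?_)
  · change powMat (1 : Matrix (Fin q) (Fin q) ℂ) (fun _ => (1 : Matrix W W ℂ)) = 1
    rw [powMat_const, conjTranspose_one, Matrix.one_mul]
    exact Matrix.one_kronecker_one
  · change powVec (1 : Matrix (Fin q) (Fin q) ℂ) (fun j a => v (a, j)) = v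
    ext a
    simp [powVec, Matrix.one_apply]

theorem eqv_diagC (r : ℕ) : Eqv (Z := Cpow W) (Z' := Cpow (W × Fin (r + 1))) id
    (fun v => cycM W r *ᵥ v) (diagC W r) := fun z => by
  change ((fun a => z a.1 : W × Fin (r + 1) → ℂ) : OnePoint (W × Fin (r + 1) → ℂ)) =
    ((cycM W r *ᵥ fun a => z a.1 : W × Fin (r + 1) → ℂ) : OnePoint (W × Fin (r + 1) → ℂ))
  rw [cycM_mulVec]

variable (r k : ℕ)

/-- the Borel construction of the restriction of a power to the diagonal -/
theorem borel_diagC (hN : (r + 1) * n = N) (f : Cpow W ⟶ LC.of (Th n I)) :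
    ((lensCyc r k).toCyc.triv (Cpow W)).borel ((lensCyc r k).frP I)
      (diagC W r ≫ powF (r + 1) hN f) ((eqv_diagC r).comp (eq_powF r hN f).eqv) =
      f ▷ Bk r k ≫ (Fk r k).cl (N := N) (by rw [Fintype.card_fin, hN]) := by
  apply ((lensCyc r k).toCyc.triv (Cpow W)).hom_ext'
  intro e z
  rw [Cyc.Model.app_borel, app_comp, app_diagC, app_powF]
  have h2 : app (f ▷ Bk r k ≫ (Fk r k).cl (N := N) (by rw [Fintype.card_fin, hN]))
      (smash (z : OnePoint (W → ℂ)) (((Fk r k).π e : Bk r k) : OnePoint (Bk r k))) =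
      app ((Fk r k).cl (N := N) (by rw [Fintype.card_fin, hN]))
        (smash (app f (z : OnePoint (W → ℂ))) (((Fk r k).π e : Bk r k) : OnePoint (Bk r k))) := by
    rw [app_comp, app_whiskerRight_smash]
  refine Eq.trans ?_ h2.symm
  change app _ (OnePoint.map _ (OP.smash fun _ => app f (z : OnePoint (W → ℂ)))) = _
  generalize app f (z : OnePoint (W → ℂ)) = t
  induction t using OnePoint.rec with
  | infty =>
    rw [OP.smash_infty _ (j := 0) rfl]
    exact (app_infty _).trans (app_infty _).symm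
  | coe t =>
    rw [OP.smash_coe]
    refine congrArg OnePoint.some ?_
    refine (mapFun_amp_pow _ ((Fk r k).Φ e) ((Fk r k).isom e) 1 isom_one _).trans ?_
    exact (pow_congr _ (Matrix.mul_one _) _ _ _).trans ((Fk r k).clFun_π _ t e).symm

end pow

/-! ### The comparison with the power operation -/

section psi

variable {n N : ℕ} {I W I₁ W₁ : Type} [Fintype I] [Fintype W] [DecidableEq I] [DecidableEq W]
  [Fintype I₁] [Fintype W₁] [DecidableEq I₁] [DecidableEq W₁]
variable (E : ThomTheory.{v}) (r k : ℕ)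

theorem map_incl_cTh (h : Fintype.card W = n) :
    E.map (Th.incl' h ▷ Bk r k) (cTh E.o r k n W) = E.cross (E.o.lin W) (wk E.o r k ^ n) :=
  (lensExp E r k).lin W h

/-- **The Borel class of a power is the value of the power operation.** -/
theorem isPsi_powF (f : Cpow W ⟶ LC.of (Th n I)) (hN : (r + 1) * n = N) :
    IsPsi E.o r k f (wk E.o r k ^ Fintype.card W *
      beta E.o (lensCyc r k) (cycM W r) (cycM I r) (powF (r + 1) hN f)) := by
  subst hN
  haveI := E.o.goodTh
  have hc : Fintype.card (W × Fin (r + 1)) = (r + 1) * Fintype.card W := by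
    rw [Fintype.card_prod, Fintype.card_fin, mul_comm]
  have h1 := beta_spec' E.o (lensCyc r k) (eq_powF r rfl f) ((lensCyc r k).toCyc.triv (Cpow W))
    (diagC W r) (eqv_diagC r) ((lensCyc r k).frP W) ((lensCyc r k).frP I) hc
  rw [borel_diagC] at h1
  simp only [← powF_incl (r + 1) rfl (rfl : Fintype.card W = _) hc] at h1
  rw [borel_diagC] at h1
  have h2 := map_incl_cTh E r k (rfl : Fintype.card W = _)
  rw [cTh, ← MultTheory.map_comp] at h2
  rw [IsPsi, cTh, ← MultTheory.map_comp]
  refine Eq.trans ?_ h1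
  refine Eq.trans ?_ (congrArg (E.act _ _) h2.symm)
  rw [mul_comm, MultTheory.mul_def]
  exact (act_cross_right (E := E.toMultTheory) (ContinuousMap.id (Bk r k)) _ _ _).symm

/-- the same for an arbitrary presentation -/
theorem isPsi_of (f : Cpow W ⟶ LC.of (Th n I)) (hN : (r + 1) * n = N) {γ : Matrix W₁ W₁ ℂ}
    {δ : Matrix I₁ I₁ ℂ} (hγ : IsU (r + 1) γ) (hδ : IsU (r + 1) δ)
    (a : Matrix (W × Fin (r + 1)) W₁ ℂ) (ha : aᴴ * a = 1) (ha' : a * aᴴ = 1)
    (haγ : a * γ = cycM W r * a) (hc : Fintype.card W₁ = Fintype.card (W × Fin (r + 1)))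
    (b : Matrix I₁ (I × Fin (r + 1)) ℂ) (hb : bᴴ * b = 1) (hbδ : b * cycM I r = δ * b) :
    IsPsi E.o r k f (wk E.o r k ^ Fintype.card W * beta E.o (lensCyc r k) γ δ
      (Th.cmap a ha ≫ powF (r + 1) hN f ≫ Th.map b hb)) := by
  rw [beta_cmap E.o (lensCyc r k) ((eq_powF r hN f).map hδ b hb hbδ) hγ a ha haγ hc ha',
    beta_map E.o (lensCyc r k) (eq_powF r hN f) hδ b hb hbδ]
  exact isPsi_powF E r k f hN

theorem eq_diagC (hm : Fintype.card (W × Fin (r + 1)) = N) :
    EQ (r + 1) 1 (cycM W r) (diagC W r ≫ Th.incl' hm) :=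
  (EQ.lin (isU_cycM W r) hm).comp (IsU.one _) fun z => by
    beta_reduce
    rw [one_mulVec]
    exact eqv_diagC r z

/-- the Borel class of the diagonal -/
theorem beta_diagC (hm : Fintype.card (W × Fin (r + 1)) = N) :
    beta E.o (lensCyc r k) 1 (cycM W r) (diagC W r ≫ Th.incl' hm) =
      wk E.o r k ^ Fintype.card W := by
  haveI := E.o.goodTh
  have hN : (r + 1) * Fintype.card W = N := by
    rw [← hm, Fintype.card_prod, Fintype.card_fin, mul_comm]
  subst hN
  refine cross_lin_injective E.o (W := W) (Bk r k) ?_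
  change E.cross (E.o.lin W) _ = E.cross (E.o.lin W) _
  rw [beta_triv E.o (lensCyc r k) (eq_diagC r hm) ((lensCyc r k).frP W)]
  simp only [Category.id_comp, ← powF_incl (r + 1) rfl (rfl : Fintype.card W = _) hm]
  rw [borel_diagC]
  have h2 := map_incl_cTh E r k (rfl : Fintype.card W = _)
  rw [cTh, ← MultTheory.map_comp] at h2
  exact h2

/-- **The Borel class of the diagonal**, for an arbitrary indexing. -/
theorem beta_diag' (ε : W₁ ≃ W × Fin (r + 1)) {γ : Matrix W₁ W₁ ℂ}
    (hγ : ∀ v : W₁ → ℂ, γ *ᵥ v = fun i => v (ε.symm ((ε i).1, (cyc r).symm (ε i).2)))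
    (d : Cpow W ⟶ Cpow W₁)
    (hd : ∀ z : W → ℂ, app d (z : OnePoint (W → ℂ)) =
      ((fun i => z (ε i).1 : W₁ → ℂ) : OnePoint (W₁ → ℂ))) (h : Fintype.card W₁ = N) :
    IsU (r + 1) γ ∧ EQ (r + 1) 1 γ (d ≫ Th.incl' h) ∧
      beta E.o (lensCyc r k) 1 γ (d ≫ Th.incl' h) = wk E.o r k ^ Fintype.card W := by
  have hm : Fintype.card (W × Fin (r + 1)) = N := (Fintype.card_congr ε).symm.trans h
  have hγ' : γ = injMat ((ε.trans (cycP W r)).trans ε.symm) := by
    refine Matrix.ext_of_mulVec_single fun i => ?_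
    rw [hγ, injMat_equiv_mulVec]
    rfl
  have hU : IsU (r + 1) γ := by
    rw [hγ']
    refine IsU.perm _ ?_
    have h1 : (ε.trans (cycP W r)).trans ε.symm = ε.symm.permCongrHom (cycP W r) := rfl
    rw [h1, ← map_pow, cycP_pow, map_one]
  have hu := injMat_isom ε.symm.injective
  have hu' : injMat ε.symm * (injMat ε.symm)ᴴ = (1 : Matrix W₁ W₁ ℂ) := by
    rw [injMat_equiv_conjTranspose, injMat_comp, Equiv.symm_symm, Equiv.symm_comp_self, injMat_id]
  have hc : injMat ε.symm * cycM W r = γ * injMat ε.symm := by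
    rw [hγ', injMat_comp, injMat_comp]
    congr 1
    funext a
    simp
  have e : d ≫ Th.incl' h = (diagC W r ≫ Th.incl' hm) ≫ Th.map (injMat ε.symm) hu := by
    rw [Category.assoc, Th.incl_map hm h _ hu hu', ← Category.assoc]
    congr 1
    apply LC.hom_ext
    intro z
    rw [hd, app_comp, app_diagC, Th.app_cmap_coe, injMat_equiv_mulVec]
    rfl
  rw [e]
  exact ⟨hU, (eq_diagC r hm).map hU _ hu hc,
    (beta_map E.o (lensCyc r k) (eq_diagC r hm) hU _ hu hc).trans (beta_diagC E r k hm)⟩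

/-- **The Borel class of the diagonal of the permutation representation is `w`.** -/
theorem beta_diag [Unique W] (ε : W₁ ≃ Fin (r + 1)) {γ : Matrix W₁ W₁ ℂ}
    (hγ : ∀ v : W₁ → ℂ, γ *ᵥ v = fun i => v (ε.symm ((cyc r).symm (ε i))))
    (d : Cpow W ⟶ Cpow W₁)
    (hd : ∀ z : W → ℂ, app d (z : OnePoint (W → ℂ)) =
      ((fun _ => z default : W₁ → ℂ) : OnePoint (W₁ → ℂ))) (h : Fintype.card W₁ = N) :
    beta E.o (lensCyc r k) 1 γ (d ≫ Th.incl' h) = wk E.o r k := by
  have h1 := (beta_diag' E r k (ε.trans (Equiv.uniqueProd (Fin (r + 1)) W).symm) (γ := γ) hγ d hd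
    h).2.2
  rwa [Fintype.card_unique, pow_one] at h1

end psi

/-! ### The class of a power -/

section cls

variable {n N : ℕ} {I W : Type} [Fintype I] [Fintype W] [DecidableEq I] [DecidableEq W]
variable {E : MultTheory.{v}} (o : Orientation E)

theorem xpow_smul {Y : LC} [E.Good Y] (a : E.A) (z : E.U Y) (q : ℕ) :
    haveI : E.Good (LC.powObj (Fin q) Y) := good_finPow' q Y
    E.xpow (a • z) q = a ^ q • E.xpow z q := by
  induction q with
  | zero =>
    haveI : E.Good (LC.powObj (Fin 0) Y) := good_finPow' 0 Y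
    rw [pow_zero, one_smul]
    rfl
  | succ q ih =>
    haveI : E.Good (LC.powObj (Fin q) Y) := good_finPow' q Y
    haveI : E.Good (LC.powObj (Fin (q + 1)) Y) := good_finPow' (q + 1) Y
    rw [xpow_succ, xpow_succ, ih, cross_smul_left, cross_smul_right, smul_smul, MultTheory.map_smul,
      pow_succ']

theorem map_powF_tau' (q : ℕ) (hN : q * n = N) (f : Cpow W ⟶ LC.of (Th n I)) :
    E.map (powF q hN f) (o.tau N (I × Fin q)) =
      E.map (uncur W (Fin q)).hom (E.xpow (E.map f (o.tau n I)) q) := by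
  haveI := o.goodTh
  haveI : E.Good (LC.powObj (Fin q) (Cpow W)) := good_finPow' q _
  haveI : E.Good (LC.powObj (Fin q) (LC.of (Th n I))) := good_finPow' q _
  rw [powF, MultTheory.map_comp, MultTheory.map_comp,
    map_thPow_tau o n q hN 1 isom_one _ (isPowMap_thPow _ _ _), map_powHom_xpow]

/-- the class of a power is the power of the class -/
theorem map_powF_tau (q : ℕ) (hN : q * n = N) (f : Cpow W ⟶ LC.of (Th n I)) {a : E.A}
    (h : E.map f (o.tau n I) = a • o.lin W) :
    E.map (powF q hN f) (o.tau N (I × Fin q)) = a ^ q • o.lin (W × Fin q) := by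
  haveI : E.Good (LC.powObj (Fin q) (Cpow W)) := good_finPow' q _
  have hc : Fintype.card (W × Fin q) = q * Fintype.card W := by
    rw [Fintype.card_prod, Fintype.card_fin, mul_comm]
  have h1 := map_powF_tau' o q rfl (Th.incl' (rfl : Fintype.card W = _))
  rw [powF_incl q rfl rfl hc, map_incl', map_incl'] at h1
  rw [map_powF_tau', h, xpow_smul, MultTheory.map_smul, h1]

end cls

/-! ### Nilpotence -/

section nil

variable {E : MultTheory.{v}}

theorem map_ipow {X Y : LC} [E.Good X] [E.Good Y] (f : X ⟶ Y) (y : E.U Y) (n : ℕ) :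
    E.map f (ipow y n) = ipow (E.map f y) n := by
  induction n with
  | zero => rfl
  | succ n ih => rw [ipow, map_mul', ih, ipow]

theorem ipow_add {X : LC} [E.Good X] (x : E.U X) (m n : ℕ) :
    ipow x (m + n + 1) = ipow x m * ipow x n := by
  induction m with
  | zero => rw [Nat.zero_add]; rfl
  | succ m ih => rw [Nat.add_right_comm m 1 n, ipow, ih, ipow, mul_assoc]

theorem ipow_zero {X : LC} [E.Good X] (n : ℕ) : ipow (0 : E.U X) n = 0 := by
  cases n with
  | zero => rfl
  | succ n => exact zero_mul _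

variable (E) in
/-- classes which vanish at all points are nilpotent -/
def NilP (X : LC) : Prop := ∀ [E.Good X] (x : E.U X),
  (∀ b : X, E.map (point b) x = 0) → ∃ n, ipow x n = 0

theorem map_point_map {X Y : LC} [E.Good X] [E.Good Y] (f : X ⟶ Y) {y : E.U Y}
    (h : ∀ b : Y, E.map (point b) y = 0) (a : X) : E.map (point a) (E.map f y) = 0 := by
  rw [← MultTheory.map_comp]
  cases ha : app f (a : OnePoint X) using OnePoint.rec with
  | infty =>
    have : point a ≫ f = 0 := LC.hom_ext fun _ => ha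
    rw [this, map_zero_mor]
  | coe b =>
    have : point a ≫ f = point b := LC.hom_ext fun _ => ha
    rw [this, h]

theorem nilP_of_relCell {D : Set ℕ} {A B : LC} {f : A ⟶ B} (h : RelCell D f) (hA : FC A)
    (h0 : NilP E A) : NilP E B := by
  induction h with
  | @iso A B f =>
    intro _ x hx
    haveI : E.Good A := Good.of_FC E hA
    obtain ⟨n, hn⟩ := h0 (E.map f x) (map_point_map f hx)
    refine ⟨n, (map_iso_bijective (asIso f)).1 ?_⟩
    rw [asIso_hom, map_ipow, hn, map_zero]
  | @step A B i a _ hi e =>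
    intro _ x hx
    haveI : E.Good A := Good.of_FC E hA
    haveI : E.Good (cof i) := Good.cof E hi
    obtain ⟨e⟩ := e
    obtain ⟨n, hn⟩ := h0 (E.map i x) (map_point_map i hx)
    rw [← map_ipow] at hn
    obtain ⟨c, hc⟩ := (exact_mid (CofSeq.std hi) _).1 hn
    refine ⟨n + n + 1, ?_⟩
    rw [ipow_add, ← hc, ← map_mul']
    cases a with
    | zero =>
      let e1 : 𝟙_ LC ≅ cof i := (nilIso RR).symm ≪≫ e.symm
      cases hu : app e1.hom ((() : Unit) : OnePoint Unit) using OnePoint.rec with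
      | infty =>
        have h1 := congrArg (app e1.inv) hu
        rw [← app_comp, e1.hom_inv_id, app_infty] at h1
        exact absurd h1 (OnePoint.coe_ne_infty _)
      | coe u =>
        have h1 : e1.hom = point (X := B) u.1 ≫ cofMap i :=
          LC.hom_ext fun _ => hu.trans (app_cofMap_coe i u).symm
        have h2 : c = 0 := by
          refine (map_iso_bijective e1).1 ?_
          rw [h1, MultTheory.map_comp, hc, map_ipow, hx, ipow_zero, map_zero]
        rw [h2, zero_mul, map_zero]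
    | succ a =>
      haveI : E.Good (Sph a) := Good.of_FC E (FC.sph a)
      rw [mul_eq_zero_of_iso (Y := Sph a) (e ≪≫ consIso a RR ≪≫ β_ _ _), map_zero]
  | comp hf _ ihf ihg => exact ihg (hf.fc hA) (ihf hA h0)

/-- **Classes which vanish at all points are nilpotent.** -/
theorem nil_of_point {B : LC} [CompactSpace B] [h : CellSp B] [E.Good B] (x : E.U B)
    (hx : ∀ b : B, E.map (point b) x = 0) : IsNilpotent x := by
  obtain ⟨D, hD⟩ := h.chain
  have h1 : NilP E B := nilP_of_relCell (Cell.cells_of_compact (Y := B) hD).relCell FC.empty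
    fun x _ => ⟨0, eq_zero_of_contr (contr_of_isEmpty (LC.of Empty)) x⟩
  obtain ⟨n, hn⟩ := h1 x hx
  have h2 : ∀ n, ipow x n = x ^ (n + 1) := by
    intro n
    induction n with
    | zero => exact (pow_one x).symm
    | succ n ih => rw [ipow, ih, ← pow_succ']
  exact ⟨n + 1, (h2 n).symm.trans hn⟩

theorem nil_Bk (r k : ℕ) (x : E.U (Bk r k)) (hx : ∀ b : Bk r k, E.map (point b) x = 0) :
    IsNilpotent x := nil_of_point x hx

end nil

end Vale.Agent.P257.Det
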