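import Vale.Agent.P251.Q.LensThom
import Vale.Agent.P251.Q.ThomIsom
import Vale.Agent.P251.G.PowLC

/-!
# P257, detection: Borel constructions for a cyclic covering

* `Cyc B` : a compact space `S` over `B` with a self map `τ` whose orbits are the fibres;
* `C.Model Z σ` : a model of `(S × Z) / (τ, σ)`; `desc`, `push` (functoriality), `triv`, `cyl`;
* `C.Fr γ J` : a family of isometries `Ψ e : ℂ^I → ℂ^J` with `Ψ (τ e) γ = Ψ e`; `Fr.model` the
  associated vector bundle;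
* `borel M Ψ f` : the map `M.T ⟶ Th n J` induced by an equivariant map `f : Z ⟶ Th n I`.
-/

set_option linter.unusedSectionVars false

open CategoryTheory MonoidalCategory Matrix Topology Filter OnePoint
open Vale.Agent.P251.G Vale.Agent.P251.G.LC Vale.Agent.P251.Q

noncomputable section

namespace Vale.Agent.P257.Det

/-- A cyclic covering. -/
structure Cyc (B : LC) where
  /-- the total space -/
  S : LC
  [compact : CompactSpace S]
  /-- the projection -/
  π : S → B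
  cont_π : Continuous π
  surj : Function.Surjective π
  /-- the generator -/
  τ : S → S
  π_τ : ∀ e, π (τ e) = π e
  ex : ∀ e e', π e = π e' → ∃ m : ℕ, e' = τ^[m] e

attribute [instance] Cyc.compact

/-- equivariance -/
def Eqv {Z Z' : LC} (σ : Z → Z) (σ' : Z' → Z') (f : Z ⟶ Z') : Prop :=
  ∀ z : Z, app f (σ z : OnePoint Z) = OnePoint.map σ' (app f (z : OnePoint Z))

theorem Eqv.app_map {Z Z' : LC} {σ : Z → Z} {σ' : Z' → Z'} {f : Z ⟶ Z'} (h : Eqv σ σ' f)
    (z : OnePoint Z) : app f (OnePoint.map σ z) = OnePoint.map σ' (app f z) := by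
  induction z using OnePoint.rec with
  | infty => exact (app_infty f).trans (congrArg (OnePoint.map σ') (app_infty f)).symm
  | coe z => exact h z

theorem Eqv.id {Z : LC} (σ : Z → Z) : Eqv σ σ (𝟙 Z) := fun _ => rfl

theorem Eqv.comp {Z Z' Z'' : LC} {σ : Z → Z} {σ' : Z' → Z'} {σ'' : Z'' → Z''} {f : Z ⟶ Z'}
    {g : Z' ⟶ Z''} (hf : Eqv σ σ' f) (hg : Eqv σ' σ'' g) : Eqv σ σ'' (f ≫ g) := fun z => by
  rw [app_comp, app_comp, hf z, hg.app_map]

theorem map_smash {X Y : Type} (σ : X → X) (σ' : Y → Y) (x : OnePoint X) (y : OnePoint Y) :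
    OnePoint.map (Prod.map σ σ') (smash x y) = smash (OnePoint.map σ x) (OnePoint.map σ' y) := by
  induction x using OnePoint.rec with
  | infty => rfl
  | coe x =>
    induction y using OnePoint.rec with
    | infty => rfl
    | coe y => rfl

theorem Eqv.tensor {X X' Y Y' : LC} {σ : X → X} {σ' : X' → X'} {ρ : Y → Y} {ρ' : Y' → Y'}
    {f : X ⟶ X'} {g : Y ⟶ Y'} (hf : Eqv σ σ' f) (hg : Eqv ρ ρ' g) :
    Eqv (Z := X ⊗ Y) (Z' := X' ⊗ Y') (Prod.map σ ρ) (Prod.map σ' ρ') (f ⊗ₘ g) := by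
  rintro ⟨x, y⟩
  have h1 : app (f ⊗ₘ g) ((Prod.map σ ρ (x, y) : X × Y) : OnePoint (X × Y)) =
      smash (app f (σ x : OnePoint X)) (app g (ρ y : OnePoint Y)) := app_tensorHom_coe f g _ _
  have h2 : app (f ⊗ₘ g) (((x, y) : X × Y) : OnePoint (X × Y)) =
      smash (app f (x : OnePoint X)) (app g (y : OnePoint Y)) := app_tensorHom_coe f g _ _
  refine h1.trans (Eq.trans ?_ (congrArg _ h2.symm))
  rw [hf x, hg y]
  exact (map_smash _ _ _ _).symm

/-- equivariance from an equation of morphisms -/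
theorem Eqv.of_comm {Z Z' : LC} {σ : Z → Z} {σ' : Z' → Z'} {s : Z ⟶ Z} {s' : Z' ⟶ Z'}
    (hs : ∀ z : Z, app s (z : OnePoint Z) = (σ z : OnePoint Z))
    (hs' : ∀ z : Z', app s' (z : OnePoint Z') = (σ' z : OnePoint Z')) {f : Z ⟶ Z'}
    (h : s ≫ f = f ≫ s') : Eqv σ σ' f := fun z => by
  rw [← hs, ← app_comp, h, app_comp]
  generalize app f (z : OnePoint Z) = x
  induction x using OnePoint.rec with
  | infty => exact app_infty _
  | coe x => exact hs' x

namespace Cyc

variable {B : LC} [CompactSpace B] (C : Cyc B)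

/-- invariance under the diagonal action -/
def Inv {Z Y : LC} (σ : Z → Z) (g : C.S ⊗ Z ⟶ Y) : Prop :=
  ∀ (e : C.S) (z : Z), app g (smash (C.τ e : OnePoint C.S) (σ z : OnePoint Z)) =
    app g (smash (e : OnePoint C.S) (z : OnePoint Z))

variable {C}

theorem Inv.app_map {Z Y : LC} {σ : Z → Z} {g : C.S ⊗ Z ⟶ Y} (h : C.Inv σ g) (e : C.S)
    (z : OnePoint Z) : app g (smash (C.τ e : OnePoint C.S) (OnePoint.map σ z)) =
      app g (smash (e : OnePoint C.S) z) := by
  induction z using OnePoint.rec with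
  | infty => rfl
  | coe z => exact h e z

theorem Inv.iterate {Z Y : LC} {σ : Z → Z} {g : C.S ⊗ Z ⟶ Y} (h : C.Inv σ g) (m : ℕ) (e : C.S)
    (z : Z) : app g (smash (C.τ^[m] e : OnePoint C.S) (σ^[m] z : OnePoint Z)) =
      app g (smash (e : OnePoint C.S) (z : OnePoint Z)) := by
  induction m with
  | zero => rfl
  | succ m ih => rw [Function.iterate_succ_apply', Function.iterate_succ_apply', h, ih]

theorem Inv.comp_right {Z Y Y' : LC} {σ : Z → Z} {g : C.S ⊗ Z ⟶ Y} (h : C.Inv σ g)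
    (k : Y ⟶ Y') : C.Inv σ (g ≫ k) := fun e z => by rw [app_comp, app_comp, h]

theorem Inv.comp_left {Z Z' Y : LC} {σ : Z → Z} {σ' : Z' → Z'} {g : C.S ⊗ Z' ⟶ Y}
    (h : C.Inv σ' g) {f : Z ⟶ Z'} (hf : Eqv σ σ' f) : C.Inv σ (C.S ◁ f ≫ g) := fun e z => by
  rw [app_comp, app_comp, app_whiskerLeft_smash, app_whiskerLeft_smash, hf z, h.app_map]

variable (C)

/-- A model of the Borel construction. -/
structure Model (Z : LC) (σ : Z → Z) where
  /-- the quotient -/
  T : LC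
  /-- the projection -/
  q : C.S × Z → T
  prop : IsProperMap q
  surj : Function.Surjective q
  q_τ : ∀ e z, q (C.τ e, σ z) = q (e, z)
  inj : ∀ e z e' z', q (e, z) = q (e', z') → ∃ m : ℕ, e' = C.τ^[m] e ∧ z' = σ^[m] z
  /-- the projection to the base -/
  base : C(T, B)
  base_q : ∀ e z, base (q (e, z)) = C.π e

namespace Model

variable {C} {Z Z' Z'' Y Y' : LC} {σ : Z → Z} {σ' : Z' → Z'} {σ'' : Z'' → Z''}
  (M : C.Model Z σ) (M' : C.Model Z' σ') (M'' : C.Model Z'' σ'')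

/-- the projection as a morphism -/
def qH : C.S ⊗ Z ⟶ M.T := ofIsProper (X := C.S ⊗ Z) (Y := M.T) M.q M.prop

theorem app_qH (e : C.S) (z : Z) :
    app M.qH (smash (e : OnePoint C.S) (z : OnePoint Z)) = (M.q (e, z) : OnePoint M.T) := rfl

theorem inv_qH : C.Inv σ M.qH := fun e z => by rw [app_qH, app_qH, M.q_τ]

/-- descent of an invariant morphism -/
def desc (g : C.S ⊗ Z ⟶ Y) (hg : C.Inv σ g) : M.T ⟶ Y :=
  descend (A' := C.S ⊗ Z) (A := M.T) M.q M.prop M.surj g
    (fun t => app g (((M.surj t).choose : C.S × Z) : OnePoint (C.S × Z))) (by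
      rintro ⟨e, z⟩
      have h := (M.surj (M.q (e, z))).choose_spec
      generalize (M.surj (M.q (e, z))).choose = a at h
      obtain ⟨e', z'⟩ := a
      obtain ⟨m, rfl, rfl⟩ := M.inj _ _ _ _ h
      exact (hg.iterate m e' z').symm)

@[reassoc]
theorem qH_desc (g : C.S ⊗ Z ⟶ Y) (hg : C.Inv σ g) : M.qH ≫ M.desc g hg = g :=
  ofIsProper_comp_descend _ _ _ _ _ _

theorem app_desc (g : C.S ⊗ Z ⟶ Y) (hg : C.Inv σ g) (e : C.S) (z : Z) :
    app (M.desc g hg) (M.q (e, z) : OnePoint M.T) =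
      app g (smash (e : OnePoint C.S) (z : OnePoint Z)) := by
  rw [← app_qH, ← app_comp, qH_desc]

theorem hom_ext {f g : M.T ⟶ Y} (h : M.qH ≫ f = M.qH ≫ g) : f = g :=
  cancel_proper_surj M.prop M.surj h

theorem hom_ext' {f g : M.T ⟶ Y}
    (h : ∀ e z, app f (M.q (e, z) : OnePoint M.T) = app g (M.q (e, z) : OnePoint M.T)) : f = g := by
  apply LC.hom_ext
  intro t
  obtain ⟨⟨e, z⟩, rfl⟩ := M.surj t
  exact h e z

/-- functoriality of the Borel construction -/
def push (f : Z ⟶ Z') (hf : Eqv σ σ' f) : M.T ⟶ M'.T :=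
  M.desc (C.S ◁ f ≫ M'.qH) (M'.inv_qH.comp_left hf)

@[reassoc]
theorem qH_push (f : Z ⟶ Z') (hf : Eqv σ σ' f) : M.qH ≫ M.push M' f hf = C.S ◁ f ≫ M'.qH :=
  M.qH_desc _ _

theorem push_desc (f : Z ⟶ Z') (hf : Eqv σ σ' f) (g : C.S ⊗ Z' ⟶ Y) (hg : C.Inv σ' g) :
    M.push M' f hf ≫ M'.desc g hg = M.desc (C.S ◁ f ≫ g) (hg.comp_left hf) := by
  apply M.hom_ext
  rw [qH_push_assoc, qH_desc, qH_desc]

theorem base_push (f : Z ⟶ Z') (hf : Eqv σ σ' f) (t : M.T) (t' : M'.T)
    (h : app (M.push M' f hf) (t : OnePoint M.T) = t') : M'.base t' = M.base t := by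
  obtain ⟨⟨e, z⟩, rfl⟩ := M.surj t
  rw [push, app_desc, app_comp, app_whiskerLeft_smash] at h
  rw [M.base_q]
  generalize app f (z : OnePoint Z) = x at h
  induction x using OnePoint.rec with
  | infty => exact absurd h.symm (OnePoint.coe_ne_infty t')
  | coe x =>
    rw [app_qH] at h
    rw [← OnePoint.coe_injective h, M'.base_q]

/-- the product with a space with trivial action -/
def cyl (X : LC) : C.Model (Z ⊗ X) (Prod.map σ id) where
  T := M.T ⊗ X
  q a := (M.q (a.1, a.2.1), a.2.2)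
  prop := (M.prop.prodMap isProperMap_id).comp
    (Homeomorph.prodAssoc C.S Z X).symm.isProperMap
  surj := by
    rintro ⟨t, x⟩
    obtain ⟨⟨e, z⟩, rfl⟩ := M.surj t
    exact ⟨(e, (z, x)), rfl⟩
  q_τ e z := Prod.ext (M.q_τ e z.1) rfl
  inj e z e' z' h := by
    obtain ⟨m, h1, h2⟩ := M.inj _ _ _ _ (congrArg Prod.fst h)
    refine ⟨m, h1, ?_⟩
    rw [Prod.map_iterate, Function.iterate_id]
    exact Prod.ext h2 (congrArg Prod.snd h).symm
  base := M.base.comp (fstC M.T X)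
  base_q e z := M.base_q e z.1

theorem desc_homotopic {g₀ g₁ : C.S ⊗ Z ⟶ Y} (h₀ : C.Inv σ g₀) (h₁ : C.Inv σ g₁)
    (G : C.S ⊗ (Z ⊗ II) ⟶ Y) (hG : C.Inv (Z := Z ⊗ II) (Prod.map σ id) G)
    (e₀ : C.S ◁ incl 0 Z ≫ G = g₀) (e₁ : C.S ◁ incl 1 Z ≫ G = g₁) :
    Homotopic (M.desc g₀ h₀) (M.desc g₁ h₁) := by
  have key : ∀ (t : unitInterval) (g : C.S ⊗ Z ⟶ Y) (h : C.Inv σ g), C.S ◁ incl t Z ≫ G = g →
      incl t M.T ≫ (M.cyl II).desc G hG = M.desc g h := by
    rintro t g h rfl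
    apply M.hom_ext'
    intro e z
    rw [app_desc]
    exact (M.cyl II).app_desc G hG e (z, t)
  exact ⟨(M.cyl II).desc G hG, key 0 _ _ e₀, key 1 _ _ e₁⟩

/-- the inclusion of a fibre -/
def fib (e : C.S) : Z ⟶ M.T := (λ_ Z).inv ≫ point (X := C.S) e ▷ Z ≫ M.qH

theorem app_fib (e : C.S) (z : Z) :
    app (M.fib e) (z : OnePoint Z) = (M.q (e, z) : OnePoint M.T) := rfl

/-- the diagonal `T ⟶ T' ⊗ T''` for a model `T` of the product -/
def dia (M : C.Model (Z' ⊗ Z'') (Prod.map σ' σ'')) : M.T ⟶ M'.T ⊗ M''.T :=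
  M.desc ((diag C.S ▷ (Z' ⊗ Z'')) ≫ tensorμ C.S C.S Z' Z'' ≫ (M'.qH ⊗ₘ M''.qH)) (by
    rintro e ⟨z, z'⟩
    change ((M'.q (C.τ e, σ' z), M''.q (C.τ e, σ'' z')) : OnePoint (M'.T × M''.T)) =
      ((M'.q (e, z), M''.q (e, z')) : OnePoint (M'.T × M''.T))
    rw [M'.q_τ, M''.q_τ])

theorem app_dia (M : C.Model (Z' ⊗ Z'') (Prod.map σ' σ'')) (e : C.S) (z : Z') (z' : Z'') :
    app (dia M' M'' M) (M.q (e, (z, z')) : OnePoint M.T) =
      smash (M'.q (e, z) : OnePoint M'.T) (M''.q (e, z') : OnePoint M''.T) :=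
  M.app_desc _ _ e (z, z')

end Model

/-- the model for the trivial action -/
def triv (Z : LC) : C.Model Z id where
  T := Z ⊗ B
  q a := (a.2, C.π a.1)
  prop := (isProperMap_id.prodMap C.cont_π.isProperMap).comp
    (Homeomorph.prodComm C.S Z).isProperMap
  surj := by
    rintro ⟨z, b⟩
    obtain ⟨e, rfl⟩ := C.surj b
    exact ⟨(e, z), rfl⟩
  q_τ e z := Prod.ext rfl (C.π_τ e)
  inj e z e' z' h := by
    obtain ⟨m, h1⟩ := C.ex e e' (congrArg Prod.snd h)
    refine ⟨m, h1, ?_⟩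
    rw [Function.iterate_id]
    exact (congrArg Prod.fst h).symm
  base := sndC Z B
  base_q _ _ := rfl

end Cyc

/-! ### Families of isometries -/

section fam

variable {n : ℕ} {I J K : Type} [Fintype I] [Fintype J] [Fintype K] [DecidableEq I]
  [DecidableEq J] [DecidableEq K]

/-- a family of isometries acting on Thom spaces -/
def famMap {S : LC} [CompactSpace S] (u : S → Matrix J I ℂ) (hc : Continuous u)
    (hu : ∀ s, (u s)ᴴ * u s = 1) : S ⊗ LC.of (Th n I) ⟶ LC.of (Th n J) :=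
  LC.ofProper (X := S ⊗ LC.of (Th n I)) (Y := LC.of (Th n J))
    (fun a : S × Th n I => Th.mapFun (u a.1) (hu a.1) a.2)
    (Continuous.subtype_mk (Continuous.prodMk
      (((hc.comp continuous_fst).matrix_mul (Th.continuous_P.comp continuous_snd)).matrix_mul
        (hc.comp continuous_fst).matrix_conjTranspose)
      ((hc.comp continuous_fst).matrix_mulVec (Th.continuous_v.comp continuous_snd))) _)
    (by
      rw [Th.tendsto_cocompact_iff]
      simp only [Th.mapFun_v, Th.nsq_isom (hu _)]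
      exact Th.tendsto_nsq.comp (tendsto_snd_cocompact (X := S) (Y := Th n I)))

theorem app_famMap {S : LC} [CompactSpace S] (u : S → Matrix J I ℂ) (hc : Continuous u)
    (hu : ∀ s, (u s)ᴴ * u s = 1) (s : S) (x : OnePoint (Th n I)) :
    app (famMap (n := n) u hc hu) (smash (s : OnePoint S) x) = app (Th.map (u s) (hu s)) x := by
  induction x using OnePoint.rec with
  | infty => rfl
  | coe x => rfl

theorem app_thMap (u : Matrix J I ℂ) (hu : uᴴ * u = 1) (x : OnePoint (Th n I)) :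
    app (Th.map u hu) x = OnePoint.map (Th.mapFun u hu) x := by
  induction x using OnePoint.rec with
  | infty => rfl
  | coe x => rfl

theorem app_thMap_thMap (u : Matrix J I ℂ) (hu : uᴴ * u = 1) (w : Matrix K J ℂ)
    (hw : wᴴ * w = 1) (x : OnePoint (Th n I)) {s : Matrix K I ℂ} (hs : sᴴ * s = 1)
    (h : w * u = s) : app (Th.map w hw) (app (Th.map u hu) x) = app (Th.map s hs) x := by
  subst h
  rw [← app_comp, Th.map_comp]

end fam

namespace Cyc

variable {B : LC} [CompactSpace B] (C : Cyc B)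
variable {n : ℕ} {I J K W : Type} [Fintype I] [Fintype J] [Fintype K] [Fintype W] [DecidableEq I]
  [DecidableEq J] [DecidableEq K] [DecidableEq W]

/-- A frame for the isometry `γ`. -/
structure Fr (γ : Matrix I I ℂ) (J : Type) [Fintype J] where
  /-- the isometries -/
  Ψ : C.S → Matrix J I ℂ
  cont : Continuous Ψ
  isom : ∀ e, (Ψ e)ᴴ * Ψ e = 1
  rel : ∀ e, Ψ (C.τ e) * γ = Ψ e

namespace Fr

variable {C} {γ : Matrix I I ℂ} (F : C.Fr γ J)

include F in
theorem gam_isom (e : C.S) : γᴴ * γ = 1 := by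
  have h := F.isom e
  rw [← F.rel e, conjTranspose_mul, Matrix.mul_assoc, ← Matrix.mul_assoc _ (F.Ψ _), F.isom,
    Matrix.one_mul] at h
  exact h

theorem proj_τ (e : C.S) : F.Ψ (C.τ e) * (F.Ψ (C.τ e))ᴴ = F.Ψ e * (F.Ψ e)ᴴ := by
  have h : γ * γᴴ = 1 := mul_eq_one_comm.1 (F.gam_isom e)
  rw [← F.rel e, conjTranspose_mul, Matrix.mul_assoc, ← Matrix.mul_assoc γ, h, Matrix.one_mul]

theorem proj_eq {e e' : C.S} (h : C.π e = C.π e') :
    F.Ψ e' * (F.Ψ e')ᴴ = F.Ψ e * (F.Ψ e)ᴴ := by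
  obtain ⟨m, rfl⟩ := C.ex e e' h
  clear h
  induction m with
  | zero => rfl
  | succ m ih => rw [Function.iterate_succ_apply', proj_τ, ih]

theorem mulVec_iterate (m : ℕ) (e : C.S) (v : I → ℂ) :
    F.Ψ (C.τ^[m] e) *ᵥ (fun v => γ *ᵥ v)^[m] v = F.Ψ e *ᵥ v := by
  induction m with
  | zero => rfl
  | succ m ih =>
    rw [Function.iterate_succ_apply', Function.iterate_succ_apply', mulVec_mulVec, F.rel, ih]

/-- the associated bundle -/
def bun : Bun B J where
  P b := F.Ψ (C.surj b).choose * (F.Ψ (C.surj b).choose)ᴴ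
  cont := by
    refine (C.cont_π.isProperMap.isClosedMap.isQuotientMap C.cont_π C.surj).continuous_iff.2 ?_
    have : (fun b => F.Ψ (C.surj b).choose * (F.Ψ (C.surj b).choose)ᴴ) ∘ C.π =
        fun e => F.Ψ e * (F.Ψ e)ᴴ := funext fun e => F.proj_eq (C.surj (C.π e)).choose_spec.symm
    rw [this]
    exact F.cont.matrix_mul F.cont.matrix_conjTranspose
  idem b := by rw [Matrix.mul_assoc, ← Matrix.mul_assoc _ (F.Ψ _), F.isom, Matrix.one_mul]
  herm b := by rw [conjTranspose_mul, conjTranspose_conjTranspose]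

theorem bun_P (e : C.S) : F.bun.P (C.π e) = F.Ψ e * (F.Ψ e)ᴴ :=
  F.proj_eq (C.surj (C.π e)).choose_spec.symm

theorem bun_isRank : F.bun.IsRank (Fintype.card I) := by
  intro b
  obtain ⟨e, rfl⟩ := C.surj b
  rw [bun_P, trace_mul_comm, F.isom, trace_one]

theorem bun_mulVec (e : C.S) (v : I → ℂ) : F.bun.P (C.π e) *ᵥ (F.Ψ e *ᵥ v) = F.Ψ e *ᵥ v := by
  rw [bun_P, mulVec_mulVec, Matrix.mul_assoc, F.isom, Matrix.mul_one]

/-- the parametrisation of the total space -/
def q (a : C.S × (I → ℂ)) : F.bun.E := F.bun.mkE (C.π a.1) (F.Ψ a.1 *ᵥ a.2) (F.bun_mulVec _ _)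

theorem isProperMap_q : IsProperMap F.q := by
  let c : C.S × (I → ℂ) → C.S × (J → ℂ) := fun a => (a.1, F.Ψ a.1 *ᵥ a.2)
  let d : C.S × (J → ℂ) → C.S × (I → ℂ) := fun a => (a.1, (F.Ψ a.1)ᴴ *ᵥ a.2)
  have hc : Continuous c :=
    continuous_fst.prodMk ((F.cont.comp continuous_fst).matrix_mulVec continuous_snd)
  have hd : Continuous d :=
    continuous_fst.prodMk
      ((F.cont.comp continuous_fst).matrix_conjTranspose.matrix_mulVec continuous_snd)
  have hdc : Function.LeftInverse d c := fun a => by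
    simp only [c, d, mulVec_mulVec, F.isom, one_mulVec]
  have h1 : IsProperMap c := (hdc.isClosedEmbedding hd hc).isProperMap
  have h2 : IsProperMap (Prod.map C.π (id : (J → ℂ) → _)) :=
    C.cont_π.isProperMap.prodMap isProperMap_id
  have h3 : IsProperMap ((Subtype.val : F.bun.E → B × (J → ℂ)) ∘ F.q) := h2.comp h1
  exact isProperMap_of_comp_of_inj (Bun.continuous_mkE (C.cont_π.comp continuous_fst)
    ((F.cont.comp continuous_fst).matrix_mulVec continuous_snd) _) continuous_subtype_val h3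
    Subtype.val_injective

/-- the total space of the bundle as a Borel construction -/
def model : C.Model (Cpow I) (fun v => γ *ᵥ v) where
  T := F.bun.tot
  q := F.q
  prop := F.isProperMap_q
  surj p := by
    obtain ⟨e, he⟩ := C.surj (Bun.base p)
    refine ⟨(e, (F.Ψ e)ᴴ *ᵥ Bun.vec p), Bun.E_ext he ?_⟩
    change F.Ψ e *ᵥ ((F.Ψ e)ᴴ *ᵥ Bun.vec p) = Bun.vec p
    rw [mulVec_mulVec, ← bun_P, he, Bun.P_vec]
  q_τ e v := Bun.E_ext (C.π_τ e) (by
    change F.Ψ (C.τ e) *ᵥ (γ *ᵥ v) = F.Ψ e *ᵥ v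
    rw [mulVec_mulVec, F.rel])
  inj e v e' v' h := by
    obtain ⟨m, rfl⟩ := C.ex e e' (congrArg Bun.base h)
    refine ⟨m, rfl, ?_⟩
    have h1 : F.Ψ e *ᵥ v = F.Ψ (C.τ^[m] e) *ᵥ v' := congrArg Bun.vec h
    rw [← F.mulVec_iterate m] at h1
    have h2 := congrArg (fun x => (F.Ψ (C.τ^[m] e))ᴴ *ᵥ x) h1
    simp only [mulVec_mulVec, F.isom, one_mulVec] at h2
    exact h2.symm
  base := tcb F.bun
  base_q _ _ := rfl

theorem inv_famMap (hγ : γᴴ * γ = 1) :
    C.Inv (Z := LC.of (Th n I)) (Th.mapFun γ hγ) (famMap F.Ψ F.cont F.isom) := fun e x => by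
  rw [app_famMap, app_famMap]
  exact app_thMap_thMap γ hγ _ _ (x : OnePoint (Th n I)) _ (F.rel e)

/-- composition with a constant isometry -/
def post (u : Matrix K J ℂ) (hu : uᴴ * u = 1) : C.Fr γ K where
  Ψ e := u * F.Ψ e
  cont := continuous_const.matrix_mul F.cont
  isom e := isom_mul hu (F.isom e)
  rel e := by rw [Matrix.mul_assoc, F.rel]

/-- composition with an equivariant isometry -/
def pre {γ' : Matrix K K ℂ} (u : Matrix I K ℂ) (hu : uᴴ * u = 1) (h : u * γ' = γ * u) :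
    C.Fr γ' J where
  Ψ e := F.Ψ e * u
  cont := F.cont.matrix_mul continuous_const
  isom e := isom_mul (F.isom e) hu
  rel e := by rw [Matrix.mul_assoc, h, ← Matrix.mul_assoc, F.rel]

/-- the direct sum of frames -/
def sum {γ' : Matrix K K ℂ} (F' : C.Fr γ' W) : C.Fr (fromBlocks γ 0 0 γ') (J ⊕ W) where
  Ψ e := fromBlocks (F.Ψ e) 0 0 (F'.Ψ e)
  cont := F.cont.matrix_fromBlocks continuous_const continuous_const F'.cont
  isom e := isom_fromBlocks (F.isom e) (F'.isom e)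
  rel e := by
    rw [fromBlocks_multiply]
    simp [F.rel, F'.rel]

end Fr

variable (I) in
/-- the constant frame for the trivial action -/
def Fr.one : C.Fr (1 : Matrix I I ℂ) I where
  Ψ _ := 1
  cont := continuous_const
  isom _ := isom_one
  rel _ := Matrix.mul_one _

variable {C} {Z Z' : LC} {σ : Z → Z} {σ' : Z' → Z'} {γ : Matrix I I ℂ} {hγ : γᴴ * γ = 1}

/-- The map of the Borel construction induced by an equivariant map to a Thom space. -/
def Model.borel (M : C.Model Z σ) (F : C.Fr γ J) (f : Z ⟶ LC.of (Th n I))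
    (hf : Eqv σ (Th.mapFun γ hγ) f) : M.T ⟶ LC.of (Th n J) :=
  M.desc (C.S ◁ f ≫ famMap F.Ψ F.cont F.isom) ((F.inv_famMap hγ).comp_left hf)

namespace Model

variable (M : C.Model Z σ) (M' : C.Model Z' σ') (F : C.Fr γ J)

theorem app_borel (f : Z ⟶ LC.of (Th n I)) (hf : Eqv σ (Th.mapFun γ hγ) f) (e : C.S) (z : Z) :
    app (M.borel F f hf) (M.q (e, z) : OnePoint M.T) =
      app (Th.map (F.Ψ e) (F.isom e)) (app f (z : OnePoint Z)) := by
  rw [borel, app_desc, app_comp, app_whiskerLeft_smash, app_famMap]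

theorem push_borel (φ : Z' ⟶ Z) (hφ : Eqv σ' σ φ) (f : Z ⟶ LC.of (Th n I))
    (hf : Eqv σ (Th.mapFun γ hγ) f) :
    M'.push M φ hφ ≫ M.borel F f hf = M'.borel F (φ ≫ f) (hφ.comp hf) := by
  apply M'.hom_ext
  rw [qH_push_assoc, borel, borel, qH_desc, qH_desc, MonoidalCategory.whiskerLeft_comp,
    Category.assoc]

theorem borel_post (u : Matrix K J ℂ) (hu : uᴴ * u = 1) (f : Z ⟶ LC.of (Th n I))
    (hf : Eqv σ (Th.mapFun γ hγ) f) :
    M.borel (F.post u hu) f hf = M.borel F f hf ≫ Th.map u hu := by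
  apply M.hom_ext'
  intro e z
  rw [app_comp, app_borel, app_borel]
  exact (app_thMap_thMap _ _ _ _ _ _ rfl).symm

theorem borel_pre {γ' : Matrix K K ℂ} {hγ' : γ'ᴴ * γ' = 1} (u : Matrix I K ℂ) (hu : uᴴ * u = 1)
    (h : u * γ' = γ * u) (f : Z ⟶ LC.of (Th n K)) (hf : Eqv σ (Th.mapFun γ' hγ') f)
    (hf' : Eqv σ (Th.mapFun γ hγ) (f ≫ Th.map u hu)) :
    M.borel (F.pre u hu h) f hf = M.borel F (f ≫ Th.map u hu) hf' := by
  apply M.hom_ext'
  intro e z
  rw [app_borel, app_borel, app_comp]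
  exact (app_thMap_thMap _ _ _ _ _ _ rfl).symm

theorem fib_borel (f : Z ⟶ LC.of (Th n I)) (hf : Eqv σ (Th.mapFun γ hγ) f) (e : C.S) :
    M.fib e ≫ M.borel F f hf = f ≫ Th.map (F.Ψ e) (F.isom e) := by
  apply LC.hom_ext
  intro z
  rw [app_comp, app_fib, app_borel, app_comp]

theorem borel_homotopic {f g : Z ⟶ LC.of (Th n I)} (hf : Eqv σ (Th.mapFun γ hγ) f)
    (hg : Eqv σ (Th.mapFun γ hγ) g) (H : Z ⊗ II ⟶ LC.of (Th n I))
    (hH : Eqv (Z := Z ⊗ II) (Prod.map σ id) (Th.mapFun γ hγ) H) (h0 : incl 0 Z ≫ H = f)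
    (h1 : incl 1 Z ≫ H = g) : Homotopic (M.borel F f hf) (M.borel F g hg) := by
  refine M.desc_homotopic _ _ (C.S ◁ H ≫ famMap F.Ψ F.cont F.isom)
    ((F.inv_famMap hγ).comp_left hH) ?_ ?_
  · rw [← MonoidalCategory.whiskerLeft_comp_assoc, h0]
  · rw [← MonoidalCategory.whiskerLeft_comp_assoc, h1]

/-- the rotation between two frames with orthogonal images -/
theorem borel_rot (F' : C.Fr γ J) (h : ∀ e, (F.Ψ e)ᴴ * F'.Ψ e = 0) (f : Z ⟶ LC.of (Th n I))
    (hf : Eqv σ (Th.mapFun γ hγ) f) : Homotopic (M.borel F f hf) (M.borel F' f hf) := by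
  let w : (C.S ⊗ II : LC) → Matrix J I ℂ := fun a : C.S × unitInterval =>
    cT a.2 • F.Ψ a.1 + sT a.2 • F'.Ψ a.1
  have hwc : Continuous w :=
    ((continuous_cT.comp continuous_snd).smul (F.cont.comp continuous_fst)).add
      ((continuous_sT.comp continuous_snd).smul (F'.cont.comp continuous_fst))
  have hw : ∀ a, (w a)ᴴ * w a = 1 := by
    rintro ⟨e, t⟩
    have h' : (F'.Ψ e)ᴴ * F.Ψ e = 0 := by
      have := congrArg conjTranspose (h e)
      rwa [conjTranspose_mul, conjTranspose_conjTranspose, conjTranspose_zero] at this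
    simp only [w]
    rw [conjTranspose_add, conjTranspose_smul, conjTranspose_smul, star_cT, star_sT,
      Matrix.add_mul, Matrix.mul_add, Matrix.mul_add, Matrix.smul_mul, Matrix.smul_mul,
      Matrix.smul_mul, Matrix.smul_mul, Matrix.mul_smul, Matrix.mul_smul, Matrix.mul_smul,
      Matrix.mul_smul, h e, h', F.isom, F'.isom]
    simp only [smul_zero, add_zero, zero_add, smul_smul]
    rw [← add_smul, cT_sq_add_sT_sq, one_smul]
  let G : C.S ⊗ (Z ⊗ II) ⟶ LC.of (Th n J) := C.S ◁ (β_ Z II).hom ≫ (α_ C.S II Z).inv ≫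
    (C.S ⊗ II) ◁ f ≫ famMap w hwc hw
  have hG : ∀ (e : C.S) (z : Z) (t : unitInterval),
      app G (smash (e : OnePoint C.S) (((z, t) : Z × unitInterval) : OnePoint (Z × unitInterval))) =
        app (Th.map (w (e, t)) (hw _)) (app f (z : OnePoint Z)) := by
    intro e z t
    have h1 : app G (smash (e : OnePoint C.S)
        (((z, t) : Z × unitInterval) : OnePoint (Z × unitInterval))) =
        app ((C.S ⊗ II) ◁ f ≫ famMap w hwc hw) (smash
          (((e, t) : C.S × unitInterval) : OnePoint (C.S ⊗ II : LC)) (z : OnePoint Z)) := rfl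
    rw [h1, app_comp, app_whiskerLeft_smash, app_famMap]
  refine M.desc_homotopic _ _ G ?_ ?_ ?_
  · rintro e ⟨z, t⟩
    refine (hG (C.τ e) (σ z) t).trans (Eq.trans ?_ (hG e z t).symm)
    rw [hf z, ← app_thMap]
    refine app_thMap_thMap _ _ _ _ _ _ ?_
    simp only [w]
    rw [Matrix.add_mul, Matrix.smul_mul, Matrix.smul_mul, F.rel, F'.rel]
  · apply tensor_ext
    intro e z
    refine (hG e z 0).trans ?_
    rw [app_comp, app_whiskerLeft_smash, app_famMap,
      Th.map_congr (u' := F.Ψ e) (by simp [w]) _ (F.isom e)]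
  · apply tensor_ext
    intro e z
    refine (hG e z 1).trans ?_
    rw [app_comp, app_whiskerLeft_smash, app_famMap,
      Th.map_congr (u' := F'.Ψ e) (by simp [w]) _ (F'.isom e)]

end Model

theorem eqv_lin (h : Fintype.card I = n) :
    Eqv (Z := Cpow I) (fun v => γ *ᵥ v) (Th.mapFun γ hγ) (Th.incl' h) :=
  Eqv.of_comm (s := Th.cmap γ hγ) (s' := Th.map γ hγ) (fun _ => rfl) (fun _ => rfl)
    (Th.incl_map h h γ hγ (mul_eq_one_comm.1 hγ)).symm

/-- the Borel construction of the linear inclusion is the classifying map -/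
theorem Fr.borel_lin (F : C.Fr γ J) :
    F.model.borel F (Th.incl' rfl) (eqv_lin (hγ := hγ) rfl) = clsHom F.bun F.bun_isRank := by
  apply F.model.hom_ext'
  intro e v
  rw [Model.app_borel, Th.app_incl'_coe, Th.app_map_coe]
  refine Eq.trans ?_ (app_clsHom_coe F.bun F.bun_isRank (F.q (e, v))).symm
  refine congrArg OnePoint.some (Th.ext ?_ rfl)
  rw [Th.mapFun_P, Th.mk_P, Matrix.mul_one]
  exact (F.bun_P e).symm

end Cyc

end Vale.Agent.P257.Det
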