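import Vale.Agent.P251.M.RepQ

/-!
# P257, detection: stable uniqueness of representing maps

For a map `f : Y ⟶ Th n I` and an isometry `u : ℂ^I ⊕ ℂ^b → ℂ^J` the stabilisation
`stabOf f b u hu : Y ⊗ ℂ^b ⟶ Th (n + b) J` represents the same class.

* `RepRel o` : a relation `h^* τ = f^* τ + g^* τ` holds, after a stabilisation, for the pull backs
  of all classes of `Th ⊗ Z`;
* `RepUniq o` : two maps with the same Thom class are homotopic after a stabilisation.
-/

open CategoryTheory MonoidalCategory Matrix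
open Vale.Agent.P251.G Vale.Agent.P251.G.LC Vale.Agent.P251.Q Vale.Agent.P251.Q.MultTheory

universe v

set_option linter.style.haveILetI false

noncomputable section

namespace Vale.Agent.P257.Det

section stab

variable {n : ℕ} {I J : Type} [Fintype I] [Fintype J] [DecidableEq I] [DecidableEq J]

/-- `Th n I ⊗ ℂ^b ⟶ Th (n + b) J`, `((P, v), w) ↦ u (P ⊕ 1, v ⊕ w)`. -/
def stabTh (n b : ℕ) (u : Matrix J (I ⊕ Fin b) ℂ) (hu : uᴴ * u = 1) :
    LC.of (Th n I) ⊗ Cpow (Fin b) ⟶ LC.of (Th (n + b) J) :=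
  (LC.of (Th n I) ◁ Th.incl' (Fintype.card_fin b)) ≫ Th.sum rfl ≫ Th.map u hu

/-- The stabilisation of a map to a Thom space. -/
def stabOf {Y : LC} (f : Y ⟶ LC.of (Th n I)) (b : ℕ) (u : Matrix J (I ⊕ Fin b) ℂ)
    (hu : uᴴ * u = 1) : Y ⊗ Cpow (Fin b) ⟶ LC.of (Th (n + b) J) :=
  (f ▷ Cpow (Fin b)) ≫ stabTh n b u hu

variable {E : MultTheory.{v}} (o : Orientation E)

theorem map_thMap_tau (u : Matrix J I ℂ) (hu : uᴴ * u = 1) :
    E.map (Th.map (n := n) u hu) (o.tau n J) = o.tau n I :=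
  o.tau_isom u hu _ (fun _ => ⟨_, rfl, rfl, rfl⟩)

theorem map_stabTh_tau (b : ℕ) (u : Matrix J (I ⊕ Fin b) ℂ) (hu : uᴴ * u = 1) :
    E.map (stabTh n b u hu) (o.tau (n + b) J) = E.cross (o.tau n I) (o.lin (Fin b)) := by
  haveI := o.goodTh
  rw [stabTh, MultTheory.map_comp, MultTheory.map_comp, map_thMap_tau o u hu, tau_sum',
    ← cross_map_right, map_incl']

theorem map_stabOf_tau {Y : LC} [E.Good Y] (f : Y ⟶ LC.of (Th n I)) (b : ℕ)
    (u : Matrix J (I ⊕ Fin b) ℂ) (hu : uᴴ * u = 1) :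
    E.map (stabOf f b u hu) (o.tau (n + b) J) =
      E.cross (E.map f (o.tau n I)) (o.lin (Fin b)) := by
  haveI := o.goodTh
  rw [stabOf, MultTheory.map_comp, map_stabTh_tau, ← cross_map_left]

end stab

variable {E : MultTheory.{v}} (o : Orientation E)

/-- A relation `h^* τ = f^* τ + g^* τ` between Thom classes holds stably for all classes. -/
def RepRel : Prop :=
  ∀ {Y : LC} [E.Good Y] {n : ℕ} {I : Type} [Fintype I] [DecidableEq I]
    (f g h : Y ⟶ LC.of (Th n I)),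
    E.map h (o.tau n I) = E.map f (o.tau n I) + E.map g (o.tau n I) →
    ∃ (b K : ℕ) (u : Matrix (Fin K) (I ⊕ Fin b) ℂ) (hu : uᴴ * u = 1),
      ∀ (Z : LC) [E.Good Z] (c : E.U (LC.of (Th (n + b) (Fin K)) ⊗ Z)),
        E.map (stabOf h b u hu ▷ Z) c =
          E.map (stabOf f b u hu ▷ Z) c + E.map (stabOf g b u hu ▷ Z) c

/-- Two maps with the same Thom class are stably homotopic. -/
def RepUniq : Prop :=
  ∀ {Y : LC} [E.Good Y] {n : ℕ} {I : Type} [Fintype I] [DecidableEq I]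
    (f g : Y ⟶ LC.of (Th n I)), E.map f (o.tau n I) = E.map g (o.tau n I) →
    ∃ (b K : ℕ) (u : Matrix (Fin K) (I ⊕ Fin b) ℂ) (hu : uᴴ * u = 1),
      Homotopic (stabOf f b u hu) (stabOf g b u hu)

end Vale.Agent.P257.Det
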