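import Vale.Agent.P257.Det.PowMain
import Vale.Agent.P257.Det.BetaL
import Vale.Agent.P257.L.Coef
import Mathlib.RingTheory.Localization.Basic

/-!
# P257, detection: the algebra at the end

* `LocP p R` : the localisation at the integers prime to `p`; `isUnit_int`, `isUnit_of_pt`;
* `det_end` : the detection of `v_(m+1)` from a relation in the localisation;
* `exists_unit_of_isV`, `exists_int_of_cl` : normalisation of the values of classes.
-/

open CategoryTheory MonoidalCategory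
open Vale.Agent.P251.G Vale.Agent.P251.G.LC Vale.Agent.P251.Q Vale.Agent.P251.Q.MultTheory
open Vale.Agent.P217 Vale.Agent.P251.F

universe v u w v'

noncomputable section

namespace Vale.Agent.P257.Det

section loc

/-- the submonoid generated by the integers prime to `p` -/
def intSub (p : ℕ) (R : Type*) [CommRing R] : Submonoid R :=
  Submonoid.closure {x | ∃ t : ℤ, ¬ (p : ℤ) ∣ t ∧ x = t}

/-- the localisation at the integers prime to `p` -/
abbrev LocP (p : ℕ) (R : Type*) [CommRing R] : Type _ := Localization (intSub p R)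

variable {p : ℕ} {R : Type*} [CommRing R]

theorem not_dvd_one (hp : p.Prime) : ¬ (p : ℤ) ∣ 1 := fun h =>
  hp.one_lt.ne' (Nat.dvd_one.1 (Int.natCast_dvd_natCast.1 h))

theorem not_dvd_pow (hp : p.Prime) {t : ℤ} (ht : ¬ (p : ℤ) ∣ t) (n : ℕ) : ¬ (p : ℤ) ∣ t ^ n := by
  induction n with
  | zero => exact pow_zero t ▸ not_dvd_one hp
  | succ n ih => exact pow_succ t n ▸ L.not_dvd_mul hp ih ht

theorem int_mem_intSub {t : ℤ} (ht : ¬ (p : ℤ) ∣ t) : (t : R) ∈ intSub p R :=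
  Submonoid.subset_closure ⟨t, ht, rfl⟩

theorem mem_intSub (hp : p.Prime) {x : R} : x ∈ intSub p R ↔ ∃ t : ℤ, ¬ (p : ℤ) ∣ t ∧ x = t := by
  refine ⟨fun h => ?_, fun ⟨t, ht, e⟩ => e ▸ int_mem_intSub ht⟩
  induction h using Submonoid.closure_induction with
  | mem x hx => exact hx
  | one => exact ⟨1, not_dvd_one hp, Int.cast_one.symm⟩
  | mul x y _ _ hx hy =>
    obtain ⟨s, hs, rfl⟩ := hx
    obtain ⟨t, ht, rfl⟩ := hy
    exact ⟨s * t, L.not_dvd_mul hp hs ht, (Int.cast_mul s t).symm⟩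

theorem isUnit_int {t : ℤ} (ht : ¬ (p : ℤ) ∣ t) : IsUnit (t : LocP p R) := by
  rw [← map_intCast (algebraMap R (LocP p R))]
  exact IsLocalization.map_units (LocP p R) (⟨t, int_mem_intSub ht⟩ : intSub p R)

theorem loc_eq_iff (hp : p.Prime) {x y : R} :
    algebraMap R (LocP p R) x = algebraMap R (LocP p R) y ↔
      ∃ s : ℤ, ¬ (p : ℤ) ∣ s ∧ s * x = s * y := by
  rw [IsLocalization.eq_iff_exists (intSub p R)]
  refine ⟨fun ⟨c, hc⟩ => ?_, fun ⟨s, hs, h⟩ => ⟨⟨s, int_mem_intSub hs⟩, h⟩⟩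
  obtain ⟨s, hs, e⟩ := (mem_intSub hp).1 c.2
  exact ⟨s, hs, e ▸ hc⟩

theorem isUnit_of_mul_eq {x x' : R} {n : ℤ} (hn : ¬ (p : ℤ) ∣ n) (h : x * x' = n) :
    IsUnit (algebraMap R (LocP p R) x) :=
  isUnit_of_mul_isUnit_left (y := algebraMap R (LocP p R) x') (by
    rw [← map_mul, h, map_intCast]
    exact isUnit_int hn)

theorem exists_inv_of_nil (hp : p.Prime) {x : R} {t : ℤ} (ht : ¬ (p : ℤ) ∣ t)
    (h : IsNilpotent ((t : R) - x)) : ∃ (x' : R) (n : ℤ), ¬ (p : ℤ) ∣ n ∧ x * x' = n := by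
  obtain ⟨M, hM⟩ := h
  obtain ⟨x', hx'⟩ := sub_dvd_pow_sub_pow (t : R) ((t : R) - x) M
  rw [hM, sub_zero, sub_sub_cancel] at hx'
  exact ⟨x', t ^ M, not_dvd_pow hp ht M, by rw [← hx', Int.cast_pow]⟩

theorem mem_of_int_mul (hp : p.Prime) {I : Ideal R} (hI : (p : R) ∈ I) {n : ℤ}
    (hn : ¬ (p : ℤ) ∣ n) {a : R} (ha : n * a ∈ I) : a ∈ I := by
  obtain ⟨s, t, e⟩ := L.exists_bezout hp hn
  have e' : ((s * n + t * p : ℤ) : R) = 1 := by rw [e, Int.cast_one]
  have : a = s * (n * a) + (t * a) * p := by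
    push_cast at e'
    linear_combination (-a) * e'
  rw [this]
  exact add_mem (Ideal.mul_mem_left _ _ ha) (Ideal.mul_mem_left _ _ hI)

end loc

section pt

variable {E : MultTheory.{v}}

/-- the restriction to a point -/
def ptAt {B : LC} [CompactSpace B] [E.Good B] (b : B) : E.U B →ₐ[E.A] E.A :=
  (toAAlg E).comp (E.mapAlg (⟨fun _ => b, continuous_const⟩ : C((𝟙_ LC : LC), B)))

theorem ptAt_apply {B : LC} [CompactSpace B] [E.Good B] (b : B) (y : E.U B) :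
    ptAt b y = E.toA (E.map (point b) y) :=
  congrArg (fun f => E.toA (E.map f y)) (hom_ext fun _ => rfl)

theorem exists_inv_of_pt {B : LC} [CompactSpace B] [CellSp B] [E.Good B] {p : ℕ} (hp : p.Prime)
    (θ : E.U B) (t : ℤ) (ht : ¬ (p : ℤ) ∣ t) (h : ∀ b, E.toA (E.map (point b) θ) = t) :
    ∃ (θ' : E.U B) (n : ℤ), ¬ (p : ℤ) ∣ n ∧ θ * θ' = n :=
  exists_inv_of_nil hp ht (nil_of_point _ fun b => by
    have h1 : ptAt b ((t : E.U B) - θ) = 0 := by
      rw [map_sub, map_intCast, ptAt_apply, h, sub_self]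
    exact (ptAt_apply b _).symm.trans h1)

/-- a class whose values at all points are an integer prime to `p` is a unit -/
theorem isUnit_of_pt {r k p : ℕ} (hp : p.Prime) (θ : E.U (Bk r k)) (t : ℤ) (ht : ¬ (p : ℤ) ∣ t)
    (h : ∀ b, E.toA (E.map (point b) θ) = t) :
    (∃ (θ' : E.U (Bk r k)) (n : ℤ), ¬ (p : ℤ) ∣ n ∧ θ * θ' = n) ∧
      IsUnit (algebraMap _ (LocP p (E.U (Bk r k))) θ) := by
  obtain ⟨θ', n, hn, e⟩ := exists_inv_of_pt hp θ t ht h
  exact ⟨⟨θ', n, hn, e⟩, isUnit_of_mul_eq hn e⟩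

end pt

/-- **The detection of `v_(m+1)`.** -/
theorem det_end (E : ThomTheory.{v}) (hR : RepRel E.o) {r : ℕ} (hp : (r + 1).Prime)
    (hreg : ∀ a : E.A, ((r + 1 : ℕ) : E.A) * a = 0 → a = 0) (m : ℕ) {n : ℕ} {I W : Type}
    [Fintype I] [DecidableEq I] [Fintype W] [DecidableEq W] (f : Cpow W ⟶ LC.of (Th n I))
    (x : E.A) (hx : E.map f (E.o.tau n I) = x • E.o.lin W)
    (hdim : n + ((r + 1) ^ m - 1) = Fintype.card W) (u : ℤ)
    (hu : x - u * vF (r + 1) E.o.law.toFG m ∈ IF (r + 1) E.o.law.toFG m) :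
    ∃ k : ℕ, ∀ (θ H y : E.U (Bk r k)) (j : ℕ) (t a : ℤ) (z : E.A)
      (X : LocP (r + 1) (E.U (Bk r k))), ¬ ((r + 1 : ℕ) : ℤ) ∣ t → ¬ ((r + 1 : ℕ) : ℤ) ∣ a →
      (∀ b, E.toA (E.map (point b) θ) = t) → IsPsi E.o r k f (wk E.o r k ^ Fintype.card W * y) →
      algebraMap _ (LocP (r + 1) (E.U (Bk r k))) (wk E.o r k * H) =
        algebraMap _ (LocP (r + 1) (E.U (Bk r k))) θ ^ j *
          (algebraMap _ (LocP (r + 1) (E.U (Bk r k))) y - X) →
      (a : LocP (r + 1) (E.U (Bk r k))) * X = algebraMap _ (LocP (r + 1) (E.U (Bk r k)))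
        (algebraMap E.A (E.U (Bk r k)) (z * x ^ (r + 1))) →
      ∃ s : ℤ, ¬ ((r + 1 : ℕ) : ℤ) ∣ s ∧
        ptk E.toMultTheory r k H - s * u * vF (r + 1) E.o.law.toFG (m + 1) ∈
          IF (r + 1) E.o.law.toFG (m + 1) := by
  obtain ⟨k, hk⟩ := detU E hR hp hreg m f x hx hdim u hu 0
  refine ⟨k, fun θ H y j t a z X ht ha hθ hy h1 h2 => ⟨t ^ j, not_dvd_pow hp ht j, ?_⟩⟩
  obtain ⟨θ', n, hn, e⟩ := exists_inv_of_pt hp θ t ht hθ
  have h3 : algebraMap _ (LocP (r + 1) (E.U (Bk r k))) (a * (wk E.o r k * H)) =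
      algebraMap _ (LocP (r + 1) (E.U (Bk r k)))
        (θ ^ j * (a * y - algebraMap E.A (E.U (Bk r k)) (z * x ^ (r + 1)))) := by
    rw [map_mul, h1, map_mul, map_sub, ← h2, map_mul, map_pow, map_intCast]
    ring
  obtain ⟨s, hs, h4⟩ := (loc_eq_iff hp).1 h3
  have e' : θ ^ j * θ' ^ j = (n : E.U (Bk r k)) ^ j := by rw [← mul_pow, e]
  have h5 := hk (s * a * θ' ^ j * H) _ (s * n ^ j * a) (s * n ^ j * z) hy (by
    rw [mul_assoc ((s : E.A) * n ^ j), map_mul, map_mul, map_pow, map_intCast, map_intCast,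
      Int.cast_mul, Int.cast_mul, Int.cast_pow]
    linear_combination wk E.o r k ^ Fintype.card W * θ' ^ j * h4 + wk E.o r k ^ Fintype.card W *
      s * (a * y - algebraMap E.A (E.U (Bk r k)) (z * x ^ (r + 1))) * e')
  have h6 : (t : E.A) ^ j * ptAlg E.toMultTheory r k θ' ^ j = (n : E.A) ^ j := by
    have h7 := congrArg (ptAlg E.toMultTheory r k) e'
    rwa [map_mul, map_pow, map_pow, map_pow, map_intCast, ptAlg_apply r k θ, ptk, hθ] at h7
  rw [← ptAlg_apply, map_mul, map_mul, map_mul, map_pow, map_intCast, map_intCast,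
    ptAlg_apply r k H] at h5
  refine mem_of_int_mul hp (vF_zero (r + 1) E.o.law.toFG ▸ vF_mem _ _ (Nat.succ_pos m))
    (L.not_dvd_mul hp (L.not_dvd_mul hp hs (not_dvd_pow hp hn j)) ha) ?_
  convert Ideal.mul_mem_left _ ((t : E.A) ^ j) h5 using 1
  push_cast
  linear_combination (-(s * a * ptk E.toMultTheory r k H) : E.A) * h6

section coef

variable {p : ℕ} {A : Type w} [CommRing A] {G : L.RegSeq p A}

theorem dvd_of_cast_eq_zero (G : L.RegSeq p A) (hp : p.Prime) {d : ℤ} (h : (d : A) = 0) :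
    (p : ℤ) ∣ d := by
  by_contra hd
  exact G.ne 1 (mem_of_int_mul hp (G.p_mem le_rfl) hd (by rw [h, zero_mul]; exact zero_mem _))

variable {C : Type u} [Category.{v'} C] [Preadditive C] [MonoidalCategory C]
  {cc : P257.C.Cells C ℤ} {R : C} [MonObj R] {K : L.Coef cc R G} {P : C} {x : P ⟶ R} {a : A}
  (hp : p.Prime) (h0 : ∀ a ∈ G.gr 0, ∃ n : ℤ, a = n)
include hp h0

theorem exists_unit_of_isV' {m : ℕ} (hx : K.IsV m x) (ha : K.Cl ((p : ℤ) ^ m - 1) x a) :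
    ∃ u : ℤ, ¬ (p : ℤ) ∣ u ∧ a - u * G.v m ∈ G.I m := by
  obtain ⟨b, u, hb, hu, h⟩ := hx
  obtain ⟨s, s', hs, hs', e⟩ := K.uniq ha hb
  simp only [zsmul_eq_mul] at h e
  rcases Nat.eq_zero_or_pos m with rfl | hm
  · obtain ⟨n, rfl⟩ := h0 a (by simpa using K.deg ha)
    rw [G.I_zero, G.v_zero, Ideal.mem_bot, sub_eq_zero] at h
    simp only [G.I_zero, G.v_zero, Ideal.mem_bot]
    have h1 : (p : ℤ) ∣ s * n - s' * u * p := dvd_of_cast_eq_zero G hp (by
      push_cast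
      linear_combination e + s' * h)
    obtain ⟨n, rfl⟩ : (p : ℤ) ∣ n := by
      by_contra hn
      exact L.not_dvd_mul hp hs hn (by simpa using dvd_add h1 (dvd_mul_left (p : ℤ) (s' * u)))
    by_cases hn : (p : ℤ) ∣ n
    · refine ⟨n + (s * n - s' * u), fun k => L.not_dvd_mul hp hs' hu ?_, ?_⟩
      · simpa using dvd_sub (dvd_add hn (hn.mul_left s)) k
      · push_cast at e ⊢
        linear_combination -e - s' * h
    · exact ⟨n, hn, by push_cast; ring⟩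
  · obtain ⟨c, d, e'⟩ := L.exists_bezout hp hs
    have hc : ¬ (p : ℤ) ∣ c := fun k => not_dvd_one hp (e' ▸ dvd_add (k.mul_right s)
      (dvd_mul_left _ _))
    refine ⟨c * s' * u, L.not_dvd_mul hp (L.not_dvd_mul hp hc hs') hu, ?_⟩
    have e'' : ((c * s + d * p : ℤ) : A) = 1 := by rw [e', Int.cast_one]
    convert add_mem (Ideal.mul_mem_left _ ((c : A) * s') h)
      (Ideal.mul_mem_left _ ((d : A) * a) (G.p_mem hm)) using 1
    push_cast at e'' ⊢
    linear_combination (-a) * e'' + c * e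

theorem exists_unit_of_isV {F : FormalGroup A} {m : ℕ} (hv : G.v m = vF p F m)
    (hI : G.I m = IF p F m) (hx : K.IsV m x) (ha : K.Cl ((p : ℤ) ^ m - 1) x a) :
    ∃ u : ℤ, ¬ (p : ℤ) ∣ u ∧ a - u * vF p F m ∈ IF p F m :=
  hv ▸ hI ▸ exists_unit_of_isV' hp h0 hx ha

theorem exists_int_of_cl (ha : K.Cl 0 x a) (h1 : K.Cl 0 x 1) : ∃ t : ℤ, ¬ (p : ℤ) ∣ t ∧ a = t := by
  obtain ⟨t, rfl⟩ := h0 a (K.deg ha)
  obtain ⟨s, s', -, hs', e⟩ := K.uniq ha h1
  refine ⟨t, fun k => hs' ?_, rfl⟩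
  have h2 : (p : ℤ) ∣ s * t - s' := dvd_of_cast_eq_zero G hp (by
    simp only [zsmul_eq_mul] at e
    push_cast
    linear_combination e)
  simpa using dvd_sub (k.mul_left s) h2

end coef

end Vale.Agent.P257.Det
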