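import Vale.Agent.P257.Det.Val

/-!
# P257, detection: the Borel class of a stable map to `MU`

* `Rel c P P'`: the classes for `P` are `c` times the classes for `P'`, in every context;
* `hat φ D PU P x`: the class of a morphism `x` of `SC D`, in a ring where the class of the
  structure map of `D` is a unit.
-/

set_option linter.unusedSectionVars false

open CategoryTheory MonoidalCategory Limits

universe v w

noncomputable section

namespace Vale.Agent.P257.Det

open Vale.Agent.P251.H.StabInput (MHtpy tdesc tinl_desc tinr_desc)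
open Vale.Agent.P251.G Vale.Agent.P251.Q
open Vale.Agent.P251.G.LC (RR cat sumInl sumInr)
open Vale.Agent.P257.D Vale.Agent.P257.E Vale.Agent.P257.P Vale.Agent.P257.K

variable {G : Type} [Group G] {E : MultTheory.{v}} (o : Orientation E) {B : LC} [CompactSpace B]
  [GoodBase E B] {r : ℕ} (L : CycF B r) (g : G) {X Y Z : Action (EF O) G}

namespace Pz

/-- proportional presentations -/
structure Rel (c : E.U B) (P P' : Pz Y) : Prop where
  val : ∀ f, P.val o L g f = c * P'.val o L g f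
  ctx : ∀ {Z : Action (EF O) G} (R : Pz Z) (f), (R.ten P).val o L g f = c * (R.ten P').val o L g f

variable {o L g} {c c' : E.U B} {P P' P'' : Pz Y}

theorem Rel.refl (P : Pz Y) : Rel o L g 1 P P :=
  ⟨fun _ => (one_mul _).symm, fun _ _ => (one_mul _).symm⟩

theorem Rel.trans (h : Rel o L g c P P') (h' : Rel o L g c' P' P'') : Rel o L g (c * c') P P'' :=
  ⟨fun f => by rw [h.val, h'.val, mul_assoc], fun R f => by rw [h.ctx, h'.ctx, mul_assoc]⟩

theorem Rel.symm (h : Rel o L g 1 P P') : Rel o L g 1 P' P :=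
  ⟨fun f => by rw [h.val, one_mul, one_mul], fun R f => by rw [h.ctx, one_mul, one_mul]⟩

theorem Rel.trans_one (h : Rel o L g c P P') (h' : Rel o L g 1 P' P'') : Rel o L g c P P'' :=
  mul_one c ▸ h.trans h'

theorem Rel.one_trans (h : Rel o L g 1 P P') (h' : Rel o L g c P' P'') : Rel o L g c P P'' :=
  one_mul c ▸ h.trans h'

theorem Rel.push (h : Rel o L g c P P') (φ : Y ⟶ Z) : Rel o L g c (P.push φ) (P'.push φ) :=
  ⟨fun f => by rw [val_push, val_push, h.val], fun R f => by
    rw [ten_push, ten_push, val_push, val_push, h.ctx]⟩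

variable (hg : g ^ (r + 1) = 1)
include hg

theorem Cmp.rel (C : Cmp P P') : Rel o L g (dgr o L g P.Q' P'.Q' C.ψ) P P' :=
  ⟨val_cmp o L hg C, fun R f => (val_cmp o L hg (C.ten R) f).trans
    (congrArg (· * _) (dgr_tensor o L hg R.Q' (C.hψ g)))⟩

theorem rel_assoc (P : Pz X) (P' : Pz Y) (P'' : Pz Z) :
    Rel o L g 1 (((P.ten P').ten P'').push (α_ X Y Z).hom) (P.ten (P'.ten P'')) :=
  dgr_iso o L hg (α_ P.Q' P'.Q' P''.Q') ▸ (cmpAssoc P P' P'').rel hg

theorem rel_comm (P : Pz X) (P' : Pz Y) : Rel o L g 1 ((P.ten P').push (β_ X Y).hom) (P'.ten P) :=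
  dgr_iso o L hg (β_ P.Q' P'.Q') ▸ (cmpComm P P').rel hg

theorem val_assoc (P : Pz X) (P' : Pz Y) (P'' : Pz Z) (f) : (P.ten (P'.ten P'')).val o L g f =
    ((P.ten P').ten P'').val o L g ((α_ X Y Z).hom ≫ f) := by
  rw [← val_push, (rel_assoc hg P P' P'').val, one_mul]

theorem val_comm (P : Pz X) (P' : Pz Y) (f) :
    (P'.ten P).val o L g f = (P.ten P').val o L g ((β_ X Y).hom ≫ f) := by
  rw [← val_push, (rel_comm hg P P').val, one_mul]

theorem Rel.ten_left (h : Rel o L g c P P') (R : Pz X) : Rel o L g c (R.ten P) (R.ten P') :=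
  ⟨h.ctx R, fun R' f => by rw [val_assoc hg, val_assoc hg, h.ctx]⟩

theorem Rel.ten_right (h : Rel o L g c P P') (R : Pz X) : Rel o L g c (P.ten R) (P'.ten R) :=
  ((rel_comm hg R P).symm.one_trans ((h.ten_left hg R).push _)).trans_one (rel_comm hg R P')

theorem val_tt (R : Pz X) (a : X ⟶ 𝟙_ _) (P : Pz Y) (f) :
    (R.ten P).val o L g (tt a Y ≫ f) = R.val o L g (a ≫ oneT G) * P.val o L g f := by
  rw [tt_comp_eq_mul, val_ten o L hg]

theorem rel_tt (R : Pz X) (a : X ⟶ 𝟙_ _) (P : Pz Y) :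
    Rel o L g (R.val o L g (a ≫ oneT G)) ((R.ten P).push (tt a Y)) P := by
  refine ⟨fun f => by rw [val_push, val_tt hg], fun {Z} R' f => ?_⟩
  have h := (rel_comm hg R' R).ten_right (o := o) (L := L) hg P
  rw [ten_push, val_push, val_assoc hg, ← val_tt hg, val_assoc hg R, ← one_mul (val o L _ g _),
    ← one_mul ((R.ten R').ten P |>.val o L g _), ← h.val, push_ten_left, val_push, one_mul,
    ← Tk.sw_tt, Tk.sw]
  simp

end Pz

variable {R : Type w} [CommRing R] (φ : E.U B →+* R) (D : Stab (Action (EF O) G)) (PU : Pz D.U)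

/-- the presentations of the stabilisations -/
def spw (P : Pz Y) : ∀ k, Pz (D.pw k Y)
  | 0 => P
  | k + 1 => PU.ten (spw P k)

/-- the class of the structure map -/
abbrev vth : E.U B := PU.val o L g (D.lam ≫ oneT G)

open scoped Classical in
/-- **the stable Borel class** -/
def hat (P : Pz Y) (x : (st D).obj Y ⟶ (st D).obj ((triv G).obj MUo)) : R :=
  Ring.inverse (φ (vth o L g D PU)) ^ (SC.exists_frac x).choose *
    φ ((spw D PU P _).val o L g (SC.exists_frac x).choose_spec.choose)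

variable {o L g φ D PU} (hg : g ^ (r + 1) = 1)
include hg

theorem Pz.Rel.pw {c : E.U B} {P P' : Pz Y} (h : Pz.Rel o L g c P P') (k : ℕ) :
    Pz.Rel o L g c (spw D PU P k) (spw D PU P' k) := by
  induction k with
  | zero => exact h
  | succ k ih => exact ih.ten_left hg PU

omit hg in
theorem spw_push (P : Pz X) (χ : X ⟶ Y) (k : ℕ) :
    spw D PU (P.push χ) k = (spw D PU P k).push (D.pwMap k χ) := by
  induction k with
  | zero => rfl
  | succ k ih => exact (congrArg PU.ten ih).trans (Pz.ten_push _ _ _)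

theorem val_tk (P : Pz Y) (k : ℕ) (f) :
    (spw D PU P k).val o L g (D.tk k Y ≫ f) = vth o L g D PU ^ k * P.val o L g f := by
  induction k with
  | zero => rw [pow_zero, one_mul, D.tk_zero, Category.id_comp]; rfl
  | succ k ih =>
    rw [D.tk_succ, Category.assoc, pow_succ', mul_assoc, ← ih]
    exact Pz.val_tt hg PU D.lam _ _

variable (hu : IsUnit (φ (vth o L g D PU)))
include hu

theorem val_eq_of_st (P : Pz Y) {f f' : Y ⟶ (triv G).obj MUo} (h : (st D).map f = (st D).map f') :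
    φ (P.val o L g f) = φ (P.val o L g f') := by
  obtain ⟨k, h⟩ := (SC.st_eq_iff _ _).1 h
  have h2 := congrArg φ ((val_tk hg P k f).symm.trans
    (((spw D PU P k).val_htpy o L hg h).trans (val_tk hg P k f')))
  rw [map_mul, map_mul, map_pow] at h2
  exact (hu.pow k).mul_left_cancel h2

theorem frac_eq (P : Pz Y) {x : (st D).obj Y ⟶ (st D).obj ((triv G).obj MUo)} {k m : ℕ}
    (l : k ≤ m) {f : D.pw k Y ⟶ _} (hf : (st D).map (D.tk k Y) ≫ x = (st D).map f) :
    ∀ {f' : D.pw m Y ⟶ _}, (st D).map (D.tk m Y) ≫ x = (st D).map f' →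
      φ (vth o L g D PU) ^ k * φ ((spw D PU P m).val o L g f') =
        φ (vth o L g D PU) ^ m * φ ((spw D PU P k).val o L g f) := by
  induction m, l using Nat.le_induction generalizing f with
  | base => exact fun h => congrArg _ (val_eq_of_st hg hu _ (h.symm.trans hf))
  | succ m l ih =>
    intro f' h
    obtain ⟨f'', h''⟩ : ∃ f'' : D.pw m Y ⟶ _, (st D).map (D.tk m Y) ≫ x = (st D).map f'' := by
      clear h ih f'
      induction m, l using Nat.le_induction with
      | base => exact ⟨f, hf⟩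
      | succ m _ ih =>
        obtain ⟨f'', h''⟩ := ih
        exact ⟨D.t _ ≫ f'', by rw [D.tk_succ, Functor.map_comp, Category.assoc, h'',
          Functor.map_comp]⟩
    have h3 : (st D).map f' = (st D).map (D.t _ ≫ f'') := by
      rw [← h, D.tk_succ, Functor.map_comp, Category.assoc, h'', Functor.map_comp]
    rw [val_eq_of_st hg hu _ h3, pow_succ', mul_assoc, ← ih hf h'', mul_left_comm, ← map_mul]
    exact congrArg (fun z => _ * φ z) (Pz.val_tt hg PU D.lam _ _)

theorem hat_spec (P : Pz Y) {x : (st D).obj Y ⟶ (st D).obj ((triv G).obj MUo)} {k : ℕ}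
    {f : D.pw k Y ⟶ _} (hf : (st D).map (D.tk k Y) ≫ x = (st D).map f) :
    φ (vth o L g D PU) ^ k * hat o L g φ D PU P x = φ ((spw D PU P k).val o L g f) := by
  have h := (SC.exists_frac x).choose_spec.choose_spec
  rw [hat]
  generalize (SC.exists_frac x).choose_spec.choose = f' at h ⊢
  generalize (SC.exists_frac x).choose = m at f' h ⊢
  refine (hu.pow m).mul_left_cancel ?_
  rw [mul_left_comm, ← mul_assoc (_ ^ m), ← mul_pow, Ring.mul_inverse_cancel _ hu, one_pow, one_mul]
  rcases le_total k m with l | l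
  · exact frac_eq hg hu P l hf h
  · exact (frac_eq hg hu P l h hf).symm

theorem hat_st (P : Pz Y) (f : Y ⟶ (triv G).obj MUo) :
    hat o L g φ D PU P ((st D).map f) = φ (P.val o L g f) := by
  have h := hat_spec hg hu P (x := (st D).map f) (k := 0) (f := f)
    (by rw [D.tk_zero, ← Functor.map_comp]; simp)
  rwa [pow_zero, one_mul] at h

theorem hat_push (P : Pz X) (χ : X ⟶ Y) (x : (st D).obj Y ⟶ (st D).obj ((triv G).obj MUo)) :
    hat o L g φ D PU (P.push χ) x = hat o L g φ D PU P ((st D).map χ ≫ x) := by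
  obtain ⟨k, f, h⟩ := SC.exists_frac x
  refine (hu.pow k).mul_left_cancel ?_
  rw [hat_spec hg hu _ h, hat_spec hg hu P (f := D.pwMap k χ ≫ f) (by
    rw [← Functor.map_comp_assoc, ← D.tk_nat, Functor.map_comp_assoc, h, Functor.map_comp]),
    spw_push, Pz.val_push]

theorem hat_rel {c : E.U B} {P P' : Pz Y} (h : Pz.Rel o L g c P P')
    (x : (st D).obj Y ⟶ (st D).obj ((triv G).obj MUo)) :
    hat o L g φ D PU P x = φ c * hat o L g φ D PU P' x := by
  obtain ⟨k, f, hf⟩ := SC.exists_frac x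
  refine (hu.pow k).mul_left_cancel ?_
  rw [hat_spec hg hu _ hf, mul_left_comm, hat_spec hg hu _ hf, (h.pw hg k).val, map_mul]

theorem hat_add (P : Pz Y) (x y : (st D).obj Y ⟶ (st D).obj ((triv G).obj MUo)) :
    hat o L g φ D PU P (x + y) = hat o L g φ D PU P x + hat o L g φ D PU P y := by
  obtain ⟨k, hk⟩ := SC.exists_frac_le x
  obtain ⟨l, hl⟩ := SC.exists_frac_le y
  obtain ⟨f, hf⟩ := hk (k + l + 1) (by omega)
  obtain ⟨f', hf'⟩ := hl (k + l + 1) (by omega)
  generalize k + l = m at f f' hf hf'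
  let e : D.pw (m + 1) Y ≅ (D.L ⊗ D.pw m Y) ⊗ (JG G).obj RR :=
    α_ _ _ _ ≪≫ whiskerLeftIso _ (β_ _ _) ≪≫ (α_ _ _ _).symm
  let d := tdesc (e.inv ≫ f) (e.inv ≫ f')
  have key : ∀ u w : RR ⟶ LC.sum RR RR, (st D).map (e.hom ≫ _ ◁ (JG G).map (cat u w) ≫ d) =
      (st D).map (e.hom ≫ _ ◁ (JG G).map u ≫ d) + (st D).map (e.hom ≫ _ ◁ (JG G).map w ≫ d) := by
    intro u w
    have k : (st D).map ((JG G).map (cat u w)) =
      (st D).map ((JG G).map u) + (st D).map ((JG G).map w) := (SC.sphFun D).map_cat u w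
    simp only [Functor.map_comp, SC.st_whiskerLeft, k, MonoidalPreadditive.whiskerLeft_add,
      Preadditive.add_comp, Preadditive.comp_add]
  have h0 : (st D).map (e.hom ≫ _ ◁ (JG G).map (0 : RR ⟶ LC.sum RR RR) ≫ d) = 0 := by
    have k : (st D).map ((JG G).map (0 : RR ⟶ LC.sum RR RR)) = 0 := (SC.sphFun D).zero _ _
    simp only [Functor.map_comp, SC.st_whiskerLeft, k, MonoidalPreadditive.whiskerLeft_zero,
      zero_comp, comp_zero]
  have h1 : e.hom ≫ _ ◁ (JG G).map (sumInl RR RR) ≫ d = f := by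
    rw [tinl_desc, e.hom_inv_id_assoc]
  have h2 : e.hom ≫ _ ◁ (JG G).map (sumInr RR RR) ≫ d = f' := by
    rw [tinr_desc, e.hom_inv_id_assoc]
  refine (hu.pow (m + 1)).mul_left_cancel ?_
  rw [mul_add, hat_spec hg hu P (f := e.hom ≫ _ ◁ (JG G).map (cat (sumInl _ _) (sumInr _ _)) ≫ d)
      (by rw [key, h1, h2, Preadditive.comp_add, hf, hf']),
    hat_spec hg hu P (f := e.hom ≫ _ ◁ (JG G).map (cat (sumInl _ _) 0) ≫ d)
      (by rw [key, h1, h0, add_zero, hf]),
    hat_spec hg hu P (f := e.hom ≫ _ ◁ (JG G).map (cat 0 (sumInr _ _)) ≫ d)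
      (by rw [key, h2, h0, zero_add, hf']), ← map_add, ← Pz.val_push _ _ _ e.hom,
    ← Pz.val_push _ _ _ e.hom, ← Pz.val_push _ _ _ e.hom, Pz.val_cat o L hg]

theorem hat_sub (P : Pz Y) (x y : (st D).obj Y ⟶ (st D).obj ((triv G).obj MUo)) :
    hat o L g φ D PU P (x - y) = hat o L g φ D PU P x - hat o L g φ D PU P y := by
  rw [eq_sub_iff_add_eq, ← hat_add hg hu, sub_add_cancel]

end Vale.Agent.P257.Det
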