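import Vale.Agent.P257.Det.Defs
import Vale.Agent.P251.Q.PowerQ
import Vale.Agent.P251.Q.GenClass
import Vale.Agent.P251.Q.GoodInst

/-!
# P257, detection: products over a compact base

* `bx y y'` : the product of `y : U (X ⊗ B)` and `y' : U (Y ⊗ B)` in `U ((X ⊗ Y) ⊗ B)`;
* `sm a y` : the action of `U B` on `U (X ⊗ B)`;
* `mulMap f g` : the product of two maps to Thom spaces.
-/

open CategoryTheory MonoidalCategory Matrix
open Vale.Agent.P251.G Vale.Agent.P251.G.LC Vale.Agent.P251.Q Vale.Agent.P251.Q.MultTheory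

universe v

set_option linter.unusedSectionVars false

noncomputable section

namespace Vale.Agent.P257.Det

variable {E : MultTheory.{v}}

section bx

variable {X Y Z W B : LC}

theorem cross4 [E.Good X] [E.Good Y] [E.Good Z] [E.Good W] (a : E.U X) (b : E.U Y) (c : E.U Z)
    (d : E.U W) : E.map (tensorμ X Y Z W) (E.cross (E.cross a c) (E.cross b d)) =
      E.cross (E.cross a b) (E.cross c d) := by
  rw [tensorμ, MultTheory.map_comp, MultTheory.map_comp, MultTheory.map_comp,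
    MultTheory.map_comp, cross_assoc_inv, ← cross_map_right, cross_assoc, ← cross_map_right,
    ← cross_map_left, cross_comm, ← cross_map_right, cross_assoc_inv, cross_assoc]

/-- `((x, y), b) ↦ ((x, b), (y, b))` -/
def muB (X Y B : LC) : (X ⊗ Y) ⊗ B ⟶ (X ⊗ B) ⊗ (Y ⊗ B) :=
  ((X ⊗ Y) ◁ diag B) ≫ tensorμ X Y B B

theorem muB_nat {X' Y' : LC} (f : X ⟶ X') (g : Y ⟶ Y') :
    muB X Y B ≫ ((f ▷ B) ⊗ₘ (g ▷ B)) = ((f ⊗ₘ g) ▷ B) ≫ muB X' Y' B := by
  rw [muB, muB, Category.assoc, ← tensorHom_id, ← tensorHom_id, ← tensorμ_natural,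
    ← Category.assoc, ← Category.assoc, id_tensorHom_id, tensorHom_id, whisker_exchange]

variable (E) in
/-- the product over the base `B` -/
def bx : E.U (X ⊗ B) →+ E.U (Y ⊗ B) →+ E.U ((X ⊗ Y) ⊗ B) :=
  (AddMonoidHom.compHom (E.map (muB X Y B))).comp E.cross

theorem bx_apply (y : E.U (X ⊗ B)) (y' : E.U (Y ⊗ B)) :
    bx E y y' = E.map (muB X Y B) (E.cross y y') := rfl

variable (E) in
/-- the action of the classes of the base -/
def sm (X : LC) : E.U B →+ E.U (X ⊗ B) →+ E.U (X ⊗ B) := E.act (sndC X B)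

variable [E.Good X] [E.Good Y] [E.Good Z] [E.Good W] [E.Good B]

theorem bx_map (f : X ⟶ Z) (g : Y ⟶ W) (y : E.U (Z ⊗ B)) (y' : E.U (W ⊗ B)) :
    bx E (E.map (f ▷ B) y) (E.map (g ▷ B) y') = E.map ((f ⊗ₘ g) ▷ B) (bx E y y') := by
  rw [bx_apply, bx_apply, cross_map, ← MultTheory.map_comp, ← MultTheory.map_comp, muB_nat]

theorem bx_map_left (f : X ⟶ Z) (y : E.U (Z ⊗ B)) (y' : E.U (Y ⊗ B)) :
    bx E (E.map (f ▷ B) y) y' = E.map ((f ▷ Y) ▷ B) (bx E y y') := by
  have h := bx_map f (𝟙 Y) y y'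
  rwa [id_whiskerRight, MultTheory.map_id, tensorHom_id] at h

theorem bx_map_right (g : Y ⟶ W) (y : E.U (X ⊗ B)) (y' : E.U (W ⊗ B)) :
    bx E y (E.map (g ▷ B) y') = E.map ((X ◁ g) ▷ B) (bx E y y') := by
  have h := bx_map (𝟙 X) g y y'
  rwa [id_whiskerRight, MultTheory.map_id, id_tensorHom] at h

theorem bx_cross (x : E.U X) (y : E.U Y) (a b : E.U B) :
    bx E (E.cross x a) (E.cross y b) = E.cross (E.cross x y) (a * b) := by
  rw [bx_apply, muB, MultTheory.map_comp, cross4, ← cross_map_right, mul_eq]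

theorem bx_assoc (x : E.U (X ⊗ B)) (y : E.U (Y ⊗ B)) (z : E.U (Z ⊗ B)) :
    E.map ((α_ X Y Z).hom ▷ B) (bx E x (bx E y z)) = bx E (bx E x y) z := by
  rw [bx_apply, bx_apply, bx_apply, bx_apply, cross_map_right, cross_map_left, ← cross_assoc]
  simp only [← MultTheory.map_comp]
  refine congrArg (fun k => E.map k _) ?_
  apply hom_ext
  rintro ⟨⟨⟨x, y⟩, z⟩, b⟩
  rfl

theorem bx_assoc_inv (x : E.U (X ⊗ B)) (y : E.U (Y ⊗ B)) (z : E.U (Z ⊗ B)) :
    E.map ((α_ X Y Z).inv ▷ B) (bx E (bx E x y) z) = bx E x (bx E y z) := by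
  rw [← bx_assoc, ← MultTheory.map_comp, inv_hom_whiskerRight, MultTheory.map_id]

theorem bx_comm (x : E.U (X ⊗ B)) (y : E.U (Y ⊗ B)) :
    E.map ((β_ X Y).hom ▷ B) (bx E y x) = bx E x y := by
  rw [bx_apply, bx_apply, ← cross_comm x y]
  simp only [← MultTheory.map_comp]
  refine congrArg (fun k => E.map k _) ?_
  apply hom_ext
  rintro ⟨⟨x, y⟩, b⟩
  rfl

theorem bx4 (a : E.U (X ⊗ B)) (b : E.U (Y ⊗ B)) (c : E.U (Z ⊗ B)) (d : E.U (W ⊗ B)) :
    E.map (tensorμ X Y Z W ▷ B) (bx E (bx E a c) (bx E b d)) = bx E (bx E a b) (bx E c d) := by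
  rw [tensorμ, comp_whiskerRight, comp_whiskerRight, comp_whiskerRight, comp_whiskerRight,
    MultTheory.map_comp, MultTheory.map_comp, MultTheory.map_comp,
    MultTheory.map_comp, bx_assoc_inv, ← bx_map_right, bx_assoc, ← bx_map_right,
    ← bx_map_left, bx_comm, ← bx_map_right, bx_assoc_inv, bx_assoc]

theorem map_diag_bx (y y' : E.U (X ⊗ B)) : E.map (diag X ▷ B) (bx E y y') = y * y' := by
  rw [bx_apply, mul_eq, ← MultTheory.map_comp]
  refine congrArg (fun k => E.map k _) ?_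
  apply hom_ext
  rintro ⟨x, b⟩
  rfl

theorem sm_cross (a : E.U B) (x : E.U X) (b : E.U B) :
    sm E X a (E.cross x b) = E.cross x (a * b) :=
  act_cross_right (ContinuousMap.id B) a x b

theorem sm_sm (a b : E.U B) (y : E.U (X ⊗ B)) : sm E X a (sm E X b y) = sm E X (a * b) y :=
  (act_mul _ a b y).symm

theorem map_sm (f : X ⟶ Y) (a : E.U B) (y : E.U (Y ⊗ B)) :
    E.map (f ▷ B) (sm E Y a y) = sm E X a (E.map (f ▷ B) y) := by
  refine map_act _ _ _ ?_ _ _
  rintro ⟨x, b⟩ ⟨y, b'⟩ h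
  have h1 : smash (app f (x : OnePoint X)) (b : OnePoint B) =
      (((y, b') : Y × B) : OnePoint (Y × B)) := h
  cases hx : app f (x : OnePoint X) using OnePoint.rec with
  | infty => rw [hx] at h1; exact absurd h1 (OnePoint.infty_ne_coe _)
  | coe z =>
    rw [hx] at h1
    exact (congrArg Prod.snd (OnePoint.coe_injective h1)).symm

theorem bx_sm_left (a : E.U B) (y : E.U (X ⊗ B)) (y' : E.U (Y ⊗ B)) :
    bx E (sm E X a y) y' = sm E (X ⊗ Y) a (bx E y y') := by
  rw [bx_apply, bx_apply, sm, ← act_cross_left]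
  refine map_act _ _ _ ?_ _ _
  rintro ⟨⟨x, y⟩, b⟩ z h
  have h1 : ((((x, b), (y, b)) : (X × B) × (Y × B)) : OnePoint ((X × B) × (Y × B))) = z := h
  rw [← OnePoint.coe_injective h1]
  rfl

theorem bx_sm_right (a : E.U B) (y : E.U (X ⊗ B)) (y' : E.U (Y ⊗ B)) :
    bx E y (sm E Y a y') = sm E (X ⊗ Y) a (bx E y y') := by
  rw [← bx_comm, bx_sm_left, map_sm, bx_comm]

variable [CompactSpace B]

theorem sm_one (y : E.U (X ⊗ B)) : sm E X (1 : E.U B) y = y := act_oneU _ y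

theorem sm_eq_mul [CompactSpace X] (a : E.U B) (y : E.U (X ⊗ B)) :
    sm E X a y = E.mapAlg (sndC X B) a * y := act_eq_mul _ a y

theorem bx_cross_one (y : E.U (X ⊗ B)) (l : E.U Y) :
    bx E y (E.cross l 1) = E.map ((α_ X Y B).hom ≫ sigMor X Y B) (E.cross y l) := by
  have h1 : E.cross l (1 : E.U B) = E.map (Y ◁ cmap (toPt B) ≫ (ρ_ Y).hom) l := by
    rw [MultTheory.map_comp, ← cross_one, ← cross_map_right]
    rfl
  rw [h1, bx_apply, cross_map_right, ← MultTheory.map_comp]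
  refine congrArg (fun k => E.map k _) ?_
  apply hom_ext
  rintro ⟨⟨x, y⟩, b⟩
  rfl

theorem map_sig_bijective : Function.Bijective (E.map ((α_ X Y B).hom ≫ sigMor X Y B)) :=
  map_iso_bijective (α_ X Y B ≪≫ whiskerLeftIso X (β_ Y B) ≪≫ (α_ X B Y).symm)

variable (o : Orientation E) {V : Type} [Fintype V] [DecidableEq V]

/-- the suspension over the base -/
def sus (V : Type) [Fintype V] [DecidableEq V] : E.U (X ⊗ B) →+ E.U ((X ⊗ Cpow V) ⊗ B) :=
  (bx E).flip (E.cross (o.lin V) 1)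

theorem sus_apply (y : E.U (X ⊗ B)) : sus o V y = bx E y (E.cross (o.lin V) 1) := rfl

theorem sus_bijective : Function.Bijective (sus (X := X) (B := B) o V) := by
  have h : ⇑(sus (X := X) (B := B) o V) = E.map ((α_ X (Cpow V) B).hom ≫ sigMor X (Cpow V) B) ∘
      fun y => E.cross y (o.lin V) := funext fun y => bx_cross_one y (o.lin V)
  rw [h]
  exact map_sig_bijective.comp (lin_bijective o V (X ⊗ B))

theorem bx_lin (y : E.U (X ⊗ B)) (a : E.U B) :
    bx E y (E.cross (o.lin V) a) = sus o V (sm E X a y) := by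
  rw [sus_apply, bx_sm_left, ← bx_sm_right, sm_cross, mul_one]

theorem sus_cross (x : E.U X) (a : E.U B) :
    sus o V (E.cross x a) = E.cross (E.cross x (o.lin V)) a := by
  rw [sus_apply, bx_cross, mul_one]

theorem sus_sm (a : E.U B) (y : E.U (X ⊗ B)) :
    sus o V (sm E X a y) = sm E (X ⊗ Cpow V) a (sus o V y) := bx_sm_left a y _

theorem sus_map (f : X ⟶ Y) (y : E.U (Y ⊗ B)) :
    sus o V (E.map (f ▷ B) y) = E.map ((f ▷ Cpow V) ▷ B) (sus o V y) := bx_map_left f y _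

end bx

/-! ### Products of maps to Thom spaces -/

section mul

variable {X B : LC} {V V' I J : Type} [Fintype V] [Fintype V'] [Fintype I] [Fintype J]
  [DecidableEq V] [DecidableEq V'] {n m k : ℕ}

/-- `(x, (v, v')) ↦ ((x, v), (x, v'))` -/
def shf (X : LC) (V V' : Type) [Fintype V] [Fintype V'] :
    X ⊗ Cpow (V ⊕ V') ⟶ (X ⊗ Cpow V) ⊗ (X ⊗ Cpow V') :=
  (diag X ⊗ₘ (Th.csum V V').inv) ≫ tensorμ X X (Cpow V) (Cpow V')

/-- the product of two maps to Thom spaces -/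
def mulMap (h : n + m = k) (f : X ⊗ Cpow V ⟶ LC.of (Th n I)) (g : X ⊗ Cpow V' ⟶ LC.of (Th m J)) :
    X ⊗ Cpow (V ⊕ V') ⟶ LC.of (Th k (I ⊕ J)) :=
  shf X V V' ≫ (f ⊗ₘ g) ≫ Th.sum h

/-- the map representing the unit -/
def oneMap (X : LC) [CompactSpace X] (h : Fintype.card V = n) : X ⊗ Cpow V ⟶ LC.of (Th n V) :=
  (cmap (toPt X) ▷ Cpow V) ≫ (λ_ (Cpow V)).hom ≫ Th.incl' h

variable (o : Orientation E) [E.Good X] [E.Good B]

theorem map_csum_inv : E.map (Th.csum V V').inv (E.cross (o.lin V) (o.lin V')) =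
    o.lin (V ⊕ V') := by
  rw [← lin_sum, map_inv_hom]

theorem map_shf (x x' : E.U X) :
    E.map (shf X V V') (E.cross (E.cross x (o.lin V)) (E.cross x' (o.lin V'))) =
      E.cross (x * x') (o.lin (V ⊕ V')) := by
  rw [shf, MultTheory.map_comp, cross4, ← cross_map, map_csum_inv, mul_eq]

theorem map_shf_sus [CompactSpace B] (y y' : E.U (X ⊗ B)) :
    E.map (shf X V V' ▷ B) (bx E (sus o V y) (sus o V' y')) = sus o (V ⊕ V') (y * y') := by
  rw [shf, comp_whiskerRight, MultTheory.map_comp, sus_apply, sus_apply, bx4, ← bx_map,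
    map_diag_bx, bx_cross, ← cross_map_left, map_csum_inv, mul_one, sus_apply]

end mul

end Vale.Agent.P257.Det
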