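import Vale.Agent.P257.Det.PowBx

/-!
# P257, detection: exponential classes and the operation they define

`ExpCl o B` : a family of classes `c n I ∈ U (Th n I ⊗ B)`, invariant under isometries,
multiplicative, and equal to `w ^ n` on trivial bundles.  For a sequence of such families
`PFam.P X : U X →+* Q X` is the ring homomorphism into the quotient of `∏ U (X ⊗ B k)` by the
uniform `w`-torsion.
-/

open CategoryTheory MonoidalCategory Matrix
open Vale.Agent.P251.G Vale.Agent.P251.G.LC Vale.Agent.P251.Q Vale.Agent.P251.Q.MultTheory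

universe v

set_option linter.unusedSectionVars false
set_option linter.style.haveILetI false

noncomputable section

namespace Vale.Agent.P257.Det

variable {E : MultTheory.{v}} (o : Orientation E)

/-- An exponential characteristic class with values in `U (- ⊗ B)`. -/
structure ExpCl (B : LC) [CompactSpace B] [E.Good B] where
  /-- the class of the trivial line -/
  w : E.U B
  /-- the universal classes -/
  c : ∀ (n : ℕ) (I : Type) [Fintype I], E.U (LC.of (Th n I) ⊗ B)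
  isom : ∀ {n : ℕ} {I J : Type} [Fintype I] [Fintype J] [DecidableEq I] [DecidableEq J]
    (u : Matrix J I ℂ) (hu : uᴴ * u = 1), E.map (Th.map u hu ▷ B) (c n J) = c n I
  sum : ∀ {n m k : ℕ} (h : n + m = k) (I J : Type) [Fintype I] [Fintype J],
    E.map (Th.sum h ▷ B) (c k (I ⊕ J)) = bx E (c n I) (c m J)
  lin : ∀ {n : ℕ} (V : Type) [Fintype V] [DecidableEq V] (h : Fintype.card V = n),
    E.map (Th.incl' h ▷ B) (c n V) = E.cross (o.lin V) (w ^ n)

section rep

variable {X Y B : LC} {V V' I J : Type} [Fintype V] [Fintype V'] [Fintype I] [Fintype J]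
  [DecidableEq V] [DecidableEq V'] {n m k : ℕ}

/-- `f` represents `x` -/
def Rep (f : X ⊗ Cpow V ⟶ LC.of (Th n I)) (x : E.U X) : Prop :=
  E.cross x (o.lin V) = E.map f (o.tau n I)

variable [E.Good X] [E.Good Y] [CompactSpace B] [E.Good B]

variable {o} in
/-- `y` is the value of the class on `f` -/
def ExpCl.Psi (C : ExpCl o B) (f : X ⊗ Cpow V ⟶ LC.of (Th n I)) (y : E.U (X ⊗ B)) : Prop :=
  sus o V y = E.map (f ▷ B) (C.c n I)

variable {o} {C : ExpCl o B}

theorem Rep.mul {f : X ⊗ Cpow V ⟶ LC.of (Th n I)} {g : X ⊗ Cpow V' ⟶ LC.of (Th m J)}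
    {x x' : E.U X} (hf : Rep o f x) (hg : Rep o g x') (h : n + m = k) :
    Rep o (mulMap h f g) (x * x') := by
  classical
  rw [Rep, mulMap, MultTheory.map_comp, MultTheory.map_comp, tau_sum', ← cross_map, ← hf, ← hg,
    map_shf]

theorem ExpCl.Psi.mul {f : X ⊗ Cpow V ⟶ LC.of (Th n I)} {g : X ⊗ Cpow V' ⟶ LC.of (Th m J)}
    {y y' : E.U (X ⊗ B)} (hf : C.Psi f y) (hg : C.Psi g y') (h : n + m = k) :
    C.Psi (mulMap h f g) (y * y') := by
  rw [ExpCl.Psi, mulMap, comp_whiskerRight, comp_whiskerRight, MultTheory.map_comp,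
    MultTheory.map_comp, C.sum, ← bx_map, ← hf, ← hg, map_shf_sus]

theorem Rep.one [CompactSpace X] (h : Fintype.card V = n) : Rep o (oneMap X h) 1 := by
  rw [Rep, oneMap, MultTheory.map_comp, MultTheory.map_comp, map_incl', ← one_cross,
    ← cross_map_left]
  rfl

theorem ExpCl.Psi.one [CompactSpace X] (h : Fintype.card V = n) :
    C.Psi (oneMap X h) (E.cross 1 (C.w ^ n)) := by
  rw [ExpCl.Psi, oneMap, comp_whiskerRight, comp_whiskerRight, MultTheory.map_comp,
    MultTheory.map_comp, C.lin, ← cross_map_left, ← cross_map_left, ← one_cross,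
    ← cross_map_left, sus_cross]
  rfl

theorem Rep.pull {f : Y ⊗ Cpow V ⟶ LC.of (Th n I)} {x : E.U Y} (hf : Rep o f x) (g : X ⟶ Y) :
    Rep o (g ▷ Cpow V ≫ f) (E.map g x) := by
  rw [Rep, MultTheory.map_comp, ← hf, cross_map_left]

theorem ExpCl.Psi.pull {f : Y ⊗ Cpow V ⟶ LC.of (Th n I)} {y : E.U (Y ⊗ B)} (hf : C.Psi f y)
    (g : X ⟶ Y) : C.Psi (g ▷ Cpow V ≫ f) (E.map (g ▷ B) y) := by
  rw [ExpCl.Psi, comp_whiskerRight, MultTheory.map_comp, ← hf, sus_map]

theorem Rep.isom [DecidableEq I] [DecidableEq J] {f : X ⊗ Cpow V ⟶ LC.of (Th n I)} {x : E.U X}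
    (hf : Rep o f x) (u : Matrix J I ℂ) (hu : uᴴ * u = 1) : Rep o (f ≫ Th.map u hu) x := by
  rw [Rep, MultTheory.map_comp, tau_map, hf]

theorem ExpCl.Psi.isom [DecidableEq I] [DecidableEq J] {f : X ⊗ Cpow V ⟶ LC.of (Th n I)}
    {y : E.U (X ⊗ B)} (hf : C.Psi f y) (u : Matrix J I ℂ) (hu : uᴴ * u = 1) :
    C.Psi (f ≫ Th.map u hu) y := by
  rw [ExpCl.Psi, comp_whiskerRight, MultTheory.map_comp, C.isom, hf]

theorem Rep.reindex {f : X ⊗ Cpow V ⟶ LC.of (Th n I)} {x : E.U X} (hf : Rep o f x)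
    (e : V' ≃ V) : Rep o (X ◁ (cpowIso e).hom ≫ f) x := by
  rw [Rep, MultTheory.map_comp, ← hf, ← cross_map_right, lin_reindex]

theorem ExpCl.Psi.reindex {f : X ⊗ Cpow V ⟶ LC.of (Th n I)} {y : E.U (X ⊗ B)} (hf : C.Psi f y)
    (e : V' ≃ V) : C.Psi (X ◁ (cpowIso e).hom ≫ f) y := by
  rw [ExpCl.Psi, comp_whiskerRight, MultTheory.map_comp, ← hf, sus_apply, sus_apply,
    ← bx_map_right, ← cross_map_left, lin_reindex]

theorem ExpCl.Psi.unique {f : X ⊗ Cpow V ⟶ LC.of (Th n I)} {y y' : E.U (X ⊗ B)}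
    (h : C.Psi f y) (h' : C.Psi f y') : y = y' :=
  (sus_bijective o).1 (h.trans h'.symm)

theorem ExpCl.map_stabOf [DecidableEq I] [DecidableEq J] (C : ExpCl o B)
    (f : Y ⟶ LC.of (Th n I)) (b : ℕ) (u : Matrix J (I ⊕ Fin b) ℂ) (hu : uᴴ * u = 1) :
    E.map (stabOf f b u hu ▷ B) (C.c (n + b) J) =
      sus o (Fin b) (sm E Y (C.w ^ b) (E.map (f ▷ B) (C.c n I))) := by
  rw [stabOf, stabTh, comp_whiskerRight, comp_whiskerRight, comp_whiskerRight,
    MultTheory.map_comp, MultTheory.map_comp, MultTheory.map_comp, C.isom, C.sum,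
    ← bx_map_right, C.lin, ← bx_map_left, bx_lin]

end rep

/-- A sequence of exponential classes, with integrality. -/
structure PFam (E : ThomTheory.{v}) where
  /-- the bases -/
  B : ℕ → LC
  [cpt : ∀ k, CompactSpace (B k)]
  [good : ∀ k, E.Good (B k)]
  /-- the classes -/
  C : ∀ k, ExpCl E.o (B k)
  int : ∀ (k : ℕ) {X : LC} [E.Good X] {V I : Type} [Fintype V] [DecidableEq V] [Fintype I] {n : ℕ}
    (f : X ⊗ Cpow V ⟶ LC.of (Th n I)),
    ∃ l, (C k).Psi f (sm E.toMultTheory X ((C k).w ^ Fintype.card V) l)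

attribute [instance] PFam.cpt PFam.good

namespace PFam

variable {E : ThomTheory.{v}} (T : PFam E) {X Y : LC} [E.Good X] [E.Good Y]

/-- `l` is a value of the operation on the class `x` of degree `d` -/
def RP (d : ℤ) (x : E.U X) (l : ∀ k, E.U (X ⊗ T.B k)) : Prop :=
  ∃ (V : Type) (_ : Fintype V) (_ : DecidableEq V) (n : ℕ) (I : Type) (_ : Fintype I)
    (f : X ⊗ Cpow V ⟶ LC.of (Th n I)), (n : ℤ) = Fintype.card V + d ∧ Rep E.o f x ∧
      ∀ k, (T.C k).Psi f (sm E.toMultTheory X ((T.C k).w ^ Fintype.card V) (l k))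

variable {T}

theorem exists_RP {d : ℤ} {x : E.U X} (hx : x ∈ E.deg X d) : ∃ l, T.RP d x l := by
  obtain ⟨N, n, I, hI, hn, f, hf⟩ := E.rep (inferInstance : E.Good X).out hx
  choose l hl using fun k => T.int k f
  exact ⟨l, Fin N, inferInstance, inferInstance, n, I, hI, f, by rw [Fintype.card_fin, hn], hf, hl⟩

theorem RP.pull {d : ℤ} {x : E.U Y} {l : ∀ k, E.U (Y ⊗ T.B k)} (h : T.RP d x l) (g : X ⟶ Y) :
    T.RP d (E.map g x) fun k => E.map (g ▷ T.B k) (l k) := by
  obtain ⟨V, _, _, n, I, _, f, hn, hf, hl⟩ := h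
  refine ⟨V, inferInstance, inferInstance, n, I, inferInstance, _, hn, hf.pull g, fun k => ?_⟩
  rw [← map_sm]
  exact (hl k).pull g

variable [CompactSpace X] [CompactSpace Y]

theorem RP.mul {d d' : ℤ} {x x' : E.U X} {l l' : ∀ k, E.U (X ⊗ T.B k)} (h : T.RP d x l)
    (h' : T.RP d' x' l') : T.RP (d + d') (x * x') (l * l') := by
  obtain ⟨V, _, _, n, I, _, f, hn, hf, hl⟩ := h
  obtain ⟨V', _, _, n', I', _, f', hn', hf', hl'⟩ := h'
  refine ⟨V ⊕ V', inferInstance, inferInstance, n + n', I ⊕ I', inferInstance, mulMap rfl f f',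
    ?_, hf.mul hf' rfl, fun k => ?_⟩
  · rw [Fintype.card_sum]
    push_cast
    omega
  · have h1 := (hl k).mul (hl' k) rfl
    rw [sm_eq_mul, sm_eq_mul] at h1
    rw [sm_eq_mul, Fintype.card_sum, pow_add, map_mul, Pi.mul_apply, mul_mul_mul_comm]
    exact h1

theorem RP.one : T.RP 0 (1 : E.U X) 1 := by
  refine ⟨Fin 0, inferInstance, inferInstance, _, Fin 0, inferInstance, oneMap X rfl, by simp,
    Rep.one rfl, fun k => ?_⟩
  have h1 := ExpCl.Psi.one (C := T.C k) (X := X) (V := Fin 0) rfl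
  rw [← map_cmap_snd] at h1
  rw [sm_eq_mul, Pi.one_apply, mul_one]
  exact h1

theorem RP.norm {d : ℤ} {x : E.U X} {l : ∀ k, E.U (X ⊗ T.B k)} (h : T.RP d x l) :
    ∃ N₀ K₀ : ℕ, ∀ (N n K : ℕ), N₀ ≤ N → K₀ + N ≤ K → (n : ℤ) = N + d →
      ∃ f : X ⊗ Cpow (Fin N) ⟶ LC.of (Th n (Fin K)), Rep E.o f x ∧
        ∀ k, (T.C k).Psi f (sm E.toMultTheory X ((T.C k).w ^ N) (l k)) := by
  classical
  obtain ⟨V, _, _, m, I, _, f, hm, hf, hl⟩ := h
  refine ⟨Fintype.card V, Fintype.card I, fun N n K hN hK hn => ?_⟩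
  obtain ⟨b, rfl⟩ := Nat.exists_eq_add_of_le hN
  have hb : m + b = n := by push_cast at hn; omega
  let e : Fin (Fintype.card V + b) ≃ V ⊕ Fin b := Fintype.equivOfCardEq (by simp)
  obtain ⟨j⟩ : Nonempty (I ⊕ Fin b ↪ Fin K) :=
    Function.Embedding.nonempty_of_card_le (by simp; omega)
  refine ⟨X ◁ (cpowIso e).hom ≫ mulMap hb f (oneMap X (Fintype.card_fin b)) ≫
    Th.map (injMat j) (injMat_isom j.injective), ?_, fun k => ?_⟩
  · have h1 := ((hf.mul (Rep.one (Fintype.card_fin b)) hb).isom (injMat j)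
      (injMat_isom j.injective)).reindex e
    rwa [mul_one] at h1
  · have h1 := (((hl k).mul (ExpCl.Psi.one (Fintype.card_fin b)) hb).isom (injMat j)
      (injMat_isom j.injective)).reindex e
    rw [sm_eq_mul, ← map_cmap_snd] at h1
    rw [sm_eq_mul, pow_add, map_mul, mul_right_comm]
    exact h1

variable (T X) in
/-- the class `w` in the product ring -/
def wX : ∀ k, E.U (X ⊗ T.B k) := fun k => E.mapAlg (sndC X (T.B k)) (T.C k).w

variable (T X) in
/-- the uniform `w`-torsion -/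
def Tor : Ideal (∀ k, E.U (X ⊗ T.B k)) where
  carrier := {l | ∃ e : ℕ, T.wX X ^ e * l = 0}
  add_mem' := by
    rintro a b ⟨e, he⟩ ⟨e', he'⟩
    exact ⟨e + e', by linear_combination T.wX X ^ e' * he + T.wX X ^ e * he'⟩
  zero_mem' := ⟨0, mul_zero _⟩
  smul_mem' := by
    rintro c a ⟨e, he⟩
    exact ⟨e, by rw [smul_eq_mul]; linear_combination c * he⟩

theorem RP.add (hR : RepRel E.o) {d : ℤ} {x x' : E.U X} {l l' l'' : ∀ k, E.U (X ⊗ T.B k)}
    (h : T.RP d x l) (h' : T.RP d x' l') (h'' : T.RP d (x + x') l'') :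
    l'' - (l + l') ∈ T.Tor X := by
  obtain ⟨N₁, K₁, h₁⟩ := h.norm
  obtain ⟨N₂, K₂, h₂⟩ := h'.norm
  obtain ⟨N₃, K₃, h₃⟩ := h''.norm
  set N := N₁ + N₂ + N₃ + d.natAbs with hN
  set K := K₁ + K₂ + K₃ + N with hK
  obtain ⟨n, hn⟩ : ∃ n : ℕ, (n : ℤ) = N + d := ⟨(N + d).toNat, by omega⟩
  obtain ⟨f₁, r₁, p₁⟩ := h₁ N n K (by omega) (by omega) hn
  obtain ⟨f₂, r₂, p₂⟩ := h₂ N n K (by omega) (by omega) hn
  obtain ⟨f₃, r₃, p₃⟩ := h₃ N n K (by omega) (by omega) hn
  obtain ⟨b, K', u, hu, H⟩ := hR f₁ f₂ f₃ (by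
    rw [← r₁, ← r₂, ← r₃, map_add, AddMonoidHom.add_apply])
  refine ⟨b + N, funext fun k => ?_⟩
  have h4 := H (T.B k) ((T.C k).c _ _)
  rw [ExpCl.map_stabOf, ExpCl.map_stabOf, ExpCl.map_stabOf, ← p₁ k, ← p₂ k, ← p₃ k, ← map_add,
    ← sus_sm, ← sus_sm, ← sus_sm, ← map_add] at h4
  have h5 := (sus_bijective E.o).1 ((sus_bijective E.o).1 h4)
  simp only [sm_eq_mul, map_pow] at h5
  change T.wX X k ^ (b + N) * (l'' k - (l k + l' k)) = 0
  rw [wX]
  linear_combination h5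

theorem RP.unique (hR : RepRel E.o) {d : ℤ} {x : E.U X} {l l' : ∀ k, E.U (X ⊗ T.B k)}
    (h : T.RP d x l) (h' : T.RP d x l') : l - l' ∈ T.Tor X := by
  obtain ⟨l₀, h₀⟩ := exists_RP (T := T) (zero_mem (E.deg X d))
  have h1 := h'.add hR h₀ (l'' := l) (by rwa [add_zero])
  have h2 := h'.add hR h₀ (l'' := l') (by rwa [add_zero])
  have h3 := sub_mem h1 h2
  rwa [sub_sub_sub_cancel_right] at h3

variable (T X) in
/-- the target of the operation -/
abbrev Q : Type v := (∀ k, E.U (X ⊗ T.B k)) ⧸ T.Tor X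

variable (T X) in
/-- the operation on homogeneous classes -/
def Pd (hR : RepRel E.o) (d : ℤ) : E.deg X d →+ T.Q X :=
  AddMonoidHom.mk' (fun x => Ideal.Quotient.mk _ (exists_RP (T := T) x.2).choose) fun x x' => by
    rw [← map_add, Ideal.Quotient.eq]
    exact (exists_RP x.2).choose_spec.add hR (exists_RP x'.2).choose_spec
      (exists_RP (x + x').2).choose_spec

open scoped Classical in
variable (T X) in
/-- the operation, as an additive map -/
def Pa (hR : RepRel E.o) : E.U X →+ T.Q X :=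
  (DirectSum.toAddMonoid (T.Pd X hR)).comp
    (AddEquiv.ofBijective (DirectSum.coeAddMonoidHom (E.deg X))
      (MultTheory.internal X)).symm.toAddMonoidHom

open scoped Classical in
theorem Pa_eq (hR : RepRel E.o) {d : ℤ} {x : E.U X} (hx : x ∈ E.deg X d)
    {l : ∀ k, E.U (X ⊗ T.B k)} (h : T.RP d x l) : T.Pa X hR x = Ideal.Quotient.mk _ l := by
  have h1 : (AddEquiv.ofBijective (DirectSum.coeAddMonoidHom (E.deg X))
      (MultTheory.internal X)).symm x = DirectSum.of (fun k => E.deg X k) d ⟨x, hx⟩ := by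
    rw [AddEquiv.symm_apply_eq]
    exact (DirectSum.coeAddMonoidHom_of (E.deg X) d ⟨x, hx⟩).symm
  change DirectSum.toAddMonoid (T.Pd X hR) ((AddEquiv.ofBijective
    (DirectSum.coeAddMonoidHom (E.deg X)) (MultTheory.internal X)).symm x) = _
  rw [h1, DirectSum.toAddMonoid_of]
  exact Ideal.Quotient.eq.2 ((exists_RP hx).choose_spec.unique hR h)

variable (T X) in
/-- **The operation** as a ring homomorphism. -/
def P (hR : RepRel E.o) : E.U X →+* T.Q X where
  toFun := T.Pa X hR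
  map_zero' := map_zero _
  map_add' := map_add _
  map_one' := (Pa_eq hR (oneU_deg X) RP.one).trans (map_one _)
  map_mul' x y := by
    induction x using induction_deg with
    | h0 => rw [zero_mul, map_zero, zero_mul]
    | hadd x x' hx hx' => rw [add_mul, map_add, map_add, hx, hx', add_mul]
    | hdeg d x hx =>
      induction y using induction_deg with
      | h0 => rw [mul_zero, map_zero, mul_zero]
      | hadd y y' hy hy' => rw [mul_add, map_add, map_add, hy, hy', mul_add]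
      | hdeg d' y hy =>
        obtain ⟨l, hl⟩ := exists_RP (T := T) hx
        obtain ⟨l', hl'⟩ := exists_RP (T := T) hy
        rw [Pa_eq hR hx hl, Pa_eq hR hy hl', Pa_eq hR (mul_deg hx hy) (hl.mul hl'), map_mul]

theorem P_eq (hR : RepRel E.o) {d : ℤ} {x : E.U X} (hx : x ∈ E.deg X d)
    {l : ∀ k, E.U (X ⊗ T.B k)} (h : T.RP d x l) : T.P X hR x = Ideal.Quotient.mk _ l :=
  Pa_eq hR hx h

end PFam

end Vale.Agent.P257.Det
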