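import Vale.Agent.P257.Det.PowTow

/-!
# P257, detection: the power operation on `v_m`

`detU : DetU E.o r`.
-/

open CategoryTheory MonoidalCategory Matrix Finset
open Vale.Agent.P251.G Vale.Agent.P251.G.LC Vale.Agent.P251.Q Vale.Agent.P251.Q.MultTheory
open Vale.Agent.P217 Vale.Agent.P251.F

universe v

set_option linter.unusedSectionVars false
set_option linter.style.haveILetI false

noncomputable section

namespace Vale.Agent.P257.Det

namespace PFam

variable {E : ThomTheory.{v}} {T : PFam E} {X : LC} [E.Good X]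

theorem RP.mem_deg {d : ℤ} {x : E.U X} {l : ∀ k, E.U (X ⊗ T.B k)} (h : T.RP d x l) :
    x ∈ E.deg X d := by
  obtain ⟨V, _, _, n, I, _, f, hn, hf, -⟩ := h
  have hlin : E.o.lin V ∈ E.deg (Cpow V) (Fintype.card V : ℤ) :=
    map_deg (linMap V) (E.o.tau_deg (Fintype.card V) V)
  refine mem_deg_of_injective (f := (E.cross (X := X) (Y := Cpow V)).flip (E.o.lin V))
    (m := (Fintype.card V : ℤ)) (fun k x hx => cross_deg hx hlin) (lin_bijective E.o V X).1 ?_
  change E.cross x (E.o.lin V) ∈ _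
  rw [hf, add_comm, ← hn]
  exact map_deg _ (E.o.tau_deg _ _)

theorem RP.of_map {n : ℕ} {I : Type} [Fintype I] (g : X ⟶ LC.of (Th n I)) :
    T.RP n (E.map g (E.o.tau n I)) fun k => E.map (g ▷ T.B k) ((T.C k).c n I) := by
  have h1 : E.o.lin (Fin 0) = E.map (cpowEmpty (Fin 0)).inv E.one := by
    rw [← lin_empty E.o (I := Fin 0), map_inv_hom]
  refine ⟨Fin 0, inferInstance, inferInstance, n, I, inferInstance,
    X ◁ (cpowEmpty (Fin 0)).inv ≫ (ρ_ X).hom ≫ g, by simp, ?_, fun k => ?_⟩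
  · rw [Rep, h1, cross_map_right, cross_one, MultTheory.map_comp, MultTheory.map_comp]
  · rw [ExpCl.Psi, Fintype.card_fin, pow_zero, sm_one, sus_apply, h1, cross_map_left,
      bx_map_right, bx_cross_one, cross_one, comp_whiskerRight, comp_whiskerRight,
      MultTheory.map_comp (_ ▷ _), MultTheory.map_comp (_ ▷ _), ← MultTheory.map_comp (_ ≫ _)]
    refine congrArg (fun k => E.map _ (E.map k _)) ?_
    apply hom_ext
    rintro ⟨⟨x, _⟩, b⟩
    rfl

variable [CompactSpace X]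

theorem RP.unit {d : ℤ} {a : E.U (𝟙_ LC)} {l : ∀ k, E.U (𝟙_ LC ⊗ T.B k)} (h : T.RP d a l) :
    T.RP d (algebraMap E.A (E.U X) (E.toA a))
      fun k => E.mapAlg (sndC X (T.B k)) (E.map (λ_ (T.B k)).inv (l k)) := by
  have h1 := h.pull (cmap (toPt X))
  have h2 : algebraMap E.A (E.U X) (E.toA a) = E.map (cmap (toPt X)) a := by
    rw [Algebra.algebraMap_eq_smul_one, smul_eq_act, act_eq_mul, mul_one, ofA_toA]
  have h3 : (fun k => E.mapAlg (sndC X (T.B k)) (E.map (λ_ (T.B k)).inv (l k))) =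
      fun k => E.map (cmap (toPt X) ▷ T.B k) (l k) := by
    funext k
    rw [mapAlg_apply, ← MultTheory.map_comp]
    refine congrArg (fun f => E.map f _) ?_
    apply hom_ext
    rintro ⟨x, b⟩
    rfl
  rw [h2, h3]
  exact h1

variable (T X) in
/-- the classes pulled back from the bases -/
def sndP : (∀ k, E.U (T.B k)) →+* T.Q X :=
  (Ideal.Quotient.mk _).comp
    (RingHom.pi fun k => (E.mapAlg (sndC X (T.B k))).toRingHom.comp (Pi.evalRingHom _ k))

variable (T) in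
/-- `l` is a value of the operation on the coefficient `a` -/
def Cst (hR : RepRel E.o) (a : E.A) (l : ∀ k, E.U (T.B k)) : Prop :=
  ∀ (X : LC) [E.Good X] [CompactSpace X], T.P X hR (algebraMap E.A (E.U X) a) = T.sndP X l

variable {hR : RepRel E.o}

theorem RP.cst {d : ℤ} {a : E.U (𝟙_ LC)} {l : ∀ k, E.U (𝟙_ LC ⊗ T.B k)} (h : T.RP d a l) :
    T.Cst hR (E.toA a) fun k => E.map (λ_ (T.B k)).inv (l k) :=
  fun _ _ _ => P_eq hR h.unit.mem_deg h.unit

theorem Cst.add {a a' : E.A} {l l' : ∀ k, E.U (T.B k)} (h : T.Cst hR a l) (h' : T.Cst hR a' l') :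
    T.Cst hR (a + a') (l + l') := fun X _ _ => by
  rw [map_add, map_add, map_add, h X, h' X]

theorem Cst.mul {a a' : E.A} {l l' : ∀ k, E.U (T.B k)} (h : T.Cst hR a l) (h' : T.Cst hR a' l') :
    T.Cst hR (a * a') (l * l') := fun X _ _ => by
  rw [map_mul, map_mul, map_mul, h X, h' X]

theorem Cst.intCast (u : ℤ) : T.Cst hR u u := fun X _ _ => by
  rw [map_intCast, map_intCast, map_intCast]

theorem Cst.sum {ι : Type*} (s : Finset ι) {a : ι → E.A} {l : ι → ∀ k, E.U (T.B k)}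
    (h : ∀ i ∈ s, T.Cst hR (a i) (l i)) : T.Cst hR (∑ i ∈ s, a i) (∑ i ∈ s, l i) :=
  fun X _ _ => by
    rw [map_sum, map_sum, map_sum]
    exact sum_congr rfl fun i hi => h i hi X

theorem Cst.unique {a : E.A} {l l' : ∀ k, E.U (T.B k)} (h : T.Cst hR a l) (h' : T.Cst hR a l') :
    ∃ e : ℕ, ∀ k, (T.C k).w ^ e * (l k - l' k) = 0 := by
  obtain ⟨e, he⟩ := Ideal.Quotient.eq.1 ((h (𝟙_ LC)).symm.trans (h' (𝟙_ LC)))
  refine ⟨e, fun k => ?_⟩
  have h1 : E.mapAlg (sndC (𝟙_ LC) (T.B k)) ((T.C k).w ^ e * (l k - l' k)) = 0 := by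
    rw [map_mul, map_pow, map_sub]
    exact congrFun he k
  rw [mapAlg_apply, show cmap (sndC (𝟙_ LC) (T.B k)) = (λ_ (T.B k)).hom from
    hom_ext fun _ => rfl] at h1
  exact (map_iso_bijective (λ_ (T.B k))).1 (h1.trans (map_zero _).symm)

end PFam

section lens

variable {E : ThomTheory.{v}} {r : ℕ} {hR : RepRel E.o}

theorem map_inv_sm {B : LC} [CompactSpace B] [E.Good B] (a : E.U B) (l : E.U (𝟙_ LC ⊗ B)) :
    E.map (λ_ B).inv (sm E.toMultTheory (𝟙_ LC) a l) = a * E.map (λ_ B).inv l := by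
  rw [sm_eq_mul, map_mul', mapAlg_apply, show cmap (sndC (𝟙_ LC) B) = (λ_ B).hom from
    hom_ext fun _ => rfl, map_inv_hom]

theorem psi_poly {k n : ℕ} {V I : Type} [Fintype V] [DecidableEq V] [Fintype I]
    {f : 𝟙_ LC ⊗ Cpow V ⟶ LC.of (Th n I)} {y : E.U (𝟙_ LC ⊗ Bk r k)}
    (h : (lensExp E r k).Psi f y) : ∃ g, E.map (λ_ (Bk r k)).inv y = (lensTow E.o r).ev k g := by
  obtain ⟨T, _, s, g, hc⟩ := cTh_poly E.o r k n I
  choose a ha using fun t => (lin_bijective E.o V (𝟙_ LC)).2 (E.map f (s t))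
  have h1 : y = ∑ t, E.cross (a t) (nev1 (vk E.o r k) (g t)) := by
    refine (sus_bijective E.o (V := V)).1 (h.trans ?_)
    change E.map _ (cTh E.o r k n I) = _
    rw [hc, map_sum, map_sum]
    refine sum_congr rfl fun t _ => ?_
    rw [← cross_map_left, ← ha t, sus_cross]
  refine ⟨∑ t, E.toA (a t) • g t, ?_⟩
  rw [h1, map_sum, map_sum]
  refine sum_congr rfl fun t _ => ?_
  rw [_root_.map_smul, lensTow_ev]
  rfl

variable (hR r) in
theorem exists_cst (a : E.A) : ∃ (l : ∀ k, E.U (Bk r k)) (e : ℕ),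
    (lensFam E r).Cst hR a l ∧ ∀ k, (lensTow E.o r).WPoly e (l k) := by
  rw [← toA_ofA E.toMultTheory a]
  induction E.ofA a using induction_deg with
  | h0 =>
    refine ⟨((0 : ℤ) : ∀ k, E.U (Bk r k)), 0, ?_, fun k => LTower.WPoly.intCast 0⟩
    have h := PFam.Cst.intCast (T := lensFam E r) (hR := hR) 0
    rwa [Int.cast_zero] at h
  | hadd x y hx hy =>
    obtain ⟨l, e, h1, h2⟩ := hx
    obtain ⟨l', e', h1', h2'⟩ := hy
    exact ⟨l + l', e + e', h1.add h1', fun k => ((h2 k).mono (Nat.le_add_right _ _)).add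
      ((h2' k).mono (Nat.le_add_left _ _))⟩
  | hdeg d x hx =>
    obtain ⟨l, hl⟩ := PFam.exists_RP (T := lensFam E r) hx
    have h1 := hl.cst (hR := hR)
    obtain ⟨V, _, _, n, I, _, f, -, -, hp⟩ := hl
    refine ⟨_, Fintype.card V, h1, fun k => ?_⟩
    obtain ⟨g, hg⟩ := psi_poly (hp k)
    refine ⟨g, Eq.trans ?_ hg⟩
    rw [lensTow_w]
    exact (map_inv_sm _ _).symm

variable (hR r) in
theorem P_e {X : LC} [CompactSpace X] [CellSp X] {ι : Type} [Fintype ι] (L : Bun X ι)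
    (hL : L.IsRank 1) : (lensFam E r).P X hR (E.o.e L hL) = Ideal.Quotient.mk _ fun k =>
      fz E.o.law.toFG (r + 1) (E.mapAlg (fstC X (Bk r k)) (E.o.e L hL))
        (E.mapAlg (sndC X (Bk r k)) (vk E.o r k)) := by
  haveI := E.o.goodGr
  haveI := (inferInstance : GoodBase E.toMultTheory X).tot L hL
  have h3 : E.map (zeroCl (Z := X) L hL : X ⟶ _) (E.o.tau 1 ι) = E.o.e L hL :=
    (eulerCl_eq_eu E.o L hL).trans (E.o.eu_eq_e L hL)
  have h := PFam.RP.of_map (T := lensFam E r) (zeroCl (Z := X) L hL : X ⟶ _)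
  rw [h3] at h
  rw [PFam.P_eq hR h.mem_deg h]
  congr 1
  funext k
  exact map_zeroCl_cTh E.o r k L hL

theorem exists_eqn (N : ℕ) {c : ℕ → ∀ k, E.U (Bk r k)} (hc : ∀ j, (lensFam E r).Cst hR
    (PowerSeries.coeff (j + 1) (multSeries E.o.law.toFG (r + 1))) (c j)) :
    ∃ e : ℕ, ∀ k, algebraMap _ (TR (E.U (Bk r k)) N) (wk E.o r k ^ e) *
      eqn E.o.law.toFG (r + 1) N (fun j => c j k) (vk E.o r k) = 0 := by
  haveI := E.o.goodGr
  have hz : E.o.zc N ^ (N + 1) = 0 := E.o.zc_pow_eq_zero (Nat.lt_succ_self N)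
  have h1 := P_e r hR (X := CPn N) (taut 1 (Fin (N + 1))) (taut_isRank 1 _)
  have h2 := P_e r hR (X := CPn N) ((taut 1 (Fin (N + 1))).tpow (r + 1))
    ((taut_isRank 1 _).tpow1 (r + 1))
  have h3 : E.o.e (B := CPn N) ((taut 1 (Fin (N + 1))).tpow (r + 1))
      ((taut_isRank 1 _).tpow1 (r + 1)) = mt E.o.law.toFG (r + 1) (E.o.zc N) := by
    rw [e_tpow E.o (hasLaw E.o) (B := CPn N) (taut 1 (Fin (N + 1))) (taut_isRank 1 _), e_taut_z]
    rfl
  have h4 : mt E.o.law.toFG (r + 1) (E.o.zc N) = ∑ j ∈ range N, algebraMap E.A _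
      (PowerSeries.coeff (j + 1) (multSeries E.o.law.toFG (r + 1))) * E.o.zc N ^ (j + 1) := by
    rw [mt, nev1_eq_sum hz, sum_range_succ', PowerSeries.coeff_zero_eq_constantCoeff_apply,
      constantCoeff_multSeries, zero_smul, add_zero]
    exact sum_congr rfl fun j _ => Algebra.smul_def _ _
  rw [e_taut_z] at h1
  rw [h3] at h2
  have h5 : (lensFam E r).P (CPn N) hR (mt E.o.law.toFG (r + 1) (E.o.zc N)) =
      Ideal.Quotient.mk _ (∑ j ∈ range N,
        (fun k => E.mapAlg (sndC (CPn N) (Bk r k)) (c j k)) *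
        (fun k => fz E.o.law.toFG (r + 1) (E.mapAlg (fstC (CPn N) (Bk r k)) (E.o.zc N))
          (E.mapAlg (sndC (CPn N) (Bk r k)) (vk E.o r k))) ^ (j + 1)) := by
    rw [h4, map_sum, map_sum]
    refine sum_congr rfl fun j _ => ?_
    rw [map_mul, map_pow, h1, hc j, map_mul, map_pow]
    rfl
  obtain ⟨e, he⟩ := Ideal.Quotient.eq.1 (h5.symm.trans h2)
  refine ⟨e, fun k => ?_⟩
  have h6 := congrFun he k
  letI : Algebra (E.U (Bk r k)) (E.U (CPn N ⊗ Bk r k)) :=
    (E.mapAlg (sndC (CPn N) (Bk r k))).toRingHom.toAlgebra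
  haveI : IsScalarTower E.A (E.U (Bk r k)) (E.U (CPn N ⊗ Bk r k)) :=
    IsScalarTower.of_algebraMap_eq fun a =>
      ((E.mapAlg (sndC (CPn N) (Bk r k))).commutes a).symm
  have hz' : E.mapAlg (fstC (CPn N) (Bk r k)) (E.o.zc N) ^ (N + 1) = 0 := by
    rw [← map_pow, hz, map_zero]
  refine TR.lift_injective (A := E.A) hz' (fun a ha l hl => ?_) ?_
  · have h7 : E.map (β_ (CPn N) (Bk r k)).hom
        (∑ i ∈ range (N + 1), E.cross (a i) (E.o.zc N ^ i)) = 0 := by
      rw [← ha, map_sum]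
      refine sum_congr rfl fun i _ => ?_
      rw [cross_comm, cross_eq_mul, map_pow, mul_comm]
      rfl
    have h8 := (map_iso_bijective (β_ (CPn N) (Bk r k))).1 (h7.trans (map_zero _).symm)
    exact Orientation.exp_unique (y := 0) (b := fun _ => 0) h8.symm (by
      rw [Orientation.IsExp]
      simp) hl
  · rw [map_mul, TR.lift_of, lift_eqn hz' _ (vk_nil E.o r k), map_zero, map_pow,
      ← map_mt _ (E.mapAlg (fstC (CPn N) (Bk r k))) _ ⟨_, hz⟩]
    rw [Pi.mul_apply, Pi.sub_apply, Finset.sum_apply] at h6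
    exact h6

end lens

theorem exists_sum_of_mem_IF {A : Type*} [CommRing A] {p : ℕ} {F : FormalGroup A} {m : ℕ} {x : A}
    (h : x ∈ IF p F m) : ∃ y : ℕ → A, x = ∑ i ∈ range m, y i * vF p F i := by
  refine Submodule.span_induction ?_ ?_ ?_ ?_ h
  · rintro x ⟨i, hi, rfl⟩
    refine ⟨fun j => if j = i then 1 else 0, ?_⟩
    simp [hi]
  · exact ⟨0, by simp⟩
  · rintro x x' _ _ ⟨y, rfl⟩ ⟨y', rfl⟩
    exact ⟨y + y', by simp [add_mul, sum_add_distrib]⟩
  · rintro a x _ ⟨y, rfl⟩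
    exact ⟨fun i => a * y i, by simp [mul_sum, mul_assoc]⟩

/-- **The power operation on `v_m`.** -/
theorem detU (E : ThomTheory.{v}) (hR : RepRel E.o) {r : ℕ} (hp : (r + 1).Prime)
    (hreg : ∀ a : E.A, ((r + 1 : ℕ) : E.A) * a = 0 → a = 0) : DetU E.o r := by
  intro m n I W _ _ _ _ f x hx _ u hu e
  haveI : E.o.law.toFG.IsComm := inferInstance
  -- the value on `x`
  have hf : Rep E.o ((λ_ (Cpow W)).hom ≫ f) (E.ofA x) := by
    rw [Rep, MultTheory.map_comp, hx, smul_def, map_hom_inv]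
  choose l' hl' using fun k => (lensFam E r).int k ((λ_ (Cpow W)).hom ≫ f)
  have hRP : (lensFam E r).RP ((n : ℤ) - Fintype.card W) (E.ofA x) l' :=
    ⟨W, inferInstance, inferInstance, n, I, inferInstance, _, by ring, hf, hl'⟩
  obtain ⟨l, hl, hly⟩ : ∃ l : ∀ k, E.U (Bk r k), (lensFam E r).Cst hR x l ∧
      ∀ k y, IsPsi E.o r k f y → y = wk E.o r k ^ Fintype.card W * l k := by
    refine ⟨_, hRP.cst, fun k y hy => ?_⟩
    have h1 : (lensExp E r k).Psi ((λ_ (Cpow W)).hom ≫ f) (E.cross E.one y) := by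
      rw [ExpCl.Psi, sus_cross, one_cross, cross_map_left, hy, comp_whiskerRight,
        MultTheory.map_comp]
    have h2 := congrArg (E.map (λ_ (Bk r k)).inv) (h1.unique (hl' k))
    rw [one_cross, map_inv_hom] at h2
    exact h2.trans (map_inv_sm _ _)
  rcases Nat.eq_zero_or_pos m with rfl | hm
  · rw [IF_zero, Ideal.mem_bot, sub_eq_zero, vF_zero] at hu
    have h1 : (lensFam E r).Cst hR x ((u * (r + 1 : ℕ) : ℤ) : ∀ k, E.U (Bk r k)) := by
      have h := PFam.Cst.intCast (T := lensFam E r) (hR := hR) (u * (r + 1 : ℕ))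
      rwa [Int.cast_mul, Int.cast_natCast, ← hu] at h
    obtain ⟨e', he'⟩ := hl.unique h1
    refine ⟨LTower.k0 (r + 1) + 2 * ((r + 1 - 1) * (e + Fintype.card W + e' + 1)),
      fun H y N z hy h => ?_⟩
    rw [← ptAlg_apply]
    refine (lensTow E.o r).det_zero hp hreg le_rfl H N u z ?_
    rw [hly _ y hy] at h
    have h2 := he' (LTower.k0 (r + 1) + 2 * ((r + 1 - 1) * (e + Fintype.card W + e' + 1)))
    rw [lensTow_w, ← hu]
    generalize LTower.k0 (r + 1) + 2 * ((r + 1 - 1) * (e + Fintype.card W + e' + 1)) = k at *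
    change wk E.o r k ^ e' * (l k - ((u * (r + 1 : ℕ) : ℤ) : E.U (Bk r k))) = 0 at h2
    rw [Int.cast_mul, Int.cast_natCast] at h2
    change wk E.o r k ^ (e + Fintype.card W + e') * (wk E.o r k * H - ((N : E.U (Bk r k)) *
      ((u : E.U (Bk r k)) * ((r + 1 : ℕ) : E.U (Bk r k))) -
      algebraMap E.A (E.U (Bk r k)) (z * x ^ (r + 1)))) = 0
    linear_combination wk E.o r k ^ e' * h +
      wk E.o r k ^ (e + Fintype.card W) * (N : E.U (Bk r k)) * h2
  · obtain ⟨a, ha⟩ := exists_sum_of_mem_IF hu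
    choose c ec hc hc' using fun j =>
      exists_cst r hR (PowerSeries.coeff (j + 1) (multSeries E.o.law.toFG (r + 1)))
    choose Y eY hY hY' using fun i => exists_cst r hR (a i)
    have hv : ∀ i, (lensFam E r).Cst hR (vF (r + 1) E.o.law.toFG i) (c ((r + 1) ^ i - 1)) :=
      fun i => by
        have h := hc ((r + 1) ^ i - 1)
        rwa [Nat.sub_add_cancel (Nat.one_le_pow _ _ (Nat.succ_pos r))] at h
    have h1 := (PFam.Cst.sum (range m) fun i _ => (hY i).mul (hv i)).add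
      ((PFam.Cst.intCast u).mul (hv m))
    rw [← ha, sub_add_cancel] at h1
    obtain ⟨e', he'⟩ := hl.unique h1
    obtain ⟨e₁, he₁⟩ := exists_eqn ((r + 1) ^ (m + 1)) hc
    obtain ⟨s, hs⟩ : ∃ s, s = ∑ j ∈ range ((r + 1) ^ (m + 1)), ec j + ∑ i ∈ range m, eY i :=
      ⟨_, rfl⟩
    refine ⟨LTower.k0 (r + 1) + 2 * ((r + 1 - 1) *
      (3 * (e + Fintype.card W + e' + e₁ + s) + 1)), fun H y N z hy h => ?_⟩
    rw [← ptAlg_apply]
    have hxI : x ∈ IF (r + 1) E.o.law.toFG (m + 1) := by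
      have h2 := add_mem (IF_mono _ _ (Nat.le_succ m) hu)
        (Ideal.mul_mem_left _ (u : E.A) (vF_mem (r + 1) E.o.law.toFG (Nat.lt_succ_self m)))
      rwa [sub_add_cancel] at h2
    refine (lensTow E.o r).det_pos hp hreg hm le_rfl (fun j => c j _) (fun i => Y i _) H hxI N u z
      (fun j hj => (hc' j _).mono ?_) (fun i hi => (hY' i _).mono ?_) ?_ ?_
    · have := single_le_sum (f := ec) (fun _ _ => Nat.zero_le _) (mem_range.2 hj)
      omega
    · have := single_le_sum (f := eY) (fun _ _ => Nat.zero_le _) (mem_range.2 hi)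
      omega
    · rw [lensTow_w]
      generalize LTower.k0 (r + 1) + 2 * ((r + 1 - 1) *
        (3 * (e + Fintype.card W + e' + e₁ + s) + 1)) = k
      have h2 := he₁ k
      rw [map_pow] at h2 ⊢
      linear_combination algebraMap _ (TR (E.U (Bk r k)) ((r + 1) ^ (m + 1))) (wk E.o r k) ^
        (e + Fintype.card W + e' + s) * h2
    · rw [hly _ y hy] at h
      have h2 := he' (LTower.k0 (r + 1) + 2 * ((r + 1 - 1) *
        (3 * (e + Fintype.card W + e' + e₁ + s) + 1)))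
      rw [lensTow_w]
      generalize LTower.k0 (r + 1) + 2 * ((r + 1 - 1) *
        (3 * (e + Fintype.card W + e' + e₁ + s) + 1)) = k at *
      rw [Pi.add_apply, Finset.sum_apply] at h2
      change wk E.o r k ^ e' * (l k - (∑ i ∈ range m, Y i k * c ((r + 1) ^ i - 1) k +
        (u : E.U (Bk r k)) * c ((r + 1) ^ m - 1) k)) = 0 at h2
      change wk E.o r k ^ (e + Fintype.card W + e' + e₁ + s) * (wk E.o r k * H -
        ((N : E.U (Bk r k)) * (∑ i ∈ range m, Y i k * c ((r + 1) ^ i - 1) k +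
        (u : E.U (Bk r k)) * c ((r + 1) ^ m - 1) k) -
        algebraMap E.A (E.U (Bk r k)) (z * x ^ (r + 1)))) = 0
      linear_combination wk E.o r k ^ (e' + e₁ + s) * h +
        wk E.o r k ^ (e + Fintype.card W + e₁ + s) * (N : E.U (Bk r k)) * h2

end Vale.Agent.P257.Det
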