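import Vale.Agent.P257.Det.PowLens

/-!
# P257, detection: the tower of the lens spaces

`lensTow o r : LTower o.law.toFG (r + 1)`.
-/

open CategoryTheory MonoidalCategory Matrix Finset
open Vale.Agent.P251.G Vale.Agent.P251.G.LC Vale.Agent.P251.Q Vale.Agent.P251.Q.MultTheory
open Vale.Agent.P217 Vale.Agent.P251.F

universe v

set_option linter.unusedSectionVars false
set_option linter.style.haveILetI false

noncomputable section

namespace Vale.Agent.P257.Det

variable {E : MultTheory.{v}} (o : Orientation E) (r : ℕ)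

variable (E) in
/-- the classes of the point are the coefficients -/
def toAAlg : E.U (𝟙_ LC) →ₐ[E.A] E.A where
  toFun := E.toA
  map_zero' := rfl
  map_add' _ _ := rfl
  map_one' := by
    change E.map (cmap (toPt (𝟙_ LC))) E.one = E.one
    rw [show cmap (toPt (𝟙_ LC)) = 𝟙 _ from hom_ext fun _ => rfl, MultTheory.map_id]
  map_mul' a b := by
    change E.map (P251.Q.diag _) (E.cross a b) = E.map (λ_ (𝟙_ LC)).inv (E.cross a b)
    exact congrArg (fun k => E.map k _) (hom_ext fun _ => rfl)
  commutes' a := by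
    rw [Algebra.algebraMap_eq_smul_one]
    change a • E.map (cmap (toPt (𝟙_ LC))) E.one = E.ofA a
    rw [show cmap (toPt (𝟙_ LC)) = 𝟙 _ from hom_ext fun _ => rfl, MultTheory.map_id,
      ← ofA_one, ← ofA_mul, mul_one]

/-- the base point as a continuous map -/
def basePtC (k : ℕ) : C((𝟙_ LC : LC), (Bk r k : LC)) :=
  ⟨fun _ => lensBasePt (r + 1) k, continuous_const⟩

variable (E) in
/-- the restriction to the base point -/
def ptAlg (k : ℕ) : E.U (Bk r k) →ₐ[E.A] E.A := (toAAlg E).comp (E.mapAlg (basePtC r k))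

theorem ptAlg_apply (k : ℕ) (y : E.U (Bk r k)) : ptAlg E r k y = ptk E r k y :=
  congrArg (fun f => E.toA (E.map f y)) (hom_ext fun _ => rfl)

/-- the inclusion of the previous lens space -/
def incC (k : ℕ) : C((Bk r k : LC), (Bk r (k + 1) : LC)) := lensInc (r + 1) (Idx k)

variable (E) in
/-- the restriction to the previous lens space -/
def resAlg (k : ℕ) : E.U (Bk r (k + 1)) →ₐ[E.A] E.U (Bk r k) := E.mapAlg (incC r k)

theorem nev1_mult (k : ℕ) : nev1 (vk o r k) (multSeries o.law.toFG (r + 1)) = 0 := by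
  haveI := (goodBase_Bk (E := E) r k).tot _ ((lensL_isRank (r + 1) (Idx k)).tpow1 (r + 1))
  refine (e_tpow o (hasLaw o) (lensL (r + 1) (Idx k)) (lensL_isRank (r + 1) (Idx k))
    (r + 1)).symm.trans ?_
  exact e_eq_zero o _ _ ⟨Lens.u, Lens.continuous_u, Lens.tpow_mulVec_u⟩ Lens.nsq_u

theorem lens_deg (k : ℕ) {i : ℤ} {z : E.U (Bk r (k + 2))} (hz : z ∈ E.deg (Bk r (k + 2)) i)
    (h : vk o r (k + 2) * z = 0) : ∃ a : E.A, resAlg E r k (resAlg E r (k + 1) z) =
      a • nev1 (vk o r k) (divSeries o.law.toFG (r + 1)) := by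
  have h0 : E.act (fstC (Bk r (k + 2)) (𝟙_ LC)) (vk o r (k + 2)) (E.cross z E.one) = 0 := by
    have h1 := act_cross_left (ContinuousMap.id (Bk r (k + 2))) (vk o r (k + 2)) z E.one
    rw [← MultTheory.mul_def, h, map_zero, AddMonoidHom.zero_apply] at h1
    exact h1
  have hz' : E.cross z E.one ∈ E.deg (Bk r (k + 2) ⊗ 𝟙_ LC) i := by
    have h1 := cross_deg hz E.one_deg
    rwa [add_zero] at h1
  obtain ⟨y, -, hy⟩ := lens_two o (hasLaw_coeff o) (Nat.succ_ne_zero r) (card_Idx k) (𝟙_ LC) hz' h0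
  refine ⟨E.toA y, ?_⟩
  have h2 : E.cross (resAlg E r k (resAlg E r (k + 1) z)) E.one =
      E.cross (o.coeff.ev k (vk o r k) (divSeries o.coeff.F (r + 1))) y := by
    rw [CoeffData.ev, map_sum, AddMonoidHom.finsetSum_apply, resAlg, resAlg, mapAlg_apply,
      mapAlg_apply, cross_map_left, cross_map_left]
    refine hy.trans (sum_congr rfl fun l _ => ?_)
    rw [cross_smul_left, LensData.iterate_act, act_pull]
  have h3 : y = E.toA y • E.one := by
    rw [← ofA_one, ← ofA_mul, mul_one, ofA_toA]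
  rw [h3, cross_smul_right, ← cross_smul_left, cross_one, cross_one,
    ev_eq_nev (vk_pow o r k), map_divSeries, coeff_F_map] at h2
  exact (map_iso_bijective (ρ_ (Bk r k))).1 h2

theorem lens_all (k : ℕ) (z : E.U (Bk r (k + 2))) (h : vk o r (k + 2) * z = 0) :
    ∃ a : E.A, resAlg E r k (resAlg E r (k + 1) z) =
      a • nev1 (vk o r k) (divSeries o.law.toFG (r + 1)) := by
  obtain ⟨s, hs, -⟩ := exists_sum z
  have h1 : ∀ i, vk o r (k + 2) * E.proj _ i z = 0 := fun i => by
    have h2 := map_proj_of_deg (f := E.act (ContinuousMap.id (Bk r (k + 2))) (vk o r (k + 2)))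
      (m := 1) (fun j x hx => by rw [add_comm j 1]; exact act_deg _ (vL_deg o) hx) i z
    rw [← MultTheory.mul_def, ← MultTheory.mul_def, h, map_zero] at h2
    exact h2.symm
  choose a ha using fun i => lens_deg o r k (proj_mem i z) (h1 i)
  refine ⟨∑ i ∈ s, a i, ?_⟩
  rw [hs, map_sum, map_sum, Finset.sum_smul]
  exact sum_congr rfl fun i _ => ha i

/-- **The tower of the lens spaces.** -/
abbrev lensTow : LTower o.law.toFG (r + 1) where
  R k := E.U (Bk r k)
  v k := vk o r k
  v_pow k := vk_pow o r k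
  res k := resAlg E r k
  res_v k := mapAlg_lensInc_vL o (I := Idx k)
  pt k := ptAlg E r k
  pt_v k := (ptAlg_apply r k _).trans (congrArg E.toA (vL_point o (Idx k) _))
  pt_res _ z := congrArg (toAAlg E) (mapAlg_mapAlg _ _ z)
  mult k := nev1_mult o r k
  lens k z h := lens_all o r k z h

theorem lensTow_w (k : ℕ) : (lensTow o r).w k = wk o r k := LTower.ev_apply _ _ _

theorem lensTow_ev (k : ℕ) (g : PowerSeries E.A) :
    (lensTow o r).ev k g = nev1 (vk o r k) g := LTower.ev_apply _ _ _

end Vale.Agent.P257.Det
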