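import Vale.Agent.P257.Det.Pz
import Vale.Agent.P257.T.Dg

/-!
# P257, detection: presentations of powers (geometry)

* `shB`, `sh2B`, `cB`, `csB`, `sumB`: iterated versions of `shT`, `sh2`, `cT`, `cs`, `sumN`;
* `EvC.big`, `EvC.pow`: the presentation of the power of an even cell;
* `tm_pow`: the map to the Thom space of the power of a map.
-/

open CategoryTheory MonoidalCategory Limits Matrix OnePoint

noncomputable section

namespace Vale.Agent.P257.Det

open Vale.Agent.P251.G Vale.Agent.P251.Q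
open Vale.Agent.P251.G.LC (RR II app smash)
open Vale.Agent.P257.A Vale.Agent.P257.D Vale.Agent.P257.E Vale.Agent.P257.P Vale.Agent.P257.T
open Vale.Agent.P257.D.O (V lvec bvec)
open Vale.Agent.P257.D.EF (fn tmL btm)

variable {ι κ : Type}

section lists

variable (c : ι → O) (K : ι → LC)

/-- the shuffle along a list -/
def shL : ∀ l : List ι, evL K l ⊗ V (evL c l) ≅ evL (fun i => K i ⊗ V (c i)) l
  | [] => λ_ _ ≪≫ O.unitIsoV.symm
  | i :: l => shT (c i) (K i) (evL c l) (evL K l) ≪≫ whiskerLeftIso _ (shL l)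

/-- the shuffle of two copies along a list -/
def sh2L : ∀ l : List ι, V (evL c l) ⊗ V (evL c l) ≅ evL (fun i => V (c i) ⊗ V (c i)) l
  | [] => whiskerRightIso O.unitIsoV.symm _ ≪≫ λ_ _ ≪≫ O.unitIsoV.symm
  | i :: l => sh2 (c i) (evL c l) ≪≫ whiskerLeftIso _ (sh2L l)

/-- the product of cells along a list -/
def cL : ∀ l : List ι, Cel (evL c l) (evL K l) ≅ evL (fun i => Cel (c i) (K i)) l
  | [] => cU O
  | i :: l => cT (c i) (K i) (evL c l) (evL K l) ≪≫ whiskerLeftIso _ (cL l)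

/-- the sum of complex vector spaces along a list -/
def csL : ∀ l : List ι, evL (fun i => Cpow (c i).El) l ≅ Cpow (evL c l).El
  | [] => (λ_ _).symm ≪≫ (O.unitIsoV ⊗ᵢ O.unitIsoV) ≪≫ cpx (𝟙_ O)
  | i :: l => whiskerLeftIso _ (csL l) ≪≫ cs (c i) (evL c l)

/-- the direct sum of Thom spaces along a list -/
def sumL : ∀ l : List ι, evL (fun i => N (c i)) l ⟶ N (evL c l)
  | [] => LC.point (X := N (𝟙_ O)) onePtN
  | i :: l => _ ◁ sumL l ≫ sumN (c i) (evL c l)

variable {c K}

/-- the complex vector with given components -/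
def cvL (z : ∀ i, (c i).El → ℂ) : ∀ l : List ι, (evL c l).El → ℂ
  | [] => 0
  | i :: l => Sum.elim (z i) (cvL z l)

theorem cvL_cv (w t : ∀ i, (c i).El → ℝ) : ∀ l : List ι,
    cvL (fun i => cv (w i) (t i)) l = cv (lvec w l) (lvec t l)
  | [] => funext fun x => x.elim
  | i :: l => by
    change Sum.elim _ (cvL _ l) = _
    rw [cvL_cv w t l]
    funext x
    rcases x with x | x <;> rfl

theorem app_shL (k : ∀ i, OnePoint (K i)) (t : ∀ i, (c i).El → ℝ) : ∀ l : List ι,
    app (shL c K l).hom (smash (smL k l) (lvec t l : OnePoint _)) =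
      smL (X := fun i => K i ⊗ V (c i)) (fun i => smash (k i) (t i : OnePoint _)) l
  | [] => rfl
  | i :: l => by
    refine (congrArg (app (_ ◁ (shL c K l).hom)) (app_shT (k i) (smL k l) (t i) (lvec t l))).trans ?_
    rw [LC.app_whiskerLeft_smash, app_shL k t l]
    rfl

theorem app_sh2L (w t : ∀ i, (c i).El → ℝ) : ∀ l : List ι,
    app (sh2L c l).hom (smash (lvec w l : OnePoint _) (lvec t l : OnePoint _)) =
      smL (X := fun i => V (c i) ⊗ V (c i))
        (fun i => smash (w i : OnePoint _) (t i : OnePoint _)) l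
  | [] => rfl
  | i :: l => by
    refine (LC.app_whiskerLeft_smash (V (c i) ⊗ V (c i)) (sh2L c l).hom
      (smash (w i : OnePoint _) (t i : OnePoint _))
      (smash (lvec w l : OnePoint _) (lvec t l : OnePoint _))).trans ?_
    rw [app_sh2L w t l]
    rfl

theorem fn_cL (k : ∀ i, OnePoint (K i)) : ∀ l : List ι,
    fn (cL c K l).hom (gp (evL c l) (smL k l)) =
      tmL (X := fun i => Cel (c i) (K i)) (fun i => gp (c i) (k i)) l
  | [] => fn_cU ()
  | i :: l => by
    refine (congrArg (fn (_ ◁ (cL c K l).hom)) (fn_cT (k i) (smL k l))).trans ?_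
    rw [EF.whiskerLeft_tm, fn_cL k l]
    rfl

theorem app_csL (z : ∀ i, (c i).El → ℂ) : ∀ l : List ι,
    app (csL c l).hom (smL (X := fun i => Cpow (c i).El) (fun i => (z i : OnePoint _)) l) =
      (cvL z l : OnePoint _)
  | [] => congrArg OnePoint.some (funext fun x => x.elim)
  | i :: l => by
    change app (cs (c i) (evL c l)).hom (app (_ ◁ (csL c l).hom) (smash _ _)) = _
    rw [LC.app_whiskerLeft_smash, app_csL z l]
    rfl

theorem app_sumL_cons (x : ∀ i, OnePoint (N (c i))) (i : ι) (l : List ι) :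
    app (sumL c (i :: l)) (smL x (i :: l)) = sm' (x i) (app (sumL c l) (smL x l)) := by
  change app (sumN (c i) (evL c l)) (app (_ ◁ sumL c l) (smash _ _)) = _
  rw [LC.app_whiskerLeft_smash]
  rfl

theorem flat_cL (y : ∀ i, Cel (c i) (K i) ⟶ MUo) : ∀ l : List ι,
    flat ((cL c K l).hom ≫ mapL y l ≫ mulL MUo l) =
      (shL c K l).hom ≫ mapL (fun i => flat (y i)) l ≫ sumL c l
  | [] => LC.tensor_ext fun k t => by
    refine (app_flat (c := 𝟙_ O) (K := 𝟙_ LC) _ _ _).trans ?_
    refine (congrArg (fun x => ev (fn (MonObj.one (X := MUo)) x) _) (fn_cU k)).trans ?_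
    rw [fn_one, EF.act_id]
    exact ev_onePtM t
  | i :: l => by
    have h := flat_mul (y i) ((cL c K l).hom ≫ mapL y l ≫ mulL MUo l)
    rw [flat_cL y l] at h
    refine Eq.trans (congrArg flat ?_) (h.trans ?_)
    · change ((cT _ _ _ _).hom ≫ _ ◁ (cL c K l).hom) ≫ (y i ⊗ₘ mapL y l) ≫
        MUo ◁ mulL MUo l ≫ MonObj.mul (X := MUo) = _
      rw [Category.assoc, ← id_tensorHom, ← id_tensorHom, tensorHom_comp_tensorHom_assoc,
        tensorHom_comp_tensorHom_assoc, Category.id_comp, Category.comp_id, Category.assoc]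
    · change _ = ((shT _ _ _ _).hom ≫ _ ◁ (shL c K l).hom) ≫
        (flat (y i) ⊗ₘ mapL (fun i => flat (y i)) l) ≫ _ ◁ sumL c l ≫ sumN _ _
      rw [Category.assoc, ← id_tensorHom, ← id_tensorHom, tensorHom_comp_tensorHom_assoc,
        tensorHom_comp_tensorHom_assoc, Category.id_comp, Category.comp_id, Category.assoc]

end lists

variable [Finite ι] [Finite κ]

section big

variable (c : ι → O) (K : ι → LC)

/-- the shuffle of the total spaces -/
def shB : big K ⊗ V (big c) ≅ big fun i => K i ⊗ V (c i) := shL c K _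

/-- the shuffle of two copies -/
def sh2B : V (big c) ⊗ V (big c) ≅ big fun i => V (c i) ⊗ V (c i) := sh2L c _

/-- the product of cells -/
def cB : Cel (big c) (big K) ≅ big fun i => Cel (c i) (K i) := cL c K _

/-- the sum of complex vector spaces -/
def csB : big (fun i => Cpow (c i).El) ≅ Cpow (big c).El := csL c _

/-- the direct sum of Thom spaces -/
def sumB : big (fun i => N (c i)) ⟶ N (big c) := sumL c _

variable {c K}

/-- the complex vector with given components -/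
def cvB (z : ∀ i, (c i).El → ℂ) : (big c).El → ℂ := cvL z _

theorem cvB_cv (w t : ∀ i, (c i).El → ℝ) :
    cvB (fun i => cv (w i) (t i)) = cv (bvec w) (bvec t) := cvL_cv w t _

theorem cvB_surjective : Function.Surjective (cvB (c := c)) := fun z => by
  obtain ⟨w, hw⟩ := O.bvec_surjective (a := c) fun x => (z x).re
  obtain ⟨t, ht⟩ := O.bvec_surjective (a := c) fun x => (z x).im
  exact ⟨_, (cvB_cv w t).trans (by rw [hw, ht]; rfl)⟩

theorem app_shB (k : ∀ i, OnePoint (K i)) (t : ∀ i, (c i).El → ℝ) :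
    app (shB c K).hom (smash (bsm k) (bvec t : OnePoint _)) =
      bsm (X := fun i => K i ⊗ V (c i)) fun i => smash (k i) (t i : OnePoint _) := app_shL k t _

theorem app_sh2B (w t : ∀ i, (c i).El → ℝ) :
    app (sh2B c).hom (smash (bvec w : OnePoint _) (bvec t : OnePoint _)) =
      bsm (X := fun i => V (c i) ⊗ V (c i))
        fun i => smash (w i : OnePoint _) (t i : OnePoint _) := app_sh2L w t _

theorem fn_cB (k : ∀ i, OnePoint (K i)) : fn (cB c K).hom (gp (big c) (bsm k)) =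
    btm (X := fun i => Cel (c i) (K i)) fun i => gp (c i) (k i) := fn_cL k _

theorem app_csB (z : ∀ i, (c i).El → ℂ) :
    app (csB c).hom (bsm (X := fun i => Cpow (c i).El) fun i => (z i : OnePoint _)) =
      (cvB z : OnePoint _) := app_csL z _

theorem app_csB_inv (z : ∀ i, (c i).El → ℂ) : app (csB c).inv (cvB z : OnePoint _) =
    bsm (X := fun i => Cpow (c i).El) fun i => (z i : OnePoint _) := app_inv_eq _ (app_csB z)

theorem flat_cB (y : ∀ i, Cel (c i) (K i) ⟶ MUo) :
    flat ((cB c K).hom ≫ bigMap y ≫ bigMul ι MUo) =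
      (shB c K).hom ≫ bigMap (fun i => flat (y i)) ≫ sumB c := flat_cL y _

theorem exists_bsm (k : (big K : LC)) :
    ∃ y : ∀ i, K i, (k : OnePoint (big K : LC)) = bsm fun i => (y i : OnePoint (K i)) := by
  obtain ⟨y, rfl⟩ := (piHomeo K).surjective k
  exact ⟨y, (smL_coe y _).symm⟩

@[reassoc]
theorem cpx_sh2B : (cpx (big c)).inv ≫ (sh2B c).hom =
    (csB c).inv ≫ bigMap fun i => (cpx (c i)).inv := by
  rw [Iso.inv_comp_eq]
  refine LC.tensor_ext fun w t => ?_
  obtain ⟨w, rfl⟩ := O.bvec_surjective w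
  obtain ⟨t, rfl⟩ := O.bvec_surjective t
  rw [app_sh2B, LC.app_comp, LC.app_comp, app_cpx, ← cvB_cv, app_csB_inv, app_bigMap_bsm]
  rfl

theorem app_VF_bigEquiv (e : ι ≃ κ) (c : κ → O) (t : ∀ k, (c k).El → ℝ) :
    app (VF.map (bigEquiv e c).hom) (bvec (a := fun i => c (e i)) (fun i => t (e i)) : OnePoint _) =
      (bvec t : OnePoint _) := O.act_bigEquiv e c t

omit [Finite κ] in
theorem exists_bvec_equiv (e : ι ≃ κ) (c : κ → O) (t : (big fun i => c (e i)).El → ℝ) :
    ∃ s : ∀ k, (c k).El → ℝ, t = bvec (a := fun i => c (e i)) fun i => s (e i) := by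
  obtain ⟨t, rfl⟩ := O.bvec_surjective t
  obtain ⟨s, rfl⟩ := (Equiv.piCongrLeft (fun k => (c k).El → ℝ) e).symm.surjective t
  exact ⟨s, rfl⟩

omit [Finite κ] in
theorem exists_bsm_equiv (e : ι ≃ κ) (K : κ → LC) (k : (big fun i => K (e i) : LC)) :
    ∃ y : ∀ j, OnePoint (K j), (k : OnePoint _) = bsm fun i => y (e i) := by
  obtain ⟨y, hy⟩ := exists_bsm k
  obtain ⟨s, rfl⟩ := (Equiv.piCongrLeft (fun j => K j) e).symm.surjective y
  exact ⟨fun j => (s j : OnePoint _), hy⟩

@[reassoc]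
theorem shB_bigEquiv (e : ι ≃ κ) (c : κ → O) (K : κ → LC) :
    (shB (fun i => c (e i)) fun i => K (e i)).hom ≫ (bigEquiv e fun j => K j ⊗ V (c j)).hom =
      ((bigEquiv e K).hom ⊗ₘ VF.map (bigEquiv e c).hom) ≫ (shB c K).hom :=
  LC.tensor_ext fun k t => by
    obtain ⟨k, hk⟩ := exists_bsm_equiv e K k
    obtain ⟨t, rfl⟩ := exists_bvec_equiv e c t
    rw [hk, LC.app_comp, LC.app_comp, app_shB, LC.app_tensorHom_smash, app_bigEquiv_bsm,
      app_VF_bigEquiv, app_shB]
    exact app_bigEquiv_bsm e (X := fun j => K j ⊗ V (c j)) fun j => smash (k j) (t j : OnePoint _)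

@[reassoc]
theorem sh2B_bigEquiv (e : ι ≃ κ) (c : κ → O) :
    (sh2B fun i => c (e i)).hom ≫ (bigEquiv e fun j => V (c j) ⊗ V (c j)).hom =
      m2 (bigEquiv e c).hom ≫ (sh2B c).hom :=
  LC.tensor_ext fun w t => by
    obtain ⟨w, rfl⟩ := exists_bvec_equiv e c w
    obtain ⟨t, rfl⟩ := exists_bvec_equiv e c t
    rw [LC.app_comp, LC.app_comp, app_sh2B, m2, LC.app_tensorHom_smash, app_VF_bigEquiv,
      app_VF_bigEquiv, app_sh2B]
    exact app_bigEquiv_bsm e (X := fun j => V (c j) ⊗ V (c j))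
      fun j => smash (w j : OnePoint _) (t j : OnePoint _)

@[reassoc]
theorem cB_bigEquiv (e : ι ≃ κ) (c : κ → O) (K : κ → LC) :
    (cB (fun i => c (e i)) fun i => K (e i)).hom ≫ (bigEquiv e fun j => Cel (c j) (K j)).hom =
      cm (bigEquiv e c).inv (bigEquiv e K).hom ≫ (cB c K).hom :=
  cel_ext fun k => by
    induction k using OnePoint.rec with
    | infty => rw [gp_infty, EF.fn_infty, EF.fn_infty]
    | coe k =>
      obtain ⟨k, hk⟩ := exists_bsm_equiv e K k
      rw [hk, EF.fn_comp, EF.fn_comp, fn_cB, fn_cm, app_bigEquiv_bsm, EF.fn_act, fn_cB]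
      exact (EF.cmp_bigEquiv (X := fun j => Cel (c j) (K j)) e fun j => gp (c j) (k j)).fn_eq

/-- the product of complex structures -/
def eB {c' : ι → O} (e : ∀ i, V (c' i) ⊗ V (c' i) ≅ K i ⊗ V (c i)) :
    V (big c') ⊗ V (big c') ≅ big K ⊗ V (big c) :=
  sh2B c' ≪≫ bigMapIso e ≪≫ (shB c K).symm

@[reassoc]
theorem eB_shB {c' : ι → O} (e : ∀ i, V (c' i) ⊗ V (c' i) ≅ K i ⊗ V (c i)) :
    (eB e).hom ≫ (shB c K).hom = (sh2B c').hom ≫ bigMap fun i => (e i).hom := by
  simp [eB]

theorem eB_bigEquiv (σ : ι ≃ κ) {c c' : κ → O} {K : κ → LC}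
    (e : ∀ j, V (c' j) ⊗ V (c' j) ≅ K j ⊗ V (c j)) :
    m2 (bigEquiv σ c').hom ≫ (eB e).hom = (eB fun i => e (σ i)).hom ≫
      ((bigEquiv σ K).hom ⊗ₘ VF.map (bigEquiv σ c).hom) := by
  rw [← cancel_mono (shB c K).hom, Category.assoc, Category.assoc, eB_shB, ← shB_bigEquiv,
    eB_shB_assoc, ← sh2B_bigEquiv_assoc]
  exact congrArg (_ ≫ ·) (bigMap_bigEquiv σ fun j => (e j).hom).symm

theorem cpx_eB_flat {c' : ι → O} (e : ∀ i, V (c' i) ⊗ V (c' i) ≅ K i ⊗ V (c i))
    (y : ∀ i, Cel (c i) (K i) ⟶ MUo) :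
    (cpx (big c')).inv ≫ (eB e).hom ≫ flat ((cB c K).hom ≫ bigMap y ≫ bigMul ι MUo) =
      (csB c').inv ≫ bigMap (fun i => (cpx (c' i)).inv ≫ (e i).hom ≫ flat (y i)) ≫ sumB c := by
  rw [flat_cB, eB_shB_assoc, cpx_sh2B_assoc, bigMap_comp, bigMap_comp, Category.assoc,
    Category.assoc]

end big

/-- the product of presentations of even cells -/
@[reducible] def EvC.prod {X : ι → EF O} (P : ∀ i, EvC (X i)) : EvC (big X) where
  c := big fun i => (P i).c
  c' := big fun i => (P i).c'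
  K := big fun i => (P i).K
  e := eB fun i => (P i).e
  i := cB _ _ ≪≫ bigMapIso fun i => (P i).i

variable {X : EF O}

variable (ι) in
/-- the presentation of a power -/
@[reducible] def EvC.big (P : EvC X) : EvC (big fun _ : ι => X) := EvC.prod fun _ => P

variable (G : Type) [Group G]

variable (ι) in
/-- the equivariant presentation of a power -/
@[reducible] def EvC.pow [MulAction G ι] (P : EvC X) : Pz ((powG (EF O) G ι).obj X) where
  Q := (powG O G ι).obj P.c
  Q' := (powG O G ι).obj P.c'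
  K := (powG LC G ι).obj P.K
  e := (P.big ι).e.hom
  i := (P.big ι).i.hom
  he g := by
    rw [act_powG, act_powG, act_powG]
    exact eB_bigEquiv (MulAction.toPerm g : ι ≃ ι) fun _ => P.e
  hi g := by
    have h : act ((powG O G ι).obj P.c) g⁻¹ =
        (bigEquiv (MulAction.toPerm g : ι ≃ ι) fun _ => P.c).inv := by
      refine (cancel_mono (act ((powG O G ι).obj P.c) g)).1 ((act_inv_act _ g).trans ?_)
      rw [act_powG]
      exact (Iso.inv_hom_id _).symm
    rw [h, act_powG, act_powG]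
    refine (cB_bigEquiv_assoc (MulAction.toPerm g : ι ≃ ι) (fun _ => P.c) (fun _ => P.K)
      (bigMap fun _ => P.i.hom)).symm.trans ?_
    exact (congrArg (_ ≫ ·) (bigMap_bigEquiv (MulAction.toPerm g : ι ≃ ι)
      fun _ => P.i.hom).symm).trans (Category.assoc _ _ _).symm

instance [MulAction G ι] (P : EvC X) : IsIso (P.pow ι G).e := (P.big ι).e.isIso_hom

instance [MulAction G ι] (P : EvC X) : IsIso (P.pow ι G).i := (P.big ι).i.isIso_hom

theorem EvC.tm_prod {X : ι → EF O} (P : ∀ i, EvC (X i)) (x : ∀ i, X i ⟶ MUo) :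
    ((EvC.prod P).pz G).tm (bigMap x ≫ bigMul ι MUo) =
      (csB _).inv ≫ bigMap (fun i => ((P i).pz G).tm (x i)) ≫ sumB _ := by
  refine Eq.trans ?_ (cpx_eB_flat (fun i => (P i).e) fun i => (P i).i.hom ≫ x i)
  rw [bigMap_comp, Category.assoc, ← Category.assoc (cB _ _).hom]
  rfl

theorem EvC.tm_big (P : EvC X) (x : X ⟶ MUo) :
    ((P.big ι).pz G).tm (bigMap (fun _ => x) ≫ bigMul ι MUo) =
      (csB _).inv ≫ bigMap (fun _ : ι => (P.pz G).tm x) ≫ sumB _ :=
  EvC.tm_prod G (fun _ => P) fun _ => x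

theorem EvC.tm_pow_eq [MulAction G ι] (P : EvC X) (y : A.big (fun _ : ι => X) ⟶ MUo) :
    (P.pow ι G).tm y = ((P.big ι).pz G).tm y := rfl

theorem EvC.tm_pow [MulAction G ι] (P : EvC X) (x : X ⟶ MUo) :
    (P.pow ι G).tm ((powG (EF O) G ι).map x ≫ mulG G ι MUo).hom =
      (csB _).inv ≫ bigMap (fun _ : ι => (P.pz G).tm x) ≫ sumB _ :=
  P.tm_big G x

end Vale.Agent.P257.Det
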