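import Vale.Agent.P257.Det.Val
import Vale.Agent.P257.Det.BetaL
import Vale.Agent.P257.Det.Pw0

/-!
# P257, detection: coordinates on powers

* `idxB c ι : (pw ι c).El ≃ c.El × ι`, `idxD c ι` the same for two copies;
* `gm_powG`, `dm_powG` : the matrices of the action on a power are permutation matrices;
* `pow_eq` : a power of a map to `N c`, followed by the direct sum, is `powF` in these coordinates;
* `EvC.isPsi_pow` : the Borel class of the norm is the value of the power operation;
* `EvC.cls_pow` : the class of a power is the power of the class.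
-/

set_option linter.unusedSectionVars false

open CategoryTheory MonoidalCategory Matrix OnePoint

universe v

noncomputable section

namespace Vale.Agent.P257.Det

open Vale.Agent.P251.G Vale.Agent.P251.Q Vale.Agent.P251.Q.MultTheory
open Vale.Agent.P251.G.LC (app smash)
open Vale.Agent.P257.D Vale.Agent.P257.E Vale.Agent.P257.P Vale.Agent.P257.K
open Vale.Agent.P257.A (evL enum big bigMap pw pwE bsm smL)
open Vale.Agent.P257.T (powG act_powG mulG)

section lists

variable {ι : Type} (c : O)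

/-- the coordinates of an index of a power along a list -/
def idxL : ∀ l : List ι, (evL (fun _ : ι => c) l).El → c.El × ι
  | [] => fun x => Empty.elim x
  | i :: l => Sum.elim (fun a => (a, i)) (idxL l)

theorem idxL_mem : ∀ (l : List ι) (x : (evL (fun _ : ι => c) l).El), (idxL c l x).2 ∈ l
  | [], x => Empty.elim x
  | _ :: _, Sum.inl _ => List.mem_cons_self
  | _ :: l, Sum.inr x => List.mem_cons_of_mem _ (idxL_mem l x)

theorem idxL_injective : ∀ l : List ι, l.Nodup → Function.Injective (idxL c l)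
  | [], _, x, _, _ => Empty.elim x
  | _ :: _, _, Sum.inl _, Sum.inl _, e => congrArg Sum.inl (congrArg Prod.fst e)
  | i :: l, h, Sum.inl _, Sum.inr y, e =>
    absurd ((show (idxL c l y).2 = i from (congrArg Prod.snd e).symm) ▸ idxL_mem c l y)
      (List.nodup_cons.1 h).1
  | i :: l, h, Sum.inr x, Sum.inl _, e =>
    absurd ((show (idxL c l x).2 = i from congrArg Prod.snd e) ▸ idxL_mem c l x)
      (List.nodup_cons.1 h).1
  | _ :: l, h, Sum.inr _, Sum.inr _, e =>
    congrArg Sum.inr (idxL_injective l (List.nodup_cons.1 h).2 e)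

theorem idxL_surj (a : c.El) (i : ι) : ∀ l : List ι, i ∈ l → ∃ x, idxL c l x = (a, i)
  | [], h => absurd h List.not_mem_nil
  | j :: l, h => by
    rcases List.mem_cons.1 h with rfl | h
    · exact ⟨Sum.inl a, rfl⟩
    · obtain ⟨x, hx⟩ := idxL_surj a i l h
      exact ⟨Sum.inr x, hx⟩

theorem lvec_apply (v : ι → c.El → ℝ) : ∀ (l : List ι) (x : (evL (fun _ : ι => c) l).El),
    O.lvec (a := fun _ => c) v l x = v (idxL c l x).2 (idxL c l x).1
  | [], x => Empty.elim x
  | _ :: _, Sum.inl _ => rfl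
  | _ :: l, Sum.inr x => lvec_apply v l x

/-- the coordinates of an index of two copies -/
def idx2 {W : Type} (f : W → c.El × ι) : W ⊕ W → (c.El ⊕ c.El) × ι :=
  Sum.elim (fun x => (Sum.inl (f x).1, (f x).2)) (fun x => (Sum.inr (f x).1, (f x).2))

variable {c}

/-- the direct sum along a list -/
def smNL (x : ι → NT c) : ∀ l : List ι, NT (evL (fun _ : ι => c) l)
  | [] => onePtN
  | i :: l => smF (x i) (smNL x l)

theorem smNL_v (x : ι → NT c) : ∀ (l : List ι) (y : (evL (fun _ : ι => c) l).El ⊕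
    (evL (fun _ : ι => c) l).El),
    (smNL x l).v y = (x (idx2 c (idxL c l) y).2).v (idx2 c (idxL c l) y).1
  | [], Sum.inl y => Empty.elim y
  | [], Sum.inr y => Empty.elim y
  | i :: l, y => by
    refine (congrFun (smF_v (x i) (smNL x l)) y).trans ?_
    rcases y with (y | y) | (y | y)
    exacts [rfl, smNL_v x l (Sum.inl y), rfl, smNL_v x l (Sum.inr y)]

theorem smNL_P [DecidableEq ι] (x : ι → NT c) : ∀ (l : List ι) (_ : l.Nodup)
    (y z : (evL (fun _ : ι => c) l).El ⊕ (evL (fun _ : ι => c) l).El),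
    (smNL x l).P y z = blockDiagonal (fun i => (x i).P) (idx2 c (idxL c l) y)
      (idx2 c (idxL c l) z)
  | [], _, Sum.inl y, _ => Empty.elim y
  | [], _, Sum.inr y, _ => Empty.elim y
  | i :: l, h, y, z => by
    refine (congrFun (congrFun (smF_P (x i) (smNL x l)) y) z).trans ?_
    have h1 : ∀ y, i ≠ (idxL c l y).2 := fun y e =>
      (List.nodup_cons.1 h).1 (e ▸ idxL_mem c l y)
    have h2 := smNL_P x l (List.nodup_cons.1 h).2
    rcases y with (y | y) | (y | y) <;> rcases z with (z | z) | (z | z)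
    all_goals first
      | exact (blockDiagonal_apply_eq (fun i => (x i).P) _ _ i).symm
      | exact (blockDiagonal_apply_ne (fun i => (x i).P) _ _ (h1 _)).symm
      | exact (blockDiagonal_apply_ne (fun i => (x i).P) _ _ (h1 _).symm).symm
      | exact h2 (Sum.inl y) (Sum.inl z)
      | exact h2 (Sum.inl y) (Sum.inr z)
      | exact h2 (Sum.inr y) (Sum.inl z)
      | exact h2 (Sum.inr y) (Sum.inr z)

theorem smL_infty {X : ι → LC} (x : ∀ i, OnePoint (X i)) {i : ι} (h : x i = ∞) :
    ∀ l : List ι, i ∈ l → smL x l = ∞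
  | [], hi => absurd hi List.not_mem_nil
  | j :: l, hi => by
    refine LC.smash_eq_infty.2 ?_
    rcases List.mem_cons.1 hi with rfl | hi
    exacts [.inl h, .inr (smL_infty x h l hi)]

end lists

section big

variable (c : O) (ι : Type) [Finite ι]

/-- the indices of a power -/
def idxB : (pw ι c).El ≃ c.El × ι :=
  Equiv.ofBijective (idxL c (enum ι)) ⟨idxL_injective c _ (A.nodup_enum ι),
    fun a => idxL_surj c a.1 a.2 _ (A.mem_enum _)⟩

/-- the indices of two copies of a power -/
def idxD : (pw ι c).El ⊕ (pw ι c).El ≃ (c.El ⊕ c.El) × ι :=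
  ((idxB c ι).sumCongr (idxB c ι)).trans (Equiv.sumProdDistrib _ _ _).symm

theorem idxD_apply (y : (pw ι c).El ⊕ (pw ι c).El) :
    idxD c ι y = idx2 c (idxL c (enum ι)) y := by
  rcases y with y | y <;> rfl

variable {c ι}

theorem bvec_apply (v : ι → c.El → ℝ) (x : (pw ι c).El) :
    O.bvec (a := fun _ => c) v x = v (idxB c ι x).2 (idxB c ι x).1 := lvec_apply c v _ x

theorem bsm_infty {X : ι → LC} (x : ∀ i, OnePoint (X i)) {i : ι} (h : x i = ∞) : bsm x = ∞ :=
  smL_infty x h _ (A.mem_enum i)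

theorem card_pw [Fintype ι] :
    Fintype.card (pw ι c).El = Fintype.card ι * Fintype.card c.El := by
  rw [Fintype.card_congr (idxB c ι), Fintype.card_prod, mul_comm]

variable (c) in
/-- the permutation of the indices of a power -/
def pwP (e : Equiv.Perm ι) : Equiv.Perm (pw ι c).El :=
  ((idxB c ι).trans (Equiv.prodCongr (Equiv.refl _) e)).trans (idxB c ι).symm

theorem pwE_eq (e : Equiv.Perm ι) : pwE c e = O.mk (OH.ofEquiv (pwP c e)) := by
  rw [← O.mk_isoOH (pwE c e)]
  refine O.mk_ext_big fun v => ?_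
  have h := O.isoOH_bigEquiv_ap e (fun _ => c) (fun i => v (e.symm i))
  simp only [Equiv.symm_apply_apply] at h
  refine h.trans (funext fun x => ?_)
  rw [OH.ofEquiv_ap, Function.comp_apply, bvec_apply, bvec_apply]
  simp [pwP]

variable {G : Type} [Group G] [MulAction G ι]

theorem gm_powG (g : G) :
    gm ((powG O G ι).obj c) g = injMat (pwP c (MulAction.toPerm g)) :=
  (congrArg cx (mt_eq ((act_powG G ι c g).trans (pwE_eq _)))).trans (cx_ofEquiv _)

theorem dm_powG (g : G) : dm ((powG O G ι).obj c) g =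
    injMat ((pwP c (MulAction.toPerm g : ι ≃ ι)).sumCongr (pwP c (MulAction.toPerm g : ι ≃ ι))) := by
  have h : ∀ e : Equiv.Perm (pw ι c).El, fromBlocks (injMat e) 0 0 (injMat e) =
      (injMat (e.sumCongr e) : Matrix _ _ ℂ) := fun e => by
    ext (k | k) (i | i) <;> simp [injMat_apply]
  rw [dm, gm_powG]
  exact h _

variable [Fintype ι] [DecidableEq ι]

theorem idxB_pwP (e : Equiv.Perm ι) : injMat (idxB c ι) * injMat (pwP c e) =
    (injMat (Equiv.prodCongr (Equiv.refl c.El) e) * injMat (idxB c ι) :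
      Matrix (c.El × ι) (pw ι c).El ℂ) := by
  rw [injMat_comp, injMat_comp]
  congr 1
  funext x
  simp [pwP]

theorem idxD_pwP (e : Equiv.Perm ι) : injMat (idxD c ι).symm *
      injMat (Equiv.prodCongr (Equiv.refl (c.El ⊕ c.El)) e) =
    (injMat ((pwP c e).sumCongr (pwP c e)) * injMat (idxD c ι).symm :
      Matrix _ ((c.El ⊕ c.El) × ι) ℂ) := by
  rw [injMat_comp, injMat_comp]
  congr 1
  funext x
  rcases x with ⟨a | a, i⟩ <;> simp [pwP, idxD]

variable (c) in
theorem idxB_mul : injMat (idxB c ι) * (injMat (idxB c ι))ᴴ = (1 : Matrix _ _ ℂ) := by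
  rw [injMat_equiv_conjTranspose, injMat_comp, Equiv.self_comp_symm, injMat_id]

/-- the direct sum of a family -/
def smB (x : ι → NT c) : NT (pw ι c) := smNL x (enum ι)

end big

section pow

variable {c c' : O} {q : ℕ}

theorem card_pw' (c : O) (q : ℕ) : q * Fintype.card c.El = Fintype.card (pw (Fin q) c).El := by
  rw [card_pw, Fintype.card_fin]

/-- the direct sum in coordinates -/
theorem smB_eq (x : Fin q → NT c) : smB x =
    Th.mapFun (injMat (idxD c (Fin q)).symm) (injMat_isom (idxD c (Fin q)).symm.injective)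
      (Th.pow (by rw [Fintype.card_fin, card_pw']) 1 isom_one x) := by
  refine Th.ext ?_ ?_
  · rw [Th.mapFun_P, injMat_equiv_conj]
    ext y z
    refine (smNL_P x _ (A.nodup_enum _) y z).trans ?_
    rw [← idxD_apply, ← idxD_apply]
    change _ = powMat 1 (fun j => (x j).P) _ _
    rw [powMat_eq, amp, Matrix.one_kronecker_one]
    simp
  · rw [Th.mapFun_v, injMat_equiv_mulVec]
    ext y
    refine (smNL_v x _ y).trans ?_
    rw [← idxD_apply]
    change _ = powVec 1 (fun j => (x j).v) _
    simp [powVec, Matrix.one_apply]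

/-- **powers in coordinates** -/
theorem pow_eq (s : pw (Fin q) (Cpow c'.El) ≅ Cpow (pw (Fin q) c').El)
    (hs : ∀ z : Fin q → c'.El → ℂ, app s.hom (bsm fun i => (z i : OnePoint (c'.El → ℂ))) =
      ((fun x => z (idxB c' _ x).2 (idxB c' _ x).1 : (pw (Fin q) c').El → ℂ) : OnePoint _))
    (m : pw (Fin q) (N c) ⟶ N (pw (Fin q) c))
    (hm : ∀ x : Fin q → NT c, app m (bsm fun i => (x i : OnePoint (NT c))) =
      ((smB x : NT (pw (Fin q) c)) : OnePoint _)) (f : Cpow c'.El ⟶ N c) :
    s.inv ≫ bigMap (fun _ => f) ≫ m =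
      Th.cmap (injMat (idxB c' (Fin q))) (injMat_isom (idxB c' (Fin q)).injective) ≫
        powF q (card_pw' c q) f ≫ Th.map (injMat (idxD c (Fin q)).symm)
          (injMat_isom (idxD c (Fin q)).symm.injective) := by
  rw [Iso.inv_comp_eq]
  refine A.big_ext fun z => ?_
  rw [LC.app_comp, LC.app_comp, LC.app_comp, LC.app_comp, A.app_bigMap_bsm, hs, Th.app_cmap_coe,
    injMat_equiv_mulVec, app_powF]
  simp only [Function.comp_apply, Equiv.apply_symm_apply]
  generalize (fun i => app f (z i : OnePoint (c'.El → ℂ))) = y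
  by_cases h : ∃ i, y i = ∞
  · obtain ⟨i, hi⟩ := h
    rw [bsm_infty y hi, OP.smash_infty y hi]
    exact (LC.app_infty _).trans (LC.app_infty _).symm
  · choose x hx using fun i => OnePoint.ne_infty_iff_exists.1 (not_exists.1 h i)
    obtain rfl : y = fun i => (x i : OnePoint (NT c)) := funext fun i => (hx i).symm
    rw [hm, OP.smash_coe, smB_eq]
    rfl

theorem cvL_apply {ι : Type} (z : ι → c.El → ℂ) : ∀ (l : List ι) (x : (evL (fun _ : ι => c) l).El),
    cvL (c := fun _ => c) z l x = z (idxL c l x).2 (idxL c l x).1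
  | [], x => Empty.elim x
  | _ :: _, Sum.inl _ => rfl
  | _ :: l, Sum.inr x => cvL_apply z l x

theorem app_sumL {ι : Type} (x : ι → NT c) : ∀ l : List ι, app (sumL (fun _ => c) l)
    (smL (X := fun _ => N c) (fun i => (x i : OnePoint (NT c))) l) =
      ((smNL x l : NT (evL (fun _ : ι => c) l)) : OnePoint _)
  | [] => rfl
  | i :: l => by
    refine (app_sumL_cons (c := fun _ => c) (fun i => (x i : OnePoint (NT c))) i l).trans ?_
    rw [app_sumL x l]
    rfl

/-- the coordinates on the source -/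
def pwA (c : O) (q : ℕ) : Cpow (pw (Fin q) c).El ⟶ Cpow (c.El × Fin q) :=
  Th.cmap (injMat (idxB c (Fin q))) (injMat_isom (idxB c (Fin q)).injective)

/-- the coordinates on the target -/
def pwB (c : O) (q : ℕ) : LC.of (Th (Fintype.card (pw (Fin q) c).El) ((c.El ⊕ c.El) × Fin q)) ⟶
    N (pw (Fin q) c) :=
  Th.map (injMat (idxD c (Fin q)).symm) (injMat_isom (idxD c (Fin q)).symm.injective)

theorem map_pwAB {E : MultTheory.{v}} (o : Orientation E) (f : Cpow c'.El ⟶ N c) {a : E.A}
    (h : E.map f (tauN o c) = a • o.lin _) :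
    E.map (pwA c' q ≫ powF q (card_pw' c q) f ≫ pwB c q) (tauN o _) = a ^ q • o.lin _ := by
  have := o.goodTh
  rw [MultTheory.map_comp, MultTheory.map_comp, pwB, tau_map, map_powF_tau o q _ f h,
    MultTheory.map_smul, pwA, lin_map o _ _ (idxB_mul c') (Fintype.card_congr (idxB c' _))]

theorem csB_sumB (f : Cpow c'.El ⟶ N c) :
    (csB fun _ : Fin q => c').inv ≫ bigMap (fun _ : Fin q => f) ≫ sumB (fun _ => c) =
      pwA c' q ≫ powF q (card_pw' c q) f ≫ pwB c q :=
  pow_eq (csB fun _ : Fin q => c')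
    (fun z => (app_csB z).trans (congrArg OnePoint.some (funext (cvL_apply z _))))
    (sumB fun _ => c) (fun x => app_sumL x _) f

end pow

variable {X : EF O} (P : EvC X) (x : X ⟶ MUo)

theorem EvC.tm_pow' (G : Type) [Group G] (q : ℕ) [MulAction G (Fin q)] :
    (P.pow (Fin q) G).tm ((powG (EF O) G (Fin q)).map x ≫ mulG G (Fin q) MUo).hom =
      pwA P.c' q ≫ powF q (card_pw' P.c q) ((P.pz G).tm x) ≫ pwB P.c q :=
  (P.tm_pow G x).trans (csB_sumB _)

/-- **The Borel class of the norm is the value of the power operation.** -/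
theorem EvC.isPsi_pow' (E : ThomTheory.{v}) (r k : ℕ) {G : Type} [Group G]
    [MulAction G (Fin (r + 1))] {g : G} (hg : g ^ (r + 1) = 1)
    (h : (MulAction.toPerm g : Fin (r + 1) ≃ Fin (r + 1)) = cyc r) :
    IsPsi E.o r k ((P.pz G).tm x) (wk E.o r k ^ Fintype.card P.c'.El *
      (P.pow (Fin (r + 1)) G).val E.o (lensCyc r k) g
        ((powG (EF O) G (Fin (r + 1))).map x ≫ mulG G (Fin (r + 1)) MUo)) := by
  rw [Pz.val, P.tm_pow' x G]
  refine isPsi_of E r k ((P.pz G).tm x) (card_pw' P.c (r + 1)) (isU_gm hg _) (isU_dm hg _) _ _ ?_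
    ?_ (Fintype.card_congr (idxB P.c' _)) _ _ ?_
  · exact idxB_mul P.c'
  · rw [gm_powG, h]
    exact idxB_pwP _
  · rw [dm_powG, h]
    exact idxD_pwP _

/-- the same for the symmetric group -/
theorem EvC.isPsi_pow (E : ThomTheory.{v}) (r k : ℕ) :
    IsPsi E.o r k ((P.pz (Equiv.Perm (Fin (r + 1)))).tm x) (wk E.o r k ^ Fintype.card P.c'.El *
      (P.pow (Fin (r + 1)) (Equiv.Perm (Fin (r + 1)))).val E.o (lensCyc r k) (cyc r)
        ((powG (EF O) (Equiv.Perm (Fin (r + 1))) (Fin (r + 1))).map x ≫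
          mulG (Equiv.Perm (Fin (r + 1))) (Fin (r + 1)) MUo)) :=
  P.isPsi_pow' x E r k (cyc_pow r) rfl

/-- **The class of a power is the power of the class.** -/
theorem EvC.cls_pow {E : MultTheory.{v}} (o : Orientation E) (G : Type) [Group G] (q : ℕ) {a : E.A}
    (h : E.map ((P.pz G).tm x) (tauN o _) = a • o.lin _) :
    E.map (((P.big (Fin q)).pz G).tm (bigMap (fun _ => x) ≫ A.bigMul (Fin q) MUo)) (tauN o _) =
      a ^ q • o.lin _ :=
  (congrArg (fun f => E.map f (tauN o _)) ((P.tm_big G x).trans (csB_sumB _))).trans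
    (map_pwAB o _ h)

/-- the same in the form of `HasCls` -/
theorem EvC.cls_pow' {E : MultTheory.{v}} (o : Orientation E) (q : ℕ) {a : E.A}
    (h : E.map (P.e.hom ≫ flat (P.i.hom ≫ x)) (tauN o P.c) = a • linV o P.c') :
    E.map ((P.big (Fin q)).e.hom ≫ flat ((P.big (Fin q)).i.hom ≫
      bigMap (fun _ => x) ≫ A.bigMul (Fin q) MUo)) (tauN o _) = a ^ q • linV o _ := by
  have := o.goodTh
  have h1 := P.cls_pow x o Unit q (a := a) (by
    refine (MultTheory.map_comp _ _ _).trans ((congrArg _ h).trans ?_)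
    rw [MultTheory.map_smul, linV, ← MultTheory.map_comp, Iso.inv_hom_id, MultTheory.map_id])
  have h2 := congrArg (E.map (cpx (P.big (Fin q)).c').hom) h1
  rw [MultTheory.map_smul, ← MultTheory.map_comp] at h2
  exact (congrArg (fun f => E.map f (tauN o _)) (Iso.hom_inv_id_assoc _ _).symm).trans h2

end Vale.Agent.P257.Det
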