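import Vale.Agent.P257.P.Cls
import Vale.Agent.P257.E.Dh
import Vale.Agent.P257.L.Coef

/-!
# P257, detection: complex presentations of orthogonal `G`-spectra

* `Pz Y`: a map from a cell `rep Q ⊗ J K` to `Y` and a map `ℂ^Q' ⟶ K ⊗ V Q`, both equivariant;
  `push`, `ten`, `lam`, comparisons `Cmp`;
* `EvC X`: strict presentations of even cells; `HasCls`.
-/

open CategoryTheory MonoidalCategory Limits MonObj Matrix
open Functor.LaxMonoidal Functor.OplaxMonoidal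

universe v u w v'

noncomputable section

namespace Vale.Agent.P257.Det

open Vale.Agent.P251.G Vale.Agent.P251.Q
open Vale.Agent.P251.G.LC (RR II app smash)
open Vale.Agent.P257.D Vale.Agent.P257.E Vale.Agent.P257.P Vale.Agent.P257.K
open Vale.Agent.P257.D.O (V)

section lc

variable {a b c d a' b' c' d' : O} {K K' K'' L L' : LC}

/-- the map induced on two copies -/
def m2 (f : a ⟶ b) : V a ⊗ V a ⟶ V b ⊗ V b := VF.map f ⊗ₘ VF.map f

@[reassoc]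
theorem m2_comp (f : a ⟶ b) (g : b ⟶ c) : m2 f ≫ m2 g = m2 (f ≫ g) := by
  rw [m2, m2, m2, tensorHom_comp_tensorHom, ← Functor.map_comp]

theorem m2_id (a : O) : m2 (𝟙 a) = 𝟙 _ := by
  rw [m2, CategoryTheory.Functor.map_id, id_tensorHom_id]

/-- the shuffle for two copies of a sum -/
def sh2 (a b : O) : V (a ⊗ b) ⊗ V (a ⊗ b) ≅ (V a ⊗ V a) ⊗ (V b ⊗ V b) :=
  whiskerRightIso (O.vecIso a b).symm _ ≪≫ shT a (V a) b (V b)

theorem sh2_hom (a b : O) :
    (sh2 a b).hom = (O.vecIso a b).inv ▷ V (a ⊗ b) ≫ (shT a (V a) b (V b)).hom := rfl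

theorem sh2_ext {Z : LC} {f g : V (a ⊗ b) ⊗ V (a ⊗ b) ⟶ Z}
    (h : ∀ (w t : a.El → ℝ) (w' t' : b.El → ℝ),
      app f (smash (O.vec w w' : OnePoint _) (O.vec t t' : OnePoint _)) =
        app g (smash (O.vec w w' : OnePoint _) (O.vec t t' : OnePoint _))) : f = g :=
  LC.tensor_ext fun w t => by
    obtain ⟨w, w', rfl⟩ := O.vec_surj w
    obtain ⟨t, t', rfl⟩ := O.vec_surj t
    exact h w t w' t'

@[reassoc]
theorem sh2_nat (f : a ⟶ c) (g : b ⟶ d) :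
    m2 (f ⊗ₘ g) ≫ (sh2 c d).hom = (sh2 a b).hom ≫ (m2 f ⊗ₘ m2 g) := by
  have h : VF.map (f ⊗ₘ g) ≫ (O.vecIso c d).inv =
      (O.vecIso a b).inv ≫ (VF.map f ⊗ₘ VF.map g) := (δ_natural VF f g).symm
  rw [sh2_hom, sh2_hom, m2, m2, m2, Category.assoc, ← shT_nat, ← tensorHom_id, ← tensorHom_id,
    tensorHom_comp_tensorHom_assoc, tensorHom_comp_tensorHom_assoc, h, Category.id_comp,
    Category.comp_id]

@[reassoc]
theorem sh2_comm : (sh2 a b).hom ≫ (β_ _ _).hom = m2 (β_ a b).hom ≫ (sh2 b a).hom :=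
  sh2_ext fun w t w' t' => by
    have h : ∀ (t : a.El → ℝ) (s : b.El → ℝ), app (VF.map (β_ a b).hom) (O.vec t s : OnePoint _) =
      (O.vec s t : OnePoint _) := fun t s => congrArg OnePoint.some (O.brd_ap t s)
    rw [LC.app_comp (m2 _), m2, LC.app_tensorHom_smash, h, h]
    rfl

@[reassoc]
theorem sh2_assoc : (sh2 (a ⊗ b) c).hom ≫ (sh2 a b).hom ▷ _ ≫ (α_ _ _ _).hom =
    m2 (α_ a b c).hom ≫ (sh2 a (b ⊗ c)).hom ≫ _ ◁ (sh2 b c).hom :=
  sh2_ext fun w t w' t' => by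
    obtain ⟨w, s, rfl⟩ := O.vec_surj w
    obtain ⟨t, r, rfl⟩ := O.vec_surj t
    have h : ∀ (t : a.El → ℝ) (s : b.El → ℝ) (r : c.El → ℝ), app (VF.map (α_ a b c).hom)
        (O.vec (O.vec t s) r : OnePoint _) = (O.vec t (O.vec s r) : OnePoint _) :=
      fun t s r => congrArg OnePoint.some (O.asc_ap t s r)
    rw [LC.app_comp (m2 _), m2, LC.app_tensorHom_smash, h, h]
    rfl

/-- the product of two complex structures -/
def eT (e : V a ⊗ V a ⟶ K ⊗ V c) (e' : V b ⊗ V b ⟶ L ⊗ V d) :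
    V (a ⊗ b) ⊗ V (a ⊗ b) ⟶ (K ⊗ L) ⊗ V (c ⊗ d) :=
  (sh2 a b).hom ≫ (e ⊗ₘ e') ≫ (shT c K d L).inv

@[reassoc]
theorem eT_shT (e : V a ⊗ V a ⟶ K ⊗ V c) (e' : V b ⊗ V b ⟶ L ⊗ V d) :
    eT e e' ≫ (shT c K d L).hom = (sh2 a b).hom ≫ (e ⊗ₘ e') := by
  rw [eT, Category.assoc, Category.assoc, Iso.inv_hom_id, Category.comp_id]

instance (e : V a ⊗ V a ⟶ K ⊗ V c) (e' : V b ⊗ V b ⟶ L ⊗ V d) [IsIso e] [IsIso e'] :
    IsIso (eT e e') := by
  unfold eT
  infer_instance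

theorem eT_nat {e : V a ⊗ V a ⟶ K ⊗ V c} {e' : V b ⊗ V b ⟶ L ⊗ V d}
    {f : V a' ⊗ V a' ⟶ K' ⊗ V c'} {f' : V b' ⊗ V b' ⟶ L' ⊗ V d'}
    {ψ : V a ⊗ V a ⟶ V a' ⊗ V a'} {ψ' : V b ⊗ V b ⟶ V b' ⊗ V b'} {κ : K ⟶ K'} {κ' : L ⟶ L'}
    {A : c ⟶ c'} {A' : d ⟶ d'} (h : ψ ≫ f = e ≫ (κ ⊗ₘ VF.map A))
    (h' : ψ' ≫ f' = e' ≫ (κ' ⊗ₘ VF.map A')) :
    ((sh2 a b).hom ≫ (ψ ⊗ₘ ψ') ≫ (sh2 a' b').inv) ≫ eT f f' =
      eT e e' ≫ ((κ ⊗ₘ κ') ⊗ₘ VF.map (A ⊗ₘ A')) := by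
  rw [← cancel_mono (shT c' K' d' L').hom, Category.assoc, Category.assoc, Category.assoc,
    Category.assoc, eT_shT, shT_nat, eT_shT_assoc, Iso.inv_hom_id_assoc,
    tensorHom_comp_tensorHom, tensorHom_comp_tensorHom, h, h']

theorem m2_tensor (f : a ⟶ c) (g : b ⟶ d) :
    m2 (f ⊗ₘ g) = (sh2 a b).hom ≫ (m2 f ⊗ₘ m2 g) ≫ (sh2 c d).inv := by
  rw [← sh2_nat_assoc, Iso.hom_inv_id, Category.comp_id]

theorem eT_assoc {a'' c'' : O} (e : V a ⊗ V a ⟶ K ⊗ V c) (e' : V a' ⊗ V a' ⟶ K' ⊗ V c')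
    (e'' : V a'' ⊗ V a'' ⟶ K'' ⊗ V c'') : m2 (α_ a a' a'').hom ≫ eT e (eT e' e'') =
      eT (eT e e') e'' ≫ ((α_ K K' K'').hom ⊗ₘ VF.map (α_ c c' c'').hom) := by
  rw [← cancel_mono ((shT _ _ _ _).hom ≫ _ ◁ (shT c' K' c'' K'').hom),
    Category.assoc, Category.assoc, ← shT_assoc, eT_shT_assoc, eT_shT_assoc, ← id_tensorHom,
    ← tensorHom_id, tensorHom_comp_tensorHom, tensorHom_comp_tensorHom_assoc, eT_shT, eT_shT,
    Category.comp_id, Category.comp_id, ← Category.id_comp e'', ← tensorHom_comp_tensorHom,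
    Category.assoc, associator_naturality, tensorHom_id, sh2_assoc_assoc, ← id_tensorHom,
    tensorHom_comp_tensorHom, Category.id_comp, Category.id_comp]

theorem eT_comm (e : V a ⊗ V a ⟶ K ⊗ V c) (e' : V a' ⊗ V a' ⟶ K' ⊗ V c') :
    m2 (β_ a a').hom ≫ eT e' e = eT e e' ≫ ((β_ K K').hom ⊗ₘ VF.map (β_ c' c).inv) := by
  rw [← cancel_mono (shT _ _ _ _).hom, Category.assoc, Category.assoc, ← shT_comm, eT_shT,
    eT_shT_assoc, BraidedCategory.braiding_naturality, sh2_comm_assoc]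

theorem iT_assoc {c'' : O} {X Y Z : EF O} (i : Cel c K ⟶ X) (i' : Cel c' K' ⟶ Y)
    (i'' : Cel c'' K'' ⟶ Z) : cm (α_ c c' c'').inv (α_ K K' K'').hom ≫ (P257.P.cT _ _ _ _).hom ≫
      (i ⊗ₘ (P257.P.cT _ _ _ _).hom ≫ (i' ⊗ₘ i'')) = ((P257.P.cT _ _ _ _).hom ≫
        (((P257.P.cT _ _ _ _).hom ≫ (i ⊗ₘ i')) ⊗ₘ i'')) ≫ (α_ X Y Z).hom := by
  rw [← Category.id_comp i, ← tensorHom_comp_tensorHom, id_tensorHom, ← cT_assoc_assoc,
    ← associator_naturality, ← tensorHom_id, tensorHom_comp_tensorHom_assoc, Category.id_comp,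
    Category.id_comp, Category.assoc]

theorem iT_comm {X Y : EF O} (i : Cel c K ⟶ X) (i' : Cel c' K' ⟶ Y) :
    cm (β_ c' c).hom (β_ K K').hom ≫ (P257.P.cT _ _ _ _).hom ≫ (i' ⊗ₘ i) =
      ((P257.P.cT _ _ _ _).hom ≫ (i ⊗ₘ i')) ≫ (β_ X Y).hom := by
  rw [← cT_comm_assoc, Category.assoc, BraidedCategory.braiding_naturality]

theorem id_VF (e : L ⟶ K ⊗ V c) : 𝟙 _ ≫ e = e ≫ (𝟙 K ⊗ₘ VF.map (𝟙 c)) := by
  rw [CategoryTheory.Functor.map_id, id_tensorHom_id, Category.id_comp, Category.comp_id]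

/-- the complex vector space of a sum -/
def cs (a b : O) : Cpow a.El ⊗ Cpow b.El ≅ Cpow (a ⊗ b).El := Th.csum a.El b.El

@[reassoc]
theorem cpx_sh2 (a b : O) : (cpx (a ⊗ b)).inv ≫ (sh2 a b).hom =
    (cs a b).inv ≫ ((cpx a).inv ⊗ₘ (cpx b).inv) :=
  LC.hom_ext fun _ => rfl

theorem m2_cpx {f : a ⟶ b} {A : Matrix b.El a.El ℝ} {h : Aᵀ * A = 1} (e : f = mkL A h)
    (h' : (cx A)ᴴ * cx A = 1) : m2 f ≫ (cpx b).hom = (cpx a).hom ≫ Th.cmap (cx A) h' :=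
  LC.tensor_ext fun w t => by
    subst e
    rw [LC.app_comp, LC.app_comp, m2, LC.app_tensorHom_smash, app_cpx, Th.app_cmap_coe,
      cx_mulVec_cv]
    exact congrArg OnePoint.some (congrArg₂ cv (add_zero _) (add_zero _))

theorem lamV_id (a : O) : lamV (𝟭 O) a = lam0 a :=
  cel_ext (c := a) fun w => by
    rw [fn_lam0, gp, EF.fn_act]
    refine (congrArg _ (lamV_tm_id (𝟭 O) _ _)).trans ((EF.rep_act _ _).trans ?_)
    rw [Category.assoc, Iso.inv_hom_id, Category.comp_id]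
    exact congrArg EF.pr ((Category.comp_id _).trans (Category.id_comp _))

end lc

variable {G : Type} [Group G]

/-- the complex matrices of a representation -/
def gm (Q : Action O G) (g : G) : Matrix Q.V.El Q.V.El ℂ := cx (mt Q g)

/-- two copies of the complex matrices -/
def dm (Q : Action O G) (g : G) : Matrix (Q.V.El ⊕ Q.V.El) (Q.V.El ⊕ Q.V.El) ℂ :=
  fromBlocks (gm Q g) 0 0 (gm Q g)

theorem gm_isom (Q : Action O G) (g : G) : (gm Q g)ᴴ * gm Q g = 1 := cx_isom _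

theorem dm_isom (Q : Action O G) (g : G) : (dm Q g)ᴴ * dm Q g = 1 := fA_isom _

theorem gm_one (Q : Action O G) : gm Q 1 = 1 := by rw [gm, mt_one, cx_one]

theorem gm_mul (Q : Action O G) (g h : G) : gm Q (g * h) = gm Q g * gm Q h := by
  rw [gm, mt_mul, cx_mul, gm, gm]

theorem gm_pow (Q : Action O G) (g : G) (n : ℕ) : gm Q g ^ n = gm Q (g ^ n) := by
  induction n with
  | zero => rw [pow_zero, pow_zero, gm_one]
  | succ n ih => rw [pow_succ, pow_succ, ih, gm_mul]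

theorem gm_tensor (P Q : Action O G) (g : G) :
    gm (P ⊗ Q) g = fromBlocks (gm P g) 0 0 (gm Q g) :=
  (congrArg cx (mt_tensor P Q g)).trans (cx_fromBlocks _ _)

theorem gm_of_triv {Q : Action O G} {g : G} (h : act Q g = 𝟙 _) : gm Q g = 1 := by
  rw [gm, mt_eq (h.trans (mkL_one _).symm)]
  exact cx_one

theorem dm_inv (Q : Action O G) (g : G) : dm Q g⁻¹ * dm Q g = 1 := by
  rw [dm, dm, fromBlocks_multiply, ← gm_mul, inv_mul_cancel, gm_one]
  simp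

@[reassoc]
theorem m2_act_cpx (Q : Action O G) (g : G) :
    m2 (act Q g) ≫ (cpx Q.V).hom = (cpx Q.V).hom ≫ Th.cmap (gm Q g) (gm_isom Q g) :=
  m2_cpx (act_eq_mkL Q g) _

/-- the action as an isomorphism -/
@[simps] def actIso {M : Type*} [Category M] (X : Action M G) (g : G) : X.V ≅ X.V :=
  ⟨act X g, act X g⁻¹, act_act_inv X g, act_inv_act X g⟩

theorem thA_act (Q : Action O G) (g : G) : thA (actIso Q g) = Th.map (dm Q g) (dm_isom Q g) :=
  thM_rfl _ _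

theorem flat_act {Q : Action O G} {K K' : LC} (g : G) (f : K' ⟶ K) (y : Cel Q.V K ⟶ MUo) :
    flat (cm (act Q g⁻¹) f ≫ y) ≫ Th.map (dm Q g) (dm_isom Q g) =
      (f ⊗ₘ VF.map (act Q g)) ≫ flat y := by
  have h := flat_cm (actIso Q g⁻¹) f y
  rw [actIso_hom, actIso_inv, inv_inv, thA_act] at h
  rw [h, Category.assoc, Category.assoc, Th.map_comp, Th.map_congr
    (show dm Q g * dm Q g⁻¹ = 1 by simpa using dm_inv Q g⁻¹) _ isom_one, Th.map_one,
    Category.comp_id]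

/-- complex presentations -/
structure Pz (Y : Action (EF O) G) where
  /-- the index of the cell -/
  Q : Action O G
  /-- the real form of the complex representation -/
  Q' : Action O G
  /-- the space of the cell -/
  K : Action LC G
  /-- the complex structure -/
  e : V Q'.V ⊗ V Q'.V ⟶ K.V ⊗ V Q.V
  /-- the map from the cell -/
  i : Cel Q.V K.V ⟶ Y.V
  he : ∀ g, m2 (act Q' g) ≫ e = e ≫ (act K g ⊗ₘ VF.map (act Q g))
  hi : ∀ g, cm (act Q g⁻¹) (act K g) ≫ i = i ≫ act Y g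

namespace Pz

variable {X Y Z W : Action (EF O) G}

/-- composition with a map -/
@[reducible] def push (P : Pz X) (φ : X ⟶ Y) : Pz Y where
  Q := P.Q
  Q' := P.Q'
  K := P.K
  e := P.e
  i := P.i ≫ φ.hom
  he := P.he
  hi g := by rw [← Category.assoc, P.hi, Category.assoc, act_comm, Category.assoc]

theorem push_push (P : Pz X) (φ : X ⟶ Y) (χ : Y ⟶ Z) : (P.push φ).push χ = P.push (φ ≫ χ) := by
  simp only [push, Action.comp_hom, Category.assoc]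

theorem push_id (P : Pz X) : P.push (𝟙 X) = P := by
  simp only [push, Action.id_hom, Category.comp_id]

/-- the product -/
@[reducible] def ten (P : Pz X) (P' : Pz Y) : Pz (X ⊗ Y) where
  Q := P.Q ⊗ P'.Q
  Q' := P.Q' ⊗ P'.Q'
  K := P.K ⊗ P'.K
  e := eT P.e P'.e
  i := (P257.P.cT _ _ _ _).hom ≫ (P.i ⊗ₘ P'.i)
  he g := (congrArg (· ≫ eT P.e P'.e) (m2_tensor _ _)).trans (eT_nat (P.he g) (P'.he g))
  hi g := by
    refine (cT_nat_assoc (act P.Q g⁻¹) (act P.K g) (act P'.Q g⁻¹) (act P'.K g) _).symm.trans ?_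
    rw [tensorHom_comp_tensorHom, P.hi, P'.hi, ← tensorHom_comp_tensorHom, Category.assoc]
    rfl

theorem push_ten (P : Pz X) (P' : Pz Y) (φ : X ⟶ Z) (χ : Y ⟶ W) :
    (P.push φ).ten (P'.push χ) = (P.ten P').push (φ ⊗ₘ χ) := by
  simp only [push, ten, Action.tensorHom_hom, Category.assoc, tensorHom_comp_tensorHom]

theorem ten_push (P : Pz X) (P' : Pz Y) (χ : Y ⟶ W) :
    P.ten (P'.push χ) = (P.ten P').push (X ◁ χ) := by
  rw [← id_tensorHom, ← push_ten, push_id]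

theorem push_ten_left (P : Pz X) (P' : Pz Y) (φ : X ⟶ Z) :
    (P.push φ).ten P' = (P.ten P').push (φ ▷ Y) := by
  rw [← tensorHom_id, ← push_ten, push_id]

/-- the presentation of the source of `lamQ` -/
@[reducible] def lam (Q : Action O G) : Pz (repA (𝟭 O) Q ⊗ sphQ O Q) where
  Q := Q
  Q' := Q
  K := (sphA G).obj Q
  e := 𝟙 _
  i := 𝟙 _
  he _ := (Category.comp_id _).trans (Category.id_comp _).symm
  hi _ := (Category.comp_id _).trans (Category.id_comp _).symm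

/-- the map to the Thom space -/
def tm (P : Pz Y) (y : Y.V ⟶ MUo) : Cpow P.Q'.V.El ⟶ N P.Q.V :=
  (cpx P.Q'.V).inv ≫ P.e ≫ flat (P.i ≫ y)

theorem tm_push (P : Pz X) (φ : X ⟶ Y) (y : Y.V ⟶ MUo) :
    (P.push φ).tm y = P.tm (φ.hom ≫ y) := by
  rw [tm, tm, Category.assoc]

theorem cmap_tm (P : Pz Y) (y : Y.V ⟶ MUo) (g : G) :
    Th.cmap (gm P.Q' g) (gm_isom _ g) ≫ P.tm y =
      P.tm (act Y g ≫ y) ≫ Th.map (dm P.Q g) (dm_isom _ g) := by
  rw [tm, tm, ← reassoc_of% P.hi, Category.assoc, Category.assoc, flat_act, ← reassoc_of% P.he,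
    ← cancel_epi (cpx P.Q'.V).hom, ← m2_act_cpx_assoc, Iso.hom_inv_id_assoc, Iso.hom_inv_id_assoc]

theorem tm_ten (P : Pz X) (P' : Pz Y) (y : X.V ⟶ MUo) (y' : Y.V ⟶ MUo) :
    (P.ten P').tm ((y ⊗ₘ y') ≫ μ[MUo]) = (cs P.Q'.V P'.Q'.V).inv ≫
      (P.tm y ⊗ₘ P'.tm y') ≫ sumN P.Q.V P'.Q.V := by
  have h := flat_mul (P.i ≫ y) (P'.i ≫ y')
  rw [← tensorHom_comp_tensorHom, Category.assoc] at h
  rw [tm, tm, tm, Category.assoc]
  refine (congrArg (fun x => (cpx (P.Q'.V ⊗ P'.Q'.V)).inv ≫ eT P.e P'.e ≫ x) h).trans ?_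
  rw [eT_shT_assoc, cpx_sh2_assoc, tensorHom_comp_tensorHom_assoc,
    tensorHom_comp_tensorHom_assoc, Category.assoc, Category.assoc]

theorem tm_lam (Q : Action O G) : (lam Q).tm ((lamQ (𝟭 O) Q).hom ≫ η[MUo]) = inN Q.V := by
  rw [tm, Category.id_comp, Category.id_comp, lamQ_hom, lamV_id]
  exact (congrArg ((cpx Q.V).inv ≫ ·) (flat_lam0 Q.V)).trans (Iso.inv_hom_id_assoc _ _)

/-- comparison of two presentations -/
structure Cmp (P P' : Pz Y) where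
  /-- the isomorphism of the indices -/
  B : P'.Q ≅ P.Q
  /-- the map of the spaces -/
  κ : P.K.V ⟶ P'.K.V
  /-- the map of the complex representation spheres -/
  ψ : V P.Q'.V ⊗ V P.Q'.V ⟶ V P'.Q'.V ⊗ V P'.Q'.V
  hψ : ∀ g, m2 (act P.Q' g) ≫ ψ = ψ ≫ m2 (act P'.Q' g)
  he : ψ ≫ P'.e = P.e ≫ (κ ⊗ₘ VF.map B.inv.hom)
  hi : cm B.hom.hom κ ≫ P'.i = P.i

/-- the underlying isomorphism -/
abbrev isoV {M : Type*} [Category M] {A B : Action M G} (e : A ≅ B) : A.V ≅ B.V :=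
  (Action.forget M G).mapIso e

theorem Cmp.tm {P P' : Pz Y} (C : Cmp P P') (y : Y.V ⟶ MUo) : P.tm y =
    ((cpx _).inv ≫ C.ψ ≫ (cpx _).hom) ≫ P'.tm y ≫ thA (isoV C.B) := by
  have h := flat_cm (isoV C.B) C.κ (P'.i ≫ y)
  rw [Pz.tm, Pz.tm, ← C.hi, Category.assoc]
  refine (congrArg (fun x => (cpx _).inv ≫ P.e ≫ x) h).trans ?_
  simp only [Category.assoc, Iso.hom_inv_id_assoc]
  rw [reassoc_of% C.he]
  rfl

/-- comparisons in a context -/
@[reducible] def Cmp.ten (R : Pz X) {P P' : Pz Y} (C : Cmp P P') : Cmp (R.ten P) (R.ten P') where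
  B := whiskerLeftIso R.Q C.B
  κ := R.K.V ◁ C.κ
  ψ := (sh2 _ _).hom ≫ _ ◁ C.ψ ≫ (sh2 _ _).inv
  hψ g := by
    refine (sh2_nat_assoc (act R.Q' g) (act P.Q' g) _).trans (Eq.trans ?_
      (congrArg (_ ≫ ·) (m2_tensor (act R.Q' g) (act P'.Q' g)).symm))
    simp only [Category.assoc, Iso.inv_hom_id_assoc, ← id_tensorHom,
      tensorHom_comp_tensorHom_assoc, C.hψ, Category.id_comp, Category.comp_id]
  he := by
    have h := eT_nat (e := R.e) (f := R.e) (ψ := 𝟙 _) (κ := 𝟙 _) (A := 𝟙 _) (id_VF _) C.he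
    simp only [id_tensorHom] at h
    exact h
  hi := by
    have h := cT_nat_assoc (𝟙 R.Q.V) (𝟙 R.K.V) C.B.hom.hom C.κ (R.i ⊗ₘ P'.i)
    rw [cm_id, tensorHom_comp_tensorHom, C.hi, Category.id_comp, id_tensorHom, id_tensorHom] at h
    exact h.symm

/-- comparison given by an isomorphism of the complex representations -/
@[reducible] def Cmp.ofIso {P P' : Pz Y} (B : P'.Q ≅ P.Q) (κ : P.K.V ⟶ P'.K.V) (A : P.Q' ⟶ P'.Q')
    (he : m2 A.hom ≫ P'.e = P.e ≫ (κ ⊗ₘ VF.map B.inv.hom)) (hi : cm B.hom.hom κ ≫ P'.i = P.i) :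
    Cmp P P' :=
  ⟨B, κ, m2 A.hom, fun g => by rw [m2_comp, m2_comp, act_comm], he, hi⟩

/-- associativity -/
def cmpAssoc (P : Pz X) (P' : Pz Y) (P'' : Pz Z) :
    Cmp (((P.ten P').ten P'').push (α_ X Y Z).hom) (P.ten (P'.ten P'')) :=
  Cmp.ofIso (α_ P.Q P'.Q P''.Q).symm (α_ P.K.V P'.K.V P''.K.V).hom (α_ P.Q' P'.Q' P''.Q').hom
    (by
      rw [Iso.symm_inv, Action.associator_hom_hom, Action.associator_hom_hom]
      exact eT_assoc _ _ _)
    (by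
      rw [Iso.symm_hom, Action.associator_inv_hom]
      exact (iT_assoc _ _ _).trans (congrArg (_ ≫ ·) (Action.associator_hom_hom _ _ _).symm))

/-- commutativity -/
def cmpComm (P : Pz X) (P' : Pz Y) : Cmp ((P.ten P').push (β_ X Y).hom) (P'.ten P) :=
  Cmp.ofIso (β_ P'.Q P.Q) (β_ P.K.V P'.K.V).hom (β_ P.Q' P'.Q').hom
    (by
      rw [Action.β_hom_hom, Action.β_inv_hom]
      exact eT_comm _ _)
    (by
      rw [Action.β_hom_hom]
      exact (iT_comm _ _).trans (congrArg (_ ≫ ·) (Action.β_hom_hom _ _).symm))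

/-- presentations with trivial actions -/
def Triv (P : Pz Y) : Prop := ∀ g, act P.Q g = 𝟙 _ ∧ act P.Q' g = 𝟙 _

theorem Triv.ten {P : Pz X} {P' : Pz Y} (h : P.Triv) (h' : P'.Triv) : (P.ten P').Triv := fun g =>
  ⟨(congrArg₂ (· ⊗ₘ ·) (h g).1 (h' g).1).trans (id_tensorHom_id _ _),
    (congrArg₂ (· ⊗ₘ ·) (h g).2 (h' g).2).trans (id_tensorHom_id _ _)⟩

/-- the degree -/
def dg (P : Pz Y) : ℤ := (Fintype.card P.Q'.V.El : ℤ) - Fintype.card P.Q.V.El

theorem dg_ten (P : Pz X) (P' : Pz Y) : (P.ten P').dg = P.dg + P'.dg := by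
  have h := card_tensor P.Q.V P'.Q.V
  have h' := card_tensor P.Q'.V P'.Q'.V
  change (Fintype.card (P.Q'.V ⊗ P'.Q'.V).El : ℤ) - Fintype.card (P.Q.V ⊗ P'.Q.V).El = _
  rw [dg, dg, ← h, ← h']
  push_cast
  ring

/-- presentations which are stable isomorphisms -/
def Good (D : Stab (EF O)) (P : Pz Y) : Prop := IsIso P.e ∧ IsIso ((st D).map P.i)

theorem Good.ten {D : Stab (EF O)} {P : Pz X} {P' : Pz Y} (h : P.Good D) (h' : P'.Good D) :
    (P.ten P').Good D := by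
  obtain ⟨_, _⟩ := h
  obtain ⟨_, _⟩ := h'
  refine ⟨inferInstanceAs (IsIso (eT _ _)), ?_⟩
  change IsIso ((st D).map ((P257.P.cT _ _ _ _).hom ≫ (P.i ⊗ₘ P'.i)))
  rw [Functor.map_comp, SC.st_tensorHom]
  infer_instance

theorem Good.push {D : Stab (EF O)} {P : Pz X} (h : P.Good D) (φ : X ⟶ Y)
    [IsIso ((st D).map φ.hom)] : (P.push φ).Good D := by
  obtain ⟨h, _⟩ := h
  refine ⟨h, ?_⟩
  change IsIso ((st D).map (P.i ≫ φ.hom))
  rw [Functor.map_comp]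
  infer_instance

theorem good_of_isIso (D : Stab (EF O)) (P : Pz X) [h : IsIso P.e] [IsIso P.i] : P.Good D :=
  ⟨h, inferInstance⟩

/-- the map given by an equivariant isometry -/
def lin (P : Pz Y) [IsIso P.e] [IsIso P.i] (h : Fintype.card P.Q'.V.El = Fintype.card P.Q.V.El)
    (u : Matrix (P.Q.V.El ⊕ P.Q.V.El) P.Q'.V.El ℂ) (hu : uᴴ * u = 1)
    (he : ∀ g, u * gm P.Q' g = dm P.Q g * u) : Y ⟶ (triv G).obj MUo :=
  mkHom (inv P.i ≫ ofFlat (inv P.e ≫ (cpx _).hom ≫ Th.incl' h ≫ Th.map u hu)) fun g => by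
    rw [act_triv, Category.comp_id, ← cancel_epi P.i, ← reassoc_of% P.hi, IsIso.hom_inv_id_assoc]
    apply flat_injective
    have : IsIso (Th.map (n := Fintype.card P.Q.V.El) (dm P.Q g) (dm_isom _ g)) :=
      thA_act P.Q g ▸ ⟨thA (actIso P.Q g⁻¹), by
        rw [thA_act, thA_act, Th.map_comp, Th.map_congr (dm_inv _ _) _ isom_one, Th.map_one], by
        rw [thA_act, thA_act, Th.map_comp, Th.map_congr
          (show dm P.Q g * dm P.Q g⁻¹ = 1 by simpa using dm_inv P.Q g⁻¹) _ isom_one, Th.map_one]⟩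
    rw [← cancel_mono (Th.map (dm P.Q g) (dm_isom _ g)), flat_act, flat_ofFlat, ← cancel_epi P.e,
      ← reassoc_of% P.he, Category.assoc, IsIso.hom_inv_id_assoc, IsIso.hom_inv_id_assoc,
      m2_act_cpx_assoc, ← reassoc_of% Th.incl_map h h _ _ (mul_eq_one_comm.1 (gm_isom _ _)),
      Category.assoc, Category.assoc, Th.map_comp, Th.map_comp, Th.map_congr (he g)]

theorem tm_lin (P : Pz Y) [IsIso P.e] [IsIso P.i] (h) (u) (hu) (he) :
    P.tm (P.lin h u hu he).hom = Th.incl' h ≫ Th.map u hu := by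
  rw [tm, lin, mkHom_hom, IsIso.hom_inv_id_assoc, flat_ofFlat, IsIso.hom_inv_id_assoc,
    Iso.inv_hom_id_assoc]

end Pz

/-- strict presentations of even cells -/
structure EvC (X : EF O) where
  /-- the index -/
  c : O
  /-- the real form of the complex vector space -/
  c' : O
  /-- the space -/
  K : LC
  /-- the complex structure -/
  e : V c' ⊗ V c' ≅ K ⊗ V c
  /-- the identification with a cell -/
  i : Cel c K ≅ X

variable (G) in
/-- the presentation with trivial actions -/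
@[reducible] def EvC.pz {X : EF O} (P : EvC X) : Pz ((triv G).obj X) where
  Q := (triv G).obj P.c
  Q' := (triv G).obj P.c'
  K := (triv G).obj P.K
  e := P.e.hom
  i := P.i.hom
  he _ := (congrArg (· ≫ P.e.hom) (m2_id _)).trans (id_VF _)
  hi g := by simp

theorem EvC.triv_pz {X : EF O} (P : EvC X) : (P.pz G).Triv := fun _ => ⟨rfl, rfl⟩

/-- the classes of maps from even cells are computed by the Thom class -/
def HasCls (E : ThomTheory.{v}) {C : Type u} [Category.{v'} C] [Preadditive C] [MonoidalCategory C]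
    (s : EF O ⥤ C) {cc : P257.C.Cells C ℤ} [MonObj (s.obj MUo)] {p : ℕ} {Gs : L.RegSeq p E.A}
    (Q : L.Coef cc (s.obj MUo) Gs) : Prop :=
  ∀ (c c' : O) (K : LC) (e : V c' ⊗ V c' ≅ K ⊗ V c) (P : C) (φ : s.obj (Cel c K) ≅ P)
    (x : P ⟶ s.obj MUo) (y : Cel c K ⟶ MUo) (a : E.A) (n : ℤ),
    (Fintype.card c.El : ℤ) + n = Fintype.card c'.El → φ.hom ≫ x = s.map y →
      E.map (e.hom ≫ flat y) (tauN E.o c) = a • linV E.o c' → Q.Cl n x a

end Vale.Agent.P257.Det
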