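import Vale.Agent.P257.Det.Pz

/-!
# P257, detection: the presentation of `RA ⊗ RA`

* `P1 : Pz 𝟙`, `PRR : Pz (RM ⊗ RM)` by the complex permutation representation;
* `cmpRR` : the comparison along `a ⊗ a` is the diagonal.
-/

open CategoryTheory MonoidalCategory Limits Matrix
open Functor.LaxMonoidal Functor.OplaxMonoidal

noncomputable section

namespace Vale.Agent.P257.Det

open Vale.Agent.P251.G Vale.Agent.P251.Q
open Vale.Agent.P251.G.LC (RR app smash)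
open Vale.Agent.P257.D Vale.Agent.P257.E Vale.Agent.P257.P Vale.Agent.P257.K
open Vale.Agent.P257.D.O (V)
open Vale.Agent.P257.Z (RA spl zro unt pd)
open Equiv (Perm)

section gen

variable {C : Type*} [Category C] [MonoidalCategory C] {D : Type*} [Category D]
  [MonoidalCategory D]

theorem lam_pt (F : C ⥤ D) [F.Monoidal] {L : D} {S X : C} (l : L ⊗ F.obj S ⟶ 𝟙_ D)
    (z : 𝟙_ C ⟶ X) : L ◁ F.map ((ρ_ S).inv ≫ S ◁ (λ_ _).inv ≫ S ◁ (z ⊗ₘ z)) ≫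
      L ◁ δ F S (X ⊗ X) ≫ (α_ _ _ _).inv ≫ l ▷ _ ≫ (λ_ _).hom ≫ δ F X X =
        l ≫ (λ_ _).inv ≫ ((ε F ≫ F.map z) ⊗ₘ (ε F ≫ F.map z)) := by
  have h1 : F.map ((ρ_ S).inv ≫ S ◁ (λ_ _).inv ≫ S ◁ (z ⊗ₘ z)) ≫ δ F S (X ⊗ X) =
      (ρ_ _).inv ≫ F.obj S ◁ (ε F ≫ F.map ((λ_ _).inv ≫ (z ⊗ₘ z))) := by
    rw [← MonoidalCategory.whiskerLeft_comp, F.map_comp, Category.assoc, ← δ_natural_right,
      MonoidalCategory.whiskerLeft_comp, Functor.Monoidal.map_rightUnitor_inv]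
    simp
  have h2 : (ε F ≫ F.map ((λ_ _).inv ≫ (z ⊗ₘ z))) ≫ δ F X X =
      (λ_ _).inv ≫ ((ε F ≫ F.map z) ⊗ₘ (ε F ≫ F.map z)) := by
    rw [F.map_comp, Category.assoc, Category.assoc, ← δ_natural, ← tensorHom_comp_tensorHom,
      Functor.Monoidal.map_leftUnitor_inv, tensorHom_def' (ε F)]
    simp
  rw [← MonoidalCategory.whiskerLeft_comp_assoc, h1, MonoidalCategory.whiskerLeft_comp,
    Category.assoc, associator_inv_naturality_right_assoc, whisker_exchange_assoc,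
    leftUnitor_naturality_assoc, h2, ← rightUnitor_tensor_inv_assoc,
    ← rightUnitor_inv_naturality_assoc, ← unitors_inv_equal, Iso.inv_hom_id_assoc]

end gen

variable (G : Type) [Group G]

/-- the trivial line -/
abbrev Q1 : Action O G := (triv G).obj O.pt

/-- its sphere -/
abbrev S1 : Action LC G := (sphA G).obj (Q1 G)

/-- the presentation of the unit -/
@[reducible] def P1 : Pz (𝟙_ (Action (EF O) G)) := (Pz.lam (Q1 G)).push (lamQ (𝟭 O) (Q1 G))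

theorem triv_P1 : (P1 G).Triv := fun _ => ⟨rfl, rfl⟩

theorem dg_P1 : (P1 G).dg = 0 := sub_self _

theorem tm_P1 : (P1 G).tm (MonObj.one (X := MUo)) = inN O.pt :=
  (Pz.tm_push _ _ _).trans (Pz.tm_lam (Q1 G))

theorem good_P1 (D : Stab (EF O)) [IsIso ((st D).map (EF.lamC O))] : (P1 G).Good D :=
  ⟨IsIso.id _, by
    change IsIso ((st D).map (𝟙 _ ≫ lamV (𝟭 O) O.pt))
    rw [Category.id_comp]
    exact isIso_lamV (𝟭 O) (st D) O.pt⟩

variable {G}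

theorem gm_permRep {Ω : Type} [Finite Ω] [MulAction G Ω] (g : G) (v : (O.of Ω).El → ℂ) :
    gm (permRep G Ω) g *ᵥ v = fun i => v (O.ofEquiv Ω (g⁻¹ • (O.ofEquiv Ω).symm i)) := by
  rw [gm, mt_eq (Q := permRep G Ω) rfl, cx_ofEquiv, injMat_equiv_mulVec]
  rfl

variable (ι : Type) [Finite ι] [Nonempty ι]

/-- the sphere of the reduced permutation representation -/
abbrev RO : Action (EF O) (Perm ι) := (JA (Perm ι) (EF O)).obj (RA ι)

/-- the splitting of the permutation representation -/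
def spA : (sphA (Perm ι)).obj (permRep (Perm ι) ι) ≅ RA ι ⊗ S1 (Perm ι) :=
  sphGF _ _ ≪≫ (fnGF ι).symm ≪≫ (spl ι).symm ≪≫
    whiskerLeftIso _ ((triv _).mapIso O.lineIso ≪≫ (mapATriv _ VF O.pt).symm)

/-- the complex structure -/
def eRR : (sphA (Perm ι)).obj (permRep (Perm ι) ι) ⊗ (sphA (Perm ι)).obj (permRep (Perm ι) ι) ≅
    (S1 (Perm ι) ⊗ RA ι ⊗ RA ι) ⊗ S1 (Perm ι) :=
  (spA ι ⊗ᵢ spA ι) ≪≫ whiskerRightIso (β_ _ _) _ ≪≫ (α_ _ _ _).symm ≪≫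
    whiskerRightIso (α_ _ _ _) _

/-- the map from the cell -/
def iRR : repA (𝟭 O) (Q1 (Perm ι)) ⊗ (JA _ (EF O)).obj (S1 (Perm ι) ⊗ RA ι ⊗ RA ι) ⟶
    RO ι ⊗ RO ι :=
  _ ◁ δ (JA _ (EF O)) _ _ ≫ (α_ _ _ _).inv ≫ lamQ (𝟭 O) (Q1 _) ▷ _ ≫ (λ_ _).hom ≫
    δ (JA _ (EF O)) _ _

/-- the presentation of `RA ⊗ RA` -/
@[reducible] def PRR : Pz (RO ι ⊗ RO ι) where
  Q := Q1 _
  Q' := permRep (Perm ι) ι
  K := S1 _ ⊗ RA ι ⊗ RA ι
  e := (eRR ι).hom.hom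
  i := (iRR ι).hom
  he := act_comm (eRR ι).hom
  hi := act_comm (iRR ι)

theorem good_PRR (D : Stab (EF O)) [IsIso ((st D).map (EF.lamC O))] : (PRR ι).Good D := by
  refine ⟨(Pz.isoV (eRR ι)).isIso_hom, ?_⟩
  have : IsIso ((Action.forget _ _ ⋙ st D).map (lamQ (𝟭 O) (Q1 (Perm ι)))) :=
    isIso_lamV (𝟭 O) (st D) O.pt
  change IsIso ((Action.forget _ _ ⋙ st D).map (iRR ι))
  rw [iRR, Functor.map_comp, Functor.map_comp, Functor.map_comp,
    Functor.Monoidal.map_whiskerRight]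
  infer_instance

theorem dg_PRR : (PRR ι).dg = pd ι := by
  have h : 0 < Nat.card ι := Nat.card_pos
  change (Fintype.card (Fin (Nat.card ι)) : ℤ) - Fintype.card Unit = (Nat.card ι - 1 : ℕ)
  rw [Fintype.card_fin, Fintype.card_unit]
  omega

/-- the diagonal -/
def dA : S1 (Perm ι) ⟶ (sphA (Perm ι)).obj (permRep (Perm ι) ι) :=
  (λ_ _).inv ≫ zro ι (pd ι) ▷ _ ≫ (spA ι).inv

theorem app_dA (t : O.pt.El → ℝ) :
    app (dA ι).hom (t : OnePoint _) = ((fun _ => t () : (O.of ι).El → ℝ) : OnePoint _) :=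
  congrArg OnePoint.some (funext fun _ => zero_add _)

/-- the comparison along `a ⊗ a` -/
@[reducible] def cmpRR : Pz.Cmp ((P1 (Perm ι)).push
    ((λ_ _).inv ≫ (unt ι (pd ι) (EF O) ⊗ₘ unt ι (pd ι) (EF O)))) (PRR ι) where
  B := Iso.refl _
  κ := ((ρ_ (S1 (Perm ι))).inv ≫ _ ◁ (λ_ _).inv ≫ _ ◁ (zro ι (pd ι) ⊗ₘ zro ι (pd ι))).hom
  ψ := (dA ι ⊗ₘ dA ι).hom
  hψ := act_comm (dA ι ⊗ₘ dA ι)
  he := by
    have h : (dA ι ⊗ₘ dA ι) ≫ (eRR ι).hom = ((ρ_ (S1 (Perm ι))).inv ≫ _ ◁ (λ_ _).inv ≫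
        _ ◁ (zro ι (pd ι) ⊗ₘ zro ι (pd ι))) ▷ _ := by
      rw [eRR, Iso.trans_hom, tensorIso_hom, tensorHom_comp_tensorHom_assoc, dA, Category.assoc,
        Category.assoc, Iso.inv_hom_id, Category.comp_id]
      exact Action.hom_ext _ _ (LC.tensor_ext fun _ _ => rfl)
    refine (congrArg Action.Hom.hom h).trans (Eq.trans ?_ (Category.id_comp _).symm)
    rw [Action.whiskerRight_hom, ← tensorHom_id]
    exact congrArg (_ ⊗ₘ ·) (VF.map_id _).symm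
  hi := by
    refine Eq.trans (congrArg (· ≫ _) (cm_left _)) (Eq.trans ?_ (congrArg (· ≫ _)
      (Category.id_comp _).symm))
    have h := congrArg Action.Hom.hom (lam_pt (JA (Perm ι) (EF O)) (lamQ (𝟭 O) (Q1 (Perm ι)))
      (zro ι (pd ι)))
    rw [Action.comp_hom, Action.whiskerLeft_hom] at h
    exact h

theorem app_cmpRR (z : O.pt.El → ℂ) :
    app ((cpx O.pt).inv ≫ (cmpRR ι).ψ ≫ (cpx (O.of ι)).hom) (z : OnePoint (O.pt.El → ℂ)) =
      ((fun _ => z () : (O.of ι).El → ℂ) : OnePoint ((O.of ι).El → ℂ)) :=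
  congrArg OnePoint.some (funext fun _ => Complex.ext (zero_add _) (zero_add _))

instance : Unique O.pt.El := inferInstanceAs (Unique Unit)

theorem app_cmpRR' (z : O.pt.El → ℂ) :
    app ((cpx O.pt).inv ≫ (cmpRR ι).ψ ≫ (cpx (O.of ι)).hom) (z : OnePoint (O.pt.El → ℂ)) =
      ((fun _ => z default : (O.of ι).El → ℂ) : OnePoint ((O.of ι).El → ℂ)) := app_cmpRR ι z

theorem thA_cmpRR : thA (Pz.isoV (cmpRR ι).B) = 𝟙 _ := by
  refine (thA_act (Q1 (Perm ι)) 1).trans ((Th.map_congr ?_ _ isom_one).trans Th.map_one)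
  rw [dm, gm_one, fromBlocks_one]

end Vale.Agent.P257.Det
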