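import Vale.Agent.P257.Det.Pz
import Vale.Agent.P257.Det.Beta

/-!
# P257, detection: the Borel class of an equivariant map to `MU`

For a presentation `P : Pz Y`, an element `g` with `g ^ p = 1` and `f : Y ⟶ triv MUo`, the class
`P.val o L g f : U B`; it is homotopy invariant, additive and multiplicative.
-/

set_option linter.unusedSectionVars false

open CategoryTheory MonoidalCategory Limits Matrix OnePoint
open Functor.LaxMonoidal

universe v

noncomputable section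

namespace Vale.Agent.P257.Det

open Vale.Agent.P251.H.StabInput (MHtpy inc I)
open Vale.Agent.P251.G Vale.Agent.P251.Q Vale.Agent.P251.Q.MultTheory
open Vale.Agent.P251.G.LC (RR II app smash cat point)
open Vale.Agent.P257.D Vale.Agent.P257.E Vale.Agent.P257.P Vale.Agent.P257.K
open Vale.Agent.P257.D.O (V)

variable {G : Type} [Group G]

variable (G) in
/-- the multiplication of `MU` with the trivial action -/
def mulT : (triv G).obj MUo ⊗ (triv G).obj MUo ⟶ (triv G).obj MUo :=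
  μ (triv G) MUo MUo ≫ (triv G).map MonObj.mul

variable (G) in
/-- the unit of `MU` with the trivial action -/
def oneT : 𝟙_ (Action (EF O) G) ⟶ (triv G).obj MUo := ε (triv G) ≫ (triv G).map MonObj.one

@[simp] theorem mulT_hom : (mulT G).hom = MonObj.mul := Category.id_comp _

@[simp] theorem oneT_hom : (oneT G).hom = MonObj.one := Category.id_comp _

theorem tt_comp_eq_mul {X Y : Action (EF O) G} (a : X ⟶ 𝟙_ _) (f : Y ⟶ (triv G).obj MUo) :
    tt a Y ≫ f = ((a ≫ oneT G) ⊗ₘ f) ≫ mulT G := by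
  refine Action.hom_ext _ _ ?_
  rw [Action.comp_hom, tt_hom, Action.comp_hom, Action.tensorHom_hom, Action.comp_hom, mulT_hom,
    oneT_hom, tt, tensorHom_def', comp_whiskerRight, Category.assoc, Category.assoc, Category.assoc]
  erw [MonObj.one_mul]
  rw [whisker_exchange_assoc]
  erw [leftUnitor_naturality]

theorem gm_comm {P Q : Action O G} (A : P ≅ Q) (g : G) :
    cx (O.isoOH (Pz.isoV A).hom).A * gm P g = gm Q g * cx (O.isoOH (Pz.isoV A).hom).A := by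
  have h : (O.isoOH (act P g)).comp (O.isoOH (Pz.isoV A).hom) =
      (O.isoOH (Pz.isoV A).hom).comp (O.isoOH (act Q g)) := by
    apply O.mk_injective
    rw [← O.mk_comp, ← O.mk_comp, O.mk_isoOH, O.mk_isoOH, O.mk_isoOH]
    exact act_comm A.hom g
  have h2 := congrArg (fun x => cx (OH.A x)) h
  simp only [OH.comp_A, cx_mul] at h2
  exact h2

theorem dm_comm {P Q : Action O G} (A : P ≅ Q) (g : G) :
    fA (O.isoOH (Pz.isoV A).hom) * dm P g = dm Q g * fA (O.isoOH (Pz.isoV A).hom) := by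
  rw [fA, dm, dm, fromBlocks_multiply, fromBlocks_multiply, gm_comm]
  simp

/-- the shuffle matrix -/
def shM (a b : O) : Matrix ((a ⊗ b).El ⊕ (a ⊗ b).El) ((a.El ⊕ a.El) ⊕ (b.El ⊕ b.El)) ℂ :=
  injMat (shf a.El b.El).symm

theorem shM_isom (a b : O) : (shM a b)ᴴ * shM a b = 1 :=
  injMat_isom (shf a.El b.El).symm.injective

theorem dm_tensor (P Q : Action O G) (g : G) :
    shM P.V Q.V * fromBlocks (dm P g) 0 0 (dm Q g) = dm (P ⊗ Q) g * shM P.V Q.V := by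
  have h : dm (P ⊗ Q) g = (fromBlocks (dm P g) 0 0 (dm Q g)).submatrix (shf P.V.El Q.V.El)
      (shf P.V.El Q.V.El) := by
    rw [dm, gm_tensor]
    ext ((i | i) | (i | i)) ((j | j) | (j | j)) <;> rfl
  have h2 := injMat_equiv_conj (shf P.V.El Q.V.El).symm (fromBlocks (dm P g) 0 0 (dm Q g))
  rw [Equiv.symm_symm] at h2
  refine Eq.trans ?_ (congrArg (· * shM P.V Q.V) (h2.trans h.symm))
  exact (Matrix.mul_one _).symm.trans ((congrArg _ (shM_isom P.V Q.V).symm).trans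
    (Matrix.mul_assoc _ _ _).symm)

/-- the linear inclusion -/
def li (a : O) : Cpow a.El ⟶ LC.of (Th (Fintype.card a.El) a.El) := Th.incl' rfl

/-- the direct sum -/
def su (a b : O) : LC.of (Th (Fintype.card a.El) a.El) ⊗ LC.of (Th (Fintype.card b.El) b.El) ⟶
    LC.of (Th (Fintype.card (a ⊗ b).El) (a ⊗ b).El) := Th.sum (card_tensor a b)

theorem cpx_whiskerLeft (a : O) {b b' : O} (ψ : V b ⊗ V b ⟶ V b' ⊗ V b') :
    ((cpx (a ⊗ b)).inv ≫ ((sh2 a b).hom ≫ _ ◁ ψ ≫ (sh2 a b').inv) ≫ (cpx (a ⊗ b')).hom) ≫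
      li (a ⊗ b') = (cs a b).inv ≫ (li a ⊗ₘ (((cpx b).inv ≫ ψ ≫ (cpx b').hom) ≫ li b')) ≫
        su a b' := by
  have h2 : (sh2 a b').inv ≫ (cpx (a ⊗ b')).hom =
      ((cpx a).hom ⊗ₘ (cpx b').hom) ≫ (cs a b').hom := by
    rw [Iso.inv_comp_eq, ← cancel_epi (cpx _).inv]
    simp [cpx_sh2_assoc]
  have h3 : (cs a b').hom ≫ li (a ⊗ b') = (li a ⊗ₘ li b') ≫ su a b' :=
    (Th.incl_sum rfl rfl rfl _).symm
  simp only [Category.assoc]
  rw [reassoc_of% h2, h3, cpx_sh2_assoc, ← id_tensorHom]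
  rw [tensorHom_comp_tensorHom_assoc, tensorHom_comp_tensorHom_assoc,
    tensorHom_comp_tensorHom_assoc]
  simp only [Category.assoc, Category.id_comp, Iso.inv_hom_id_assoc]

@[reassoc]
theorem shI_nat {K K' Z Z' : LC} (f : K ⟶ K') (h : Z ⟶ Z') :
    (f ⊗ₘ h) ▷ II ≫ (shI _ _).hom = (shI _ _).hom ≫ ((f ▷ II) ⊗ₘ h) := by
  simp only [shI, Iso.trans_hom, whiskerLeftIso_hom, Iso.symm_hom, Category.assoc]
  rw [← tensorHom_id, associator_naturality_assoc, ← id_tensorHom,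
    tensorHom_comp_tensorHom_assoc, BraidedCategory.braiding_naturality, ← tensorHom_id,
    ← associator_inv_naturality, ← id_tensorHom, tensorHom_comp_tensorHom_assoc, Category.id_comp,
    Category.comp_id]

/-- the cylinder on a cell -/
def cI' (c : O) (K : LC) : Cel c (K ⊗ II) ⟶ Cel c K ⊗ I (EF O) := (cI c K).hom

@[reassoc]
theorem cm_incl' (c : O) (K : LC) (t : unitInterval) :
    cm (𝟙 c) (LC.incl t K) ≫ cI' c K = inc t (Cel c K) := cm_incl c K t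

@[reassoc]
theorem cm_cI' {c c' : O} {K K' : LC} (A : c ⟶ c') (f : K' ⟶ K) :
    cm A (f ▷ II) ≫ cI' c K = cI' c' K' ≫ cm A f ▷ I (EF O) := by
  change _ ≫ (cI c K).hom = (cI c' K').hom ≫ cm A f ▷ (EF.jC O).obj II
  simp only [cI, cm, Iso.trans_hom, whiskerLeftIso_hom, Iso.symm_hom,
    Functor.Monoidal.μIso_inv, Category.assoc]
  rw [← tensorHom_id (_ ⊗ₘ _), ← associator_inv_naturality, ← id_tensorHom,
    tensorHom_comp_tensorHom_assoc, ← id_tensorHom, tensorHom_comp_tensorHom_assoc, tensorHom_id,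
    Functor.OplaxMonoidal.δ_natural_left, Category.id_comp, Category.comp_id]

variable (G) in
/-- spaces with the trivial action -/
abbrev JG : LC ⥤ Action (EF O) G := P251.H.StabInput.J (Action (EF O) G)

section ord

variable {p : ℕ} {g : G} (hg : g ^ p = 1)
include hg

theorem isU_gm (Q : Action O G) : IsU p (gm Q g) := ⟨gm_isom Q g, by rw [gm_pow, hg, gm_one]⟩

theorem isU_dm (Q : Action O G) : IsU p (dm Q g) := (isU_gm hg Q).sum (isU_gm hg Q)

theorem Pz.eq_tm {Y : Action (EF O) G} (P : Pz Y) {y : Y.V ⟶ MUo} (hy : act Y g ≫ y = y) :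
    EQ p (gm P.Q' g) (dm P.Q g) (P.tm y) :=
  ⟨isU_gm hg _, isU_dm hg _, Eqv.of_comm (s := Th.cmap _ (gm_isom _ g))
    (s' := Th.map _ (dm_isom _ g)) (fun _ => rfl) (fun _ => rfl) (by rw [P.cmap_tm, hy])⟩

theorem Pz.eq {Y : Action (EF O) G} (P : Pz Y) (f : Y ⟶ (triv G).obj MUo) :
    EQ p (gm P.Q' g) (dm P.Q g) (P.tm f.hom) :=
  P.eq_tm hg ((act_comm f g).trans (Category.comp_id _))

end ord

theorem eqv_cpx {Q Q' : Action O G} {g : G} {ψ : V Q.V ⊗ V Q.V ⟶ V Q'.V ⊗ V Q'.V}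
    (h : m2 (act Q g) ≫ ψ = ψ ≫ m2 (act Q' g)) :
    Eqv (Z := Cpow Q.V.El) (Z' := Cpow Q'.V.El) (fun v => gm Q g *ᵥ v) (fun v => gm Q' g *ᵥ v)
      ((cpx Q.V).inv ≫ ψ ≫ (cpx Q'.V).hom) :=
  Eqv.of_comm (s := Th.cmap _ (gm_isom Q g)) (s' := Th.cmap _ (gm_isom Q' g)) (fun _ => rfl)
    (fun _ => rfl) (by
      rw [← cancel_epi (cpx Q.V).hom, ← m2_act_cpx_assoc, Iso.hom_inv_id_assoc, reassoc_of% h,
        m2_act_cpx, Category.assoc, Category.assoc, Iso.hom_inv_id_assoc])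

variable {E : MultTheory.{v}} (o : Orientation E) {B : LC} [CompactSpace B] [GoodBase E B] {r : ℕ}
  (L : CycF B r)

theorem beta_thM {n n' : ℕ} {T I' W : Type} [Fintype T] [Fintype I'] [Fintype W] [DecidableEq T]
    [DecidableEq I'] [DecidableEq W] {γ : Matrix W W ℂ} {δ : Matrix T T ℂ} {δ' : Matrix I' I' ℂ}
    {f : Cpow W ⟶ LC.of (Th n T)} (hf : EQ (r + 1) γ δ f) (hδ' : IsU (r + 1) δ') (hn : n = n')
    (u : Matrix I' T ℂ) (hu : uᴴ * u = 1) (h : u * δ = δ' * u) :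
    beta o L γ δ' (f ≫ thM hn u hu) = beta o L γ δ f := by
  subst hn
  rw [thM_rfl, beta_map o L hf hδ' u hu h]

/-- the class of an equivariant map of complex representation spheres -/
def dgr (g : G) (Q Q' : Action O G) (ψ : V Q.V ⊗ V Q.V ⟶ V Q'.V ⊗ V Q'.V) : E.U B :=
  beta o L (gm Q g) (gm Q' g) (((cpx Q.V).inv ≫ ψ ≫ (cpx Q'.V).hom) ≫ li Q'.V)

/-- **the Borel class** -/
def Pz.val {Y : Action (EF O) G} (P : Pz Y) (g : G) (f : Y ⟶ (triv G).obj MUo) : E.U B :=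
  beta o L (gm P.Q' g) (dm P.Q g) (P.tm f.hom)

variable {X Y Z : Action (EF O) G}

theorem Pz.val_push (P : Pz X) (φ : X ⟶ Y) (g : G) (f : Y ⟶ (triv G).obj MUo) :
    (P.push φ).val o L g f = P.val o L g (φ ≫ f) := by
  rw [Pz.val, Pz.val, Pz.tm_push]
  rfl

theorem Pz.val_triv {P : Pz Y} (h : P.Triv) (g : G) {f : Y ⟶ (triv G).obj MUo} {x : E.A}
    (hx : E.map (P.tm f.hom) (tauN o _) = x • o.lin _) :
    P.val o L g f = algebraMap E.A (E.U B) x := by
  rw [Pz.val, dm, gm_of_triv (h g).1, gm_of_triv (h g).2, fromBlocks_one]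
  exact beta_const o L _ hx

variable {g : G} (hg : g ^ (r + 1) = 1)
include hg

theorem dgr_iso {Q Q' : Action O G} (A : Q ≅ Q') : dgr o L g Q Q' (m2 A.hom.hom) = 1 := by
  have h1 : A.hom.hom = mkL (O.isoOH (Pz.isoV A).hom).A (OH.transpose_mul_self _) :=
    (O.mk_isoOH (Pz.isoV A).hom).symm.trans (congrArg O.mk (OH.ext rfl (O.isoOH_w _)))
  rw [dgr, m2_cpx h1 (cx_isom _), Iso.inv_hom_id_assoc, li,
    beta_cmap o L (EQ.lin (isU_gm hg Q') rfl) (isU_gm hg Q) _ _ (gm_comm A g)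
      (card_of_iso (Pz.isoV A)) (by rw [cx_conjTranspose, ← cx_mul, isoOH_mul_transpose, cx_one]),
    beta_lin o L (isU_gm hg Q')]

theorem dgr_tensor (R : Action O G) {Q Q' : Action O G} {ψ : V Q.V ⊗ V Q.V ⟶ V Q'.V ⊗ V Q'.V}
    (h : m2 (act Q g) ≫ ψ = ψ ≫ m2 (act Q' g)) :
    dgr o L g (R ⊗ Q) (R ⊗ Q') ((sh2 R.V Q.V).hom ≫ _ ◁ ψ ≫ (sh2 R.V Q'.V).inv) =
      dgr o L g Q Q' ψ := by
  have h1 := beta_sum o L (card_tensor R.V Q'.V) (EQ.lin (isU_gm hg R) rfl)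
    ((EQ.lin (isU_gm hg Q') rfl).comp (isU_gm hg Q) (eqv_cpx h))
  rw [beta_lin o L (isU_gm hg R), one_mul] at h1
  refine (congrArg (beta o L _ _) (cpx_whiskerLeft R.V ψ)).trans ?_
  exact (congrArg₂ (fun a b => beta o L a b _) (gm_tensor R Q g) (gm_tensor R Q' g)).trans h1

namespace Pz

theorem val_cmp {P P' : Pz Y} (C : Cmp P P') (f : Y ⟶ (triv G).obj MUo) :
    P.val o L g f = dgr o L g P.Q' P'.Q' C.ψ * P'.val o L g f := by
  have h := ((P'.eq hg f).comp (isU_gm hg P.Q') (eqv_cpx (C.hψ g)))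
  rw [val, C.tm, ← Category.assoc, thA, beta_thM o L h (isU_dm hg _) _ _ _ (dm_comm C.B g),
    beta_comp o L (P'.eq hg f) (isU_gm hg P.Q') (eqv_cpx (C.hψ g)) rfl]
  rfl

theorem val_ten (P : Pz X) (P' : Pz Y) (f : X ⟶ (triv G).obj MUo) (f' : Y ⟶ (triv G).obj MUo) :
    (P.ten P').val o L g ((f ⊗ₘ f') ≫ mulT G) = P.val o L g f * P'.val o L g f' := by
  have h := beta_map o L (EQ.sum (card_tensor _ _) (P.eq hg f) (P'.eq hg f'))
    (isU_dm hg (P.Q ⊗ P'.Q)) _ (shM_isom _ _) (dm_tensor P.Q P'.Q g)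
  rw [beta_sum o L _ (P.eq hg f) (P'.eq hg f')] at h
  rw [val, Action.comp_hom, Action.tensorHom_hom, mulT_hom]
  refine Eq.trans ?_ h
  exact congrArg₂ (fun a b => beta o L a (dm (P.Q ⊗ P'.Q) g) b) (gm_tensor P.Q' P'.Q' g)
    ((tm_ten P P' f.hom f'.hom).trans (by rw [thSum]; rfl))

theorem val_lin (P : Pz Y) {f : Y ⟶ (triv G).obj MUo}
    (h : Fintype.card P.Q'.V.El = Fintype.card P.Q.V.El)
    (u : Matrix (P.Q.V.El ⊕ P.Q.V.El) P.Q'.V.El ℂ) (hu : uᴴ * u = 1)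
    (he : u * gm P.Q' g = dm P.Q g * u) (hf : P.tm f.hom = Th.incl' h ≫ Th.map u hu) :
    P.val o L g f = 1 := by
  rw [val, hf, beta_map o L (EQ.lin (isU_gm hg _) h) (isU_dm hg _) u hu he,
    beta_lin o L (isU_gm hg _)]

theorem val_lam (Q : Action O G) : (lam Q).val o L g (lamQ (𝟭 O) Q ≫ oneT G) = 1 := by
  refine val_lin o L hg (lam Q) rfl (injMat Sum.inl) (injMat_isom Sum.inl_injective) ?_ ?_
  · change injMat Sum.inl * gm Q g = dm Q g * injMat Sum.inl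
    ext (i | i) j <;> simp [dm, Matrix.mul_apply, injMat_apply]
  · rw [Action.comp_hom, oneT_hom]
    exact tm_lam Q

theorem val_pt (P : Pz Y) (f : Y ⟶ (triv G).obj MUo) (b : B) :
    E.toA (E.map (point b) (P.val o L g f)) • o.lin _ = E.map (P.tm f.hom) (tauN o _) :=
  beta_pt o L (P.eq hg f) b

theorem val_htpy (P : Pz Y) {f f' : Y ⟶ (triv G).obj MUo} (h : MHtpy f f') :
    P.val o L g f = P.val o L g f' := by
  obtain ⟨H, hH, h0, h1⟩ := (mHtpy_iff _ _).1 h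
  let y : Cel P.Q.V (P.K.V ⊗ II) ⟶ MUo := cI' _ _ ≫ P.i ▷ _ ≫ H
  have k : ∀ t, LC.incl t _ ≫ ((cpx P.Q'.V).inv ≫ P.e) ▷ II ≫ (shI _ _).hom ≫ flat y =
      P.tm (inc t Y.V ≫ H) := fun t => by
    rw [← Category.assoc, LC.incl_naturality, Category.assoc, reassoc_of% incl_shI, ← flat_cm_left,
      cm_incl'_assoc, P251.H.StabInput.inc_naturality_assoc, Category.assoc]
    rfl
  refine beta_homotopic o L (P.eq hg f) (P.eq hg f') _ ?_ ((k 0).trans (by rw [h0]))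
    ((k 1).trans (by rw [h1]))
  refine Eqv.of_comm (s := Th.cmap _ (gm_isom _ g) ▷ II) (s' := Th.map _ (dm_isom _ g))
    (fun _ => rfl) (fun _ => rfl) ?_
  have k1 : cm (act P.Q g⁻¹) (act P.K g ▷ II) ≫ y = y := by
    rw [cm_cI'_assoc, ← comp_whiskerRight_assoc, P.hi, comp_whiskerRight_assoc]
    exact congrArg (fun x => cI' _ _ ≫ P.i ▷ _ ≫ x) ((hH g).trans (Category.comp_id _))
  have k3 : Th.cmap _ (gm_isom _ g) ≫ (cpx P.Q'.V).inv ≫ P.e =
      ((cpx P.Q'.V).inv ≫ P.e) ≫ (act P.K g ⊗ₘ VF.map (act P.Q g)) := by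
    rw [Category.assoc, ← P.he, ← cancel_epi (cpx P.Q'.V).hom, ← m2_act_cpx_assoc,
      Iso.hom_inv_id_assoc, Iso.hom_inv_id_assoc]
  have k4 := flat_act g (act P.K g ▷ II) y
  rw [k1] at k4
  rw [Category.assoc, Category.assoc, k4, ← comp_whiskerRight_assoc, k3, comp_whiskerRight_assoc]
  exact congrArg (_ ≫ ·) (shI_nat_assoc _ _ _)

theorem val_cat {K : LC} (P : Pz (X ⊗ (JG G).obj RR))
    (u w : RR ⟶ K) (φ : X ⊗ (JG G).obj K ⟶ (triv G).obj MUo) :
    P.val o L g (X ◁ (JG G).map (cat u w) ≫ φ) =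
      P.val o L g (X ◁ (JG G).map (cat u 0) ≫ φ) + P.val o L g (X ◁ (JG G).map (cat 0 w) ≫ φ) := by
  have key : ∀ x, ∃ (F : OnePoint K → OnePoint (NT P.Q.V)) (t : OnePoint ℝ), F ∞ = ∞ ∧
      ∀ s : RR ⟶ K, app (P.tm (X ◁ (JG G).map s ≫ φ).hom) x = F (app s t) := by
    intro x
    obtain ⟨⟨k, t⟩, h⟩ := P251.H.Sp0.smash_surjective (X := P.K.V) (Y := V P.Q.V)
      (app ((cpx P.Q'.V).inv ≫ P.e) x)
    obtain ⟨a, b, c, z, z', hz⟩ := EF.exists_tm (X := X.V) (Y := (EF.jC O).obj RR)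
      (EF.fn P.i (gp _ k))
    obtain ⟨l, d, rfl⟩ := EF.jm_surjective z'
    refine ⟨fun m => ev (EF.fn φ.hom ((X.V ⊗ (EF.jC O).obj K).act c (EF.tm z (EF.jm m d)))) t, l,
      ?_, fun s => ?_⟩
    · change ev (EF.fn φ.hom ((X.V ⊗ (EF.jC O).obj K).act c (EF.tm z (EF.jm ∞ d)))) t = ∞
      rw [EF.jm_infty_left, EF.tm_infty_right, EF.act_infty, EF.fn_infty, ev_infty_left]
    · rw [tm, ← Category.assoc, LC.app_comp, ← h]
      refine (app_flat _ k t).trans ?_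
      rw [Action.comp_hom, Action.whiskerLeft_hom, EF.fn_comp, EF.fn_comp, hz]
      refine congrArg (fun x => ev (EF.fn φ.hom x) t) ((EF.fn_act _ _ _).trans (congrArg _ ?_))
      exact (EF.whiskerLeft_tm _ _ _ _).trans (congrArg _ (EF.fn_jC_map _ _ _))
  have hc : ∀ t : OnePoint ℝ, (app (cat u 0) t = ∞ ∧ app (cat u w) t = app (cat 0 w) t) ∨
      (app (cat 0 w) t = ∞ ∧ app (cat u w) t = app (cat u 0) t) := fun t => by
    induction t using OnePoint.rec with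
    | infty => exact .inl ⟨LC.app_infty _, (LC.app_infty _).trans (LC.app_infty _).symm⟩
    | coe t =>
      simp only [cat, LC.app_ofLoop_coe, Path.trans_apply]
      split_ifs
      exacts [.inr ⟨rfl, rfl⟩, .inl ⟨rfl, rfl⟩]
  refine beta_add o L (P.eq hg _) (P.eq hg _) (P.eq hg _) (fun x => ?_) (fun x => ?_) fun x => ?_
  all_goals
    obtain ⟨F, t, h0, h⟩ := key x
    simp only [h]
    rcases hc t with ⟨h1, h2⟩ | ⟨h1, h2⟩
  · exact .inl (by rw [h1, h0])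
  · exact .inr (by rw [h1, h0])
  · exact fun k => by rw [h2, k, h1, h0]
  · exact fun _ => by rw [h2]
  · exact fun _ => by rw [h2]
  · exact fun k => by rw [h2, k, h1, h0]

end Pz

end Vale.Agent.P257.Det
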