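import Vale.Agent.P257.Det.RR
import Vale.Agent.P257.Det.Val
import Vale.Agent.P257.Det.BetaL
import Vale.Agent.P257.W.Eu

/-!
# P257, detection: the Borel class of `a ⊗ a` is `w`
-/

open CategoryTheory MonoidalCategory Limits Matrix

universe v

noncomputable section

namespace Vale.Agent.P257.Det

open Vale.Agent.P251.G Vale.Agent.P251.Q Vale.Agent.P251.Q.MultTheory
open Vale.Agent.P257.D Vale.Agent.P257.E Vale.Agent.P257.P Vale.Agent.P257.K
open Vale.Agent.P257.Z (unt pd)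
open Vale.Agent.P257.W (am)
open Equiv (Perm)

section gen

variable {G : Type} [Group G] {X : Action (EF O) G}

theorem rightUnitor_comp (f : X ⟶ (triv G).obj MUo) :
    (ρ_ X).hom ≫ f = (f ⊗ₘ oneT G) ≫ mulT G := by
  refine Action.hom_ext _ _ ?_
  rw [Action.comp_hom, Action.comp_hom, Action.tensorHom_hom, mulT_hom, oneT_hom,
    Action.rightUnitor_hom_hom, MonoidalCategory.tensorHom_def, Category.assoc]
  exact (rightUnitor_naturality f.hom).symm.trans (congrArg (_ ≫ ·) (MonObj.mul_one MUo).symm)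

theorem am_am {H : Type*} [Category H] [MonoidalCategory H] {R : H} (a : 𝟙_ H ⟶ R) (W : H) :
    am a W ≫ am a (W ⊗ R) = (ρ_ W).inv ≫ W ◁ ((λ_ _).inv ≫ (a ⊗ₘ a)) ≫ (α_ _ _ _).inv := by
  rw [am, am, MonoidalCategory.tensorHom_def, unitors_inv_equal, ← rightUnitor_inv_naturality_assoc]
  simp

variable {E : MultTheory.{v}} (o : Orientation E) {B : LC} [CompactSpace B] [GoodBase E B] {r : ℕ}
  (L : CycF B r) {g : G} (hg : g ^ (r + 1) = 1)
include hg

theorem val_P1 : (P1 G).val o L g (oneT G) = 1 :=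
  (Pz.val_push o L _ _ _ _).trans (Pz.val_lam o L hg _)

theorem val_ten_P1 (R : Pz X) (f : X ⟶ (triv G).obj MUo) :
    (R.ten (P1 G)).val o L g ((ρ_ X).hom ≫ f) = R.val o L g f := by
  rw [rightUnitor_comp, Pz.val_ten o L hg, val_P1 o L hg, mul_one]

end gen

variable (E : ThomTheory.{v}) (r k : ℕ)

theorem dgr_cmpRR : dgr E.o (lensCyc r k) (cyc r) (Q1 _) (permRep _ (Fin (r + 1)))
    (cmpRR (Fin (r + 1))).ψ = wk E.o r k := by
  rw [dgr, gm_of_triv (Q := Q1 _) rfl]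
  exact beta_diag E r k (O.ofEquiv (Fin (r + 1))).symm (gm_permRep (cyc r)) _ (app_cmpRR' _) rfl

variable {X : Action (EF O) (Perm (Fin (r + 1)))}

/-- the presentation of `(X ⊗ RA) ⊗ RA` -/
@[reducible] def Pz.rr {ι : Type} [Finite ι] [Nonempty ι] {X : Action (EF O) (Perm ι)} (R : Pz X) :
    Pz ((X ⊗ RO ι) ⊗ RO ι) := (R.ten (PRR ι)).push (α_ _ _ _).inv

theorem Pz.Good.rr {ι : Type} [Finite ι] [Nonempty ι] {X : Action (EF O) (Perm ι)} {R : Pz X}
    {D : Stab (EF O)} [IsIso ((st D).map (EF.lamC O))] (h : R.Good D) : R.rr.Good D :=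
  have : IsIso (α_ X (RO ι) (RO ι)).inv.hom := (Pz.isoV (α_ _ _ _)).isIso_inv
  (h.ten (good_PRR ι D)).push _

theorem Pz.dg_rr {ι : Type} [Finite ι] [Nonempty ι] {X : Action (EF O) (Perm ι)} (R : Pz X) :
    R.rr.dg = R.dg + pd ι := (R.dg_ten (PRR ι)).trans (by rw [dg_PRR])

/-- **The `a`-lemma.** -/
theorem val_am_am (R : Pz X)
    (f : (X ⊗ RO (Fin (r + 1))) ⊗ RO (Fin (r + 1)) ⟶ (triv _).obj MUo) :
    R.val E.o (lensCyc r k) (cyc r) (am (unt _ (pd _) (EF O)) X ≫ am (unt _ (pd _) (EF O)) _ ≫ f) =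
      wk E.o r k * R.rr.val E.o (lensCyc r k) (cyc r) f := by
  have h := Pz.val_cmp E.o (lensCyc r k) (cyc_pow r) ((cmpRR (Fin (r + 1))).ten R)
    ((α_ _ _ _).inv ≫ f)
  replace h := h.trans (congrArg (· * _)
    ((dgr_tensor E.o _ (cyc_pow r) R.Q' ((cmpRR _).hψ _)).trans (dgr_cmpRR E r k)))
  rw [Pz.ten_push, Pz.val_push] at h
  rw [← val_ten_P1 E.o _ (cyc_pow r), reassoc_of% am_am, Iso.hom_inv_id_assoc, h, Pz.val_push]

end Vale.Agent.P257.Det
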