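import Vale.Agent.P257.Det.Defs
import Vale.Agent.P251.M.MU
import Vale.Agent.P251.M.MUSus
import Vale.Agent.P251.M.MUEvenSeq

/-!
# P257, detection: stable uniqueness of representing maps for `MU`

* `repRel_MU` : a relation `h^* τ = f^* τ + g^* τ` between Thom classes of the theory of the
  sequence of `MU` holds for the suspension spectra of the stabilised maps;
* `repUniq_MU` : two maps with the same Thom class are homotopic after a stabilisation.
-/

open CategoryTheory MonoidalCategory Limits Pretriangulated Matrix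
open Vale.Agent.P251.G Vale.Agent.P251.G.LC Vale.Agent.P251.I Vale.Agent.P251.T
open Vale.Agent.P251.M Vale.Agent.P251.Q
open Functor.OplaxMonoidal Functor.LaxMonoidal

universe v u

set_option linter.unusedSectionVars false

noncomputable section

namespace Vale.Agent.P257.Det

namespace RepT

/-! ### Abstract Thom systems -/

section sys

variable {T : Type u} [Category.{v} T] [MonoidalCategory T] [SymmetricCategory T]

theorem sus_cancel {A₁ L A₃ A B B' : T} [IsInv A₃] (κ : 𝟙_ T ≅ A₁ ⊗ L) (mu : A₁ ⊗ 𝟙_ T ≅ A₃)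
    (g : L ⊗ B ⟶ B') (φ ψ : A ⟶ B)
    (e : φ ≫ (λ_ B).inv ≫ (susIso κ mu B).hom ≫ (A₃ ◁ g) =
      ψ ≫ (λ_ B).inv ≫ (susIso κ mu B).hom ≫ (A₃ ◁ g)) :
    (L ◁ φ) ≫ g = (L ◁ ψ) ≫ g := by
  rw [leftUnitor_inv_naturality_assoc, leftUnitor_inv_naturality_assoc, susIso_natural_assoc,
    susIso_natural_assoc, cancel_epi, cancel_epi, ← MonoidalCategory.whiskerLeft_comp,
    ← MonoidalCategory.whiskerLeft_comp] at e
  exact whiskerLeft_inj A₃ e

open ThomSys in
/-- Two maps which agree after the comparison map `θ` agree after a stabilisation. -/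
theorem stab_of_theta (R : ThomSys T) {A : T} {n a k : ℕ} (hk : n + k = a) (h : n ≤ a)
    (hm : ((k, k) + (n, a + n) : ℕ × ℕ) = (a, a + a)) (φ ψ : A ⟶ R.t.X (n, a + n))
    (e : φ ≫ R.θ h le_rfl = ψ ≫ R.θ h le_rfl) :
    (R.E.S k ◁ φ) ≫ (R.b k ▷ R.t.X (n, a + n)) ≫ R.t.mul hm =
      (R.E.S k ◁ ψ) ≫ (R.b k ▷ R.t.X (n, a + n)) ≫ R.t.mul hm := by
  have hU : degU k + ((0 : ℤ), (n, a + n)) = pt n a := by
    rw [degU_apply]
    simp only [pt, Prod.mk_add_mk, Prod.mk.injEq]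
    omega
  have hUZ : degUZ (k, 0) + ((0 : ℤ), (n, a + n)) = pt n a := by
    rw [degUZ_apply]
    simp only [pt, Prod.mk_add_mk, Prod.mk.injEq]
    omega
  have e1 : R.θ h (le_refl (a + n)) ≫ R.rf n a = R.j0 (n, a + n) ≫ R.uP.tr k hU := by
    rw [R.θ_rf, R.uz.tr_congr (l := (k, 0)) (by rw [Prod.mk.injEq]; omega) _ hUZ,
      R.uz_tr_zero' hU hUZ]
  have e2 : φ ≫ R.j0 (n, a + n) ≫ R.uP.tr k hU = ψ ≫ R.j0 (n, a + n) ≫ R.uP.tr k hU := by
    rw [← e1, ← Category.assoc, e, Category.assoc]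
  have e3 := R.act_uP k hU
  rw [R.j0_eq] at e2
  have e4 : R.uP.tr k hU = R.P.act (R.uP.e k) hU := rfl
  rw [e4, e3] at e2
  exact sus_cancel (A₃ := R.E.S (pt n a).1) (R.kap k)
    (R.E.mu (-(k : ℤ)) 0 (pt n a).1 (congrArg Prod.fst hU))
    ((R.b k ▷ R.t.X (n, a + n)) ≫ R.t.mul hm) φ ψ e2

theorem swap_aux {A B B' C S D X : T} (φ : A ⟶ B) (j : B ⟶ B') (ρ : C ⟶ S) (b : S ⟶ D)
    (m : D ⊗ B' ⟶ X) :
    (φ ▷ C) ≫ (B ◁ (ρ ≫ b)) ≫ (β_ B D).hom ≫ (D ◁ j) ≫ m =
      (β_ A C).hom ≫ (ρ ▷ A) ≫ (S ◁ (φ ≫ j)) ≫ (b ▷ B') ≫ m := by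
  rw [BraidedCategory.braiding_naturality_right_assoc,
    BraidedCategory.braiding_naturality_left_assoc, comp_whiskerRight,
    MonoidalCategory.whiskerLeft_comp]
  simp only [Category.assoc, whisker_exchange_assoc]

end sys

variable {T : Type u} [Category.{v} T] [Preadditive T] [HasZeroObject T]
    [HasShift T ℤ] [∀ n : ℤ, (shiftFunctor T n).Additive] [Pretriangulated T]
    [MonoidalCategory T] [SymmetricCategory T] [TensorTriangulated T]

variable (F : SpaceFunctor T) (E : EvenSpheres T) (e : F.S.obj CCF ≅ E.L)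

/-- `ℂ^b` as a finite cell space -/
abbrev CpF (b : ℕ) : FCat := ⟨Cpow (Fin b), fcCpow b⟩

/-- the bottom cell -/
def inclT (b : ℕ) : F.S.obj (CpF b) ⟶ TO F.S b (Fin b) :=
  F.S.map (FCat.hom (X := CpF b) (Y := ThF b (Fin b)) (Th.incl' (Fintype.card_fin b)))

variable {n : ℕ} {I : Type} [Fintype I] [DecidableEq I]

/-- the stabilisation in `T` -/
def stT (n b K : ℕ) (hc : Fintype.card I + Fintype.card (Fin b) ≤ Fintype.card (Fin K)) :
    TO F.S n I ⊗ F.S.obj (CpF b) ⟶ TO F.S (n + b) (Fin K) :=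
  (TO F.S n I ◁ inclT F b) ≫ TO.mul F.S rfl hc

theorem wI_eq_cls {a : ℕ} (h : n ≤ a) (hc : Fintype.card I ≤ Fintype.card (Fin (a + n))) :
    (famMU F E e).wI n I =
      MSys.cls a (TO.j F.S n hc ≫ (thetaMU F E e).θ (N := a + n) h le_rfl) := by
  rw [← (famMU F E e).wI_eq hc]
  change (MSys.ofSeq (seqMU F E e) E).pull n (TO.j F.S n hc) ((thetaMU F E e).cl n (a + n)) = _
  rw [(thetaMU F E e).cl_eq h le_rfl, MSys.pull_cls]

/-- Two maps with the same Thom class agree after a stabilisation. -/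
theorem stT_eq {A : T} (φ ψ : A ⟶ TO F.S n I)
    (h : (MSys.ofSeq (seqMU F E e) E).pull n φ ((famMU F E e).wI n I) =
      (MSys.ofSeq (seqMU F E e) E).pull n ψ ((famMU F E e).wI n I)) :
    ∃ (b K : ℕ) (hc : Fintype.card I + Fintype.card (Fin b) ≤ Fintype.card (Fin K)),
      (φ ▷ F.S.obj (CpF b)) ≫ stT F n b K hc = (ψ ▷ F.S.obj (CpF b)) ≫ stT F n b K hc := by
  have h0 : n ≤ n + Fintype.card I := Nat.le_add_right _ _
  have hc0 : Fintype.card I ≤ Fintype.card (Fin (n + Fintype.card I + n)) := by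
    rw [Fintype.card_fin]; omega
  rw [wI_eq_cls F E e h0 hc0, MSys.pull_cls, MSys.pull_cls, MSys.cls_eq_iff] at h
  obtain ⟨a, ha, ha', h⟩ := h
  obtain ⟨k, rfl⟩ : ∃ k, a = n + k := ⟨a - n, by omega⟩
  have h1 : n ≤ n + k := Nat.le_add_right _ _
  have hc1 : Fintype.card I ≤ Fintype.card (Fin (n + k + n)) := by
    rw [Fintype.card_fin]; omega
  have key : (TO.j F.S n hc0 ≫ (thetaMU F E e).θ (N := n + Fintype.card I + n) h0 le_rfl) ≫
      (MSys.ofSeq (seqMU F E e) E).map n ha =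
      TO.j F.S n hc1 ≫ (thetaMU F E e).θ (N := n + k + n) h1 le_rfl := by
    rw [Category.assoc, (thetaMU F E e).θ_map h0 le_rfl ha h1 (by omega),
      ← (thetaMU F E e).θ_j (N := n + Fintype.card I + n) (N' := n + k + n) (by omega) h1
        (by omega) le_rfl, TO.j_j_assoc]
  rw [Category.assoc φ, Category.assoc ψ, key, ← Category.assoc φ, ← Category.assoc ψ] at h
  have hm : ((k, k) + (n, n + k + n) : ℕ × ℕ) = (n + k, n + k + (n + k)) := by
    rw [Prod.mk_add_mk, Prod.mk.injEq]; omega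
  have h2 := stab_of_theta (thomSys F E e) (n := n) (k := k) rfl h1 hm _ _ h
  have hc2 : Fintype.card (Fin k) + Fintype.card (Fin (n + k + n)) ≤
      Fintype.card (Fin (n + k + (n + k))) := by
    simp only [Fintype.card_fin]; omega
  have hc3 : Fintype.card I + Fintype.card (Fin k) ≤ Fintype.card (Fin (n + k + (n + k))) := by
    simp only [Fintype.card_fin]; omega
  have hc4 : Fintype.card (Fin k) + Fintype.card I ≤ Fintype.card (Fin (n + k + (n + k))) := by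
    simp only [Fintype.card_fin]; omega
  have hb := isIso_b_thomSys F E e k
  let b : E.S k ⟶ TO F.S k (Fin k) := (thomSys F E e).b k
  have hb' : IsIso b := hb
  have h3 : (E.S k ◁ (φ ≫ TO.j F.S n hc1)) ≫ (b ▷ TO F.S n (Fin (n + k + n))) ≫
      TO.mul F.S (Nat.add_comm k n) hc2 = (E.S k ◁ (ψ ≫ TO.j F.S n hc1)) ≫
        (b ▷ TO F.S n (Fin (n + k + n))) ≫ TO.mul F.S (Nat.add_comm k n) hc2 := h2
  refine ⟨k, n + k + (n + k), hc3, ?_⟩
  have h4 : stT F n k (n + k + (n + k)) hc3 = (TO F.S n I ◁ ((inclT F k ≫ inv b) ≫ b)) ≫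
      (β_ (TO F.S n I) (TO F.S k (Fin k))).hom ≫ (TO F.S k (Fin k) ◁ TO.j F.S n hc1) ≫
        TO.mul F.S (Nat.add_comm k n) hc2 := by
    rw [Category.assoc, IsIso.inv_hom_id, Category.comp_id, TO.whiskerLeft_j_mul,
      TO.mul_comm F.S rfl (Nat.add_comm k n) hc3, stT]
  rw [h4, swap_aux, swap_aux, h3]

theorem map_stabOf {Y : LC} (hY : FC Y) (f : Y ⟶ LC.of (Th n I)) (b K : ℕ)
    (hc : Fintype.card I + Fintype.card (Fin b) ≤ Fintype.card (Fin K))
    (w : Matrix (Fin K) (I ⊕ Fin b) ℂ) (hw : wᴴ * w = 1) :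
    F.S.map (FCat.hom (X := ⟨Y, hY⟩ ⊗ CpF b) (Y := ThF (n + b) (Fin K)) (stabOf f b w hw)) =
      δ F.S ⟨Y, hY⟩ (CpF b) ≫
        (F.S.map (FCat.hom (X := ⟨Y, hY⟩) (Y := ThF n I) f) ▷ F.S.obj (CpF b)) ≫
          stT F n b K hc := by
  have h1 : FCat.hom (X := ⟨Y, hY⟩ ⊗ CpF b) (Y := ThF (n + b) (Fin K)) (stabOf f b w hw) =
      (FCat.hom (X := ⟨Y, hY⟩) (Y := ThF n I) f ▷ CpF b) ≫
        (ThF n I ◁ FCat.hom (X := CpF b) (Y := ThF b (Fin b)) (Th.incl' (Fintype.card_fin b))) ≫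
        FCat.hom (X := ThF n I ⊗ ThF b (Fin b)) (Y := ThF (n + b) (I ⊕ Fin b)) (Th.sum rfl) ≫
        FCat.hom (X := ThF (n + b) (I ⊕ Fin b)) (Y := ThF (n + b) (Fin K)) (Th.map w hw) := rfl
  rw [h1, stT, inclT, TO.mul, TO.sum, ← TO.map_eq_j F.S w hw, TO.map]
  simp only [Category.assoc, Functor.map_comp]
  rw [μ_natural_right_assoc, μ_natural_left_assoc, Functor.Monoidal.δ_μ_assoc]

theorem pull_of_map {Y : LC} (hY : FC Y) (f : Y ⟶ LC.of (Th n I)) :
    uev hY ((thSeq e (seqMU F E e)).map f ((orientMU F E e).tau n I)) =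
      (MSys.ofSeq (seqMU F E e) E).tof _ n ((MSys.ofSeq (seqMU F E e) E).pull n
        (F.S.map (FCat.hom (X := ⟨Y, hY⟩) (Y := ThF n I) f)) ((famMU F E e).wI n I)) := by
  refine (uev_umap hY (ThFC.fc n I) f _).trans ?_
  rw [orientMU, (famMU F E e).uev_tau, MSys.tpull_of]

theorem tpull_add {M : MSys T} {X Y : T} (f g : X ⟶ Y) (a : M.Tot Y) :
    M.tpull (f + g) a = M.tpull f a + M.tpull g a := by
  have : M.tpull (f + g) = M.tpull f + M.tpull g := MSys.tot_ext (fun k a => by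
    rw [AddMonoidHom.add_apply, MSys.tpull_of, MSys.tpull_of, MSys.tpull_of, MSys.pull_add,
      map_add])
  rw [this]; rfl

theorem map_whiskerRight_eq {X Y : FCat} (f : X ⟶ Y) (Z : FCat) :
    F.S.map (f ▷ Z) = δ F.S X Z ≫ (F.S.map f ▷ F.S.obj Z) ≫ μ F.S Y Z := by
  rw [μ_natural_left, Functor.Monoidal.δ_μ_assoc]

theorem exists_isom_sum {b K : ℕ}
    (hc : Fintype.card I + Fintype.card (Fin b) ≤ Fintype.card (Fin K)) :
    ∃ w : Matrix (Fin K) (I ⊕ Fin b) ℂ, wᴴ * w = 1 :=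
  TO.exists_isom (by rw [Fintype.card_sum]; exact hc)

/-! ### Iterated stabilisation -/

theorem cpowIso_incl {J K : Type} [Fintype J] [Fintype K] [DecidableEq J] [DecidableEq K]
    (q : J ≃ K) {m : ℕ} (hJ : Fintype.card J = m) (hK : Fintype.card K = m) :
    (cpowIso q).hom ≫ Th.incl' hK = Th.incl' hJ ≫ Th.map (injMat q) (injMat_isom q.injective) := by
  have h1 : (cpowIso q).hom = Th.cmap (injMat q) (injMat_isom q.injective) := by
    apply LC.hom_ext
    intro v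
    rw [app_cpowIso_hom_coe, Th.app_cmap_coe, injMat_equiv_mulVec]
  have h2 : injMat q * (injMat q)ᴴ = (1 : Matrix K K ℂ) := by
    have h3 := injMat_isom (I := K) (J := J) q.symm.injective
    rwa [injMat_equiv_conjTranspose, Equiv.symm_symm, ← injMat_equiv_conjTranspose] at h3
  rw [h1, Th.incl_map hJ hK _ _ h2]

theorem stabTh_stabTh {J J' : Type} [Fintype J] [Fintype J'] [DecidableEq J] [DecidableEq J']
    (b m : ℕ) (w : Matrix J (I ⊕ Fin b) ℂ) (hw : wᴴ * w = 1)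
    (w' : Matrix J' (J ⊕ Fin m) ℂ) (hw' : w'ᴴ * w' = 1)
    (w'' : Matrix J' (I ⊕ Fin (b + m)) ℂ) (hw'' : w''ᴴ * w'' = 1)
    (h : n + b + m = n + (b + m)) :
    Homotopic ((α_ (LC.of (Th n I)) (Cpow (Fin b)) (Cpow (Fin m))).hom ≫
        (LC.of (Th n I) ◁ (cpowAdd b m).hom) ≫ stabTh n (b + m) w'' hw'')
      ((stabTh n b w hw ▷ Cpow (Fin m)) ≫
        (LC.of (Th (n + b) J) ◁ Th.incl' (Fintype.card_fin m)) ≫ Th.sum h ≫ Th.map w' hw') := by
  have hs : Fintype.card (Fin b ⊕ Fin m) = b + m := by simp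
  let X : (LC.of (Th n I) ⊗ Cpow (Fin b)) ⊗ Cpow (Fin m) ⟶
      LC.of (Th (n + (b + m)) (I ⊕ (Fin b ⊕ Fin m))) :=
    (α_ (LC.of (Th n I)) (Cpow (Fin b)) (Cpow (Fin m))).hom ≫
      (LC.of (Th n I) ◁ ((Th.csum (Fin b) (Fin m)).hom ≫ Th.incl' hs)) ≫ Th.sum rfl
  have e1 : (α_ (LC.of (Th n I)) (Cpow (Fin b)) (Cpow (Fin m))).hom ≫
        (LC.of (Th n I) ◁ (cpowAdd b m).hom) ≫ stabTh n (b + m) w'' hw'' =
      X ≫ Th.map (Matrix.fromBlocks 1 0 0 (injMat finSumFinEquiv))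
        (isom_fromBlocks isom_one (injMat_isom finSumFinEquiv.injective)) ≫ Th.map w'' hw'' := by
    have e2 : (cpowAdd b m).hom ≫ Th.incl' (Fintype.card_fin (b + m)) =
        ((Th.csum (Fin b) (Fin m)).hom ≫ Th.incl' hs) ≫
          Th.map (injMat finSumFinEquiv) (injMat_isom finSumFinEquiv.injective) := by
      rw [Category.assoc, ← cpowIso_incl finSumFinEquiv hs (Fintype.card_fin (b + m))]
      exact Category.assoc _ _ _
    rw [stabTh, ← MonoidalCategory.whiskerLeft_comp_assoc, e2, MonoidalCategory.whiskerLeft_comp,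
      Category.assoc, ← Category.assoc (LC.of (Th n I) ◁ Th.map _ _), Th.sum_whiskerLeft]
    simp only [X, Category.assoc]
  have e3 : (stabTh n b w hw ▷ Cpow (Fin m)) ≫
        (LC.of (Th (n + b) J) ◁ Th.incl' (Fintype.card_fin m)) ≫ Th.sum h ≫ Th.map w' hw' =
      X ≫ (Th.reindex (Equiv.sumAssoc I (Fin b) (Fin m))).inv ≫
        Th.map (Matrix.fromBlocks w 0 0 1) (isom_fromBlocks hw isom_one) ≫ Th.map w' hw' := by
    have e4 := Th.sum_assoc (I := I) (J := Fin b) (K := Fin m) (a := n) (b := b) (c := m)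
      rfl h rfl rfl
    have e5 : (Th.sum (I := I) (J := Fin b) (rfl : n + b = n + b) ▷ LC.of (Th m (Fin m))) ≫
        Th.sum h = (α_ _ _ _).hom ≫ (LC.of (Th n I) ◁ Th.sum rfl) ≫ Th.sum rfl ≫
          (Th.reindex (Equiv.sumAssoc I (Fin b) (Fin m))).inv := by
      rw [← reassoc_of% e4, Iso.hom_inv_id, Category.comp_id]
    have e6 := Th.incl_sum (Fintype.card_fin b) (Fintype.card_fin m) hs rfl
    rw [← whisker_exchange_assoc, stabTh, comp_whiskerRight, comp_whiskerRight, Category.assoc,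
      Category.assoc, ← Category.assoc (Th.map w hw ▷ _), Th.sum_whiskerRight, Category.assoc,
      reassoc_of% e5]
    simp only [X, Category.assoc]
    rw [← e6, MonoidalCategory.whiskerLeft_comp, MonoidalCategory.tensorHom_def',
      MonoidalCategory.whiskerLeft_comp, associator_naturality_middle_assoc,
      associator_naturality_right_assoc]
    simp only [Category.assoc]
  rw [e1, e3, Th.map_comp]
  have e7 : (Th.reindex (n := n + (b + m)) (Equiv.sumAssoc I (Fin b) (Fin m))).inv =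
      Th.map (injMat (Equiv.sumAssoc I (Fin b) (Fin m)).symm)
        (injMat_isom (Equiv.sumAssoc I (Fin b) (Fin m)).symm.injective) := rfl
  rw [e7, Th.map_comp, Th.map_comp]
  exact Homotopic.comp_left X (Th.map_homotopic_map _ _ _ _)

theorem homotopic_cpow {X Y : LC} {f g : X ⟶ Y} {m : ℕ}
    (H : Homotopic (f ▷ Sph m) (g ▷ Sph m)) :
    Homotopic (f ▷ Cpow (Fin m)) (g ▷ Cpow (Fin m)) := by
  have key : ∀ p : X ⟶ Y, p ▷ Cpow (Fin m) = (X ◁ (sphSphCpow m).inv) ≫ (α_ _ _ _).inv ≫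
      ((p ▷ Sph m) ▷ Sph m) ≫ (α_ _ _ _).hom ≫ (Y ◁ (sphSphCpow m).hom) := by
    intro p
    rw [associator_naturality_left_assoc, Iso.inv_hom_id_assoc, ← whisker_exchange,
      ← MonoidalCategory.whiskerLeft_comp_assoc, Iso.inv_hom_id, MonoidalCategory.whiskerLeft_id,
      Category.id_comp]
  rw [key f, key g]
  exact Homotopic.comp_left _ (Homotopic.comp_left _
    (Homotopic.comp_right (H.whiskerRight (Sph m)) _))

end RepT

open RepT

variable {T : Type u} [Category.{v} T] [Preadditive T] [HasZeroObject T]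
    [HasShift T ℤ] [∀ n : ℤ, (shiftFunctor T n).Additive] [Pretriangulated T]
    [MonoidalCategory T] [SymmetricCategory T] [TensorTriangulated T]

variable (F : SpaceFunctor T) (E : EvenSpheres T) (e : F.S.obj CCF ≅ E.L)

/-- **Relations between Thom classes of `MU` hold stably.** -/
theorem repRel_MU : RepRel (orientMU F E e) := by
  intro Y hY n I _ _ f g h hrel
  have hY' : FC Y := hY.out
  have h1 := (congrArg (uev hY') hrel).trans (map_add (uev hY') _ _)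
  rw [pull_of_map, pull_of_map, pull_of_map, ← map_add, ← MSys.pull_add] at h1
  have h2 := DirectSum.of_injective (β := fun k => (MSys.ofSeq (seqMU F E e) E).H k
    (F.S.obj ⟨Y, hY'⟩)) (n : ℤ) h1
  obtain ⟨b, K, hc, h3⟩ := stT_eq F E e _ _ h2
  obtain ⟨w, hw⟩ := exists_isom_sum hc
  refine ⟨b, K, w, hw, fun Z hZ c => ?_⟩
  have hZ' : FC Z := hZ.out
  have h4 : F.S.map (FCat.hom (X := ⟨Y, hY'⟩ ⊗ CpF b) (Y := ThF (n + b) (Fin K))
      (stabOf h b w hw)) = F.S.map (FCat.hom (X := ⟨Y, hY'⟩ ⊗ CpF b) (Y := ThF (n + b) (Fin K))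
      (stabOf f b w hw)) + F.S.map (FCat.hom (X := ⟨Y, hY'⟩ ⊗ CpF b) (Y := ThF (n + b) (Fin K))
      (stabOf g b w hw)) := by
    rw [map_stabOf F hY' h b K hc, map_stabOf F hY' f b K hc, map_stabOf F hY' g b K hc, h3,
      MonoidalPreadditive.add_whiskerRight, Preadditive.add_comp, Preadditive.comp_add]
  have hA : FC ((Y ⊗ Cpow (Fin b)) ⊗ Z) := fc_tensor (fc_tensor hY' (fcCpow b)) hZ'
  have hB : FC (LC.of (Th (n + b) (Fin K)) ⊗ Z) := fc_tensor (ThFC.fc _ _) hZ'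
  have h5 : ∀ p : Y ⟶ LC.of (Th n I),
      uev hA ((thSeq e (seqMU F E e)).map (stabOf p b w hw ▷ Z) c) =
        (MSys.ofSeq (seqMU F E e) E).tpull (δ F.S (⟨Y, hY'⟩ ⊗ CpF b) ⟨Z, hZ'⟩ ≫
          (F.S.map (FCat.hom (X := ⟨Y, hY'⟩ ⊗ CpF b) (Y := ThF (n + b) (Fin K))
            (stabOf p b w hw)) ▷ F.S.obj ⟨Z, hZ'⟩) ≫ μ F.S (ThF (n + b) (Fin K)) ⟨Z, hZ'⟩)
          (uev hB c) := by
    intro p
    rw [← map_whiskerRight_eq]
    exact uev_umap hA hB _ c
  refine uev_inj hA (Eq.trans ?_ (map_add (uev hA) _ _).symm)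
  rw [h5, h5, h5, h4, MonoidalPreadditive.add_whiskerRight, Preadditive.add_comp,
    Preadditive.comp_add, tpull_add]

/-- **Maps with the same Thom class in `MU` are stably homotopic.** -/
theorem repUniq_MU : RepUniq (orientMU F E e) := by
  intro Y hY n I _ _ f g hrel
  have hY' : FC Y := hY.out
  have h1 := congrArg (uev hY') hrel
  rw [pull_of_map, pull_of_map] at h1
  have h2 := DirectSum.of_injective (β := fun k => (MSys.ofSeq (seqMU F E e) E).H k
    (F.S.obj ⟨Y, hY'⟩)) (n : ℤ) h1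
  obtain ⟨b, K, hc, h3⟩ := stT_eq F E e _ _ h2
  obtain ⟨w, hw⟩ := exists_isom_sum hc
  have h4 : F.S.map (FCat.hom (X := ⟨Y, hY'⟩ ⊗ CpF b) (Y := ThF (n + b) (Fin K))
      (stabOf f b w hw)) = F.S.map (FCat.hom (X := ⟨Y, hY'⟩ ⊗ CpF b) (Y := ThF (n + b) (Fin K))
      (stabOf g b w hw)) := by
    rw [map_stabOf F hY' f b K hc, map_stabOf F hY' g b K hc, h3]
  obtain ⟨m, H⟩ := F.faithful _ _ h4
  have H1 : Homotopic (stabOf f b w hw ▷ Cpow (Fin m)) (stabOf g b w hw ▷ Cpow (Fin m)) :=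
    homotopic_cpow H
  obtain ⟨w', hw'⟩ := exists_isom_sum (I := Fin K) (b := m) (K := K + m) (by simp)
  obtain ⟨w'', hw''⟩ := exists_isom_sum (I := I) (b := b + m) (K := K + m) (by
    simp only [Fintype.card_fin] at hc ⊢; omega)
  have hh : n + b + m = n + (b + m) := Nat.add_assoc n b m
  have H2 := stabTh_stabTh (n := n) b m w hw w' hw' w'' hw'' hh
  have key : ∀ p : Y ⟶ LC.of (Th n I), Homotopic (stabOf p (b + m) w'' hw'')
      ((Y ◁ (cpowAdd b m).inv) ≫ (α_ Y (Cpow (Fin b)) (Cpow (Fin m))).inv ≫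
        (stabOf p b w hw ▷ Cpow (Fin m)) ≫
        (LC.of (Th (n + b) (Fin K)) ◁ Th.incl' (Fintype.card_fin m)) ≫ Th.sum hh ≫
          Th.map w' hw') := by
    intro p
    have e1 : stabOf p (b + m) w'' hw'' = (Y ◁ (cpowAdd b m).inv) ≫
        (α_ Y (Cpow (Fin b)) (Cpow (Fin m))).inv ≫ ((p ▷ Cpow (Fin b)) ▷ Cpow (Fin m)) ≫
        (α_ (LC.of (Th n I)) (Cpow (Fin b)) (Cpow (Fin m))).hom ≫
        (LC.of (Th n I) ◁ (cpowAdd b m).hom) ≫ stabTh n (b + m) w'' hw'' := by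
      rw [associator_naturality_left_assoc, Iso.inv_hom_id_assoc, ← whisker_exchange_assoc,
        ← MonoidalCategory.whiskerLeft_comp_assoc, Iso.inv_hom_id, MonoidalCategory.whiskerLeft_id,
        Category.id_comp, stabOf]
    rw [e1, stabOf, comp_whiskerRight, Category.assoc]
    exact Homotopic.comp_left _ (Homotopic.comp_left _ (Homotopic.comp_left _ H2))
  refine ⟨b + m, K + m, w'', hw'', (key f).trans (Homotopic.trans ?_ (key g).symm)⟩
  exact Homotopic.comp_left _ (Homotopic.comp_left _ (Homotopic.comp_right H1 _))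

end Vale.Agent.P257.Det
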