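import Vale.Agent.P257.P.Adj
import Vale.Agent.P257.E.Dh
import Vale.Agent.P251.G.Isom

/-!
# P257, block DET: linear maps to Thom spaces are units

* `mHtpy_stb`: desuspension of maps `K ⊗ V a ⟶ K' ⊗ V a` after one stabilisation;
* `exists_st_flat`, `unit_of_lin`.
-/

open CategoryTheory MonoidalCategory Limits Functor.LaxMonoidal Functor.OplaxMonoidal OnePoint
open Matrix MonObj

noncomputable section

namespace Vale.Agent.P257.Det

open Vale.Agent.P251.H.StabInput (MHtpy)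
open Vale.Agent.P251.G Vale.Agent.P251.Q
open Vale.Agent.P251.G.LC (RR II app smash Homotopic)
open Vale.Agent.P257.D Vale.Agent.P257.D.EF Vale.Agent.P257.E Vale.Agent.P257.P Vale.Agent.P257.K
open Vale.Agent.P257.D.O (V vec)

universe v u

section sign

variable {C : Type u} [Category.{v} C] [MonoidalCategory C] [SymmetricCategory C] {X K K' : C}
  {n : X ⟶ X} (hβ : (β_ X X).hom = n ▷ X)
include hβ

@[reassoc]
theorem cyc_eq (K : C) :
    (β_ X K).hom ▷ X ≫ (β_ (K ⊗ X) X).hom = (α_ X K X).hom ≫ n ▷ (K ⊗ X) := by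
  rw [BraidedCategory.braiding_tensor_left_hom, hβ, ← associator_naturality_middle_assoc,
    Iso.hom_inv_id_assoc, ← comp_whiskerRight_assoc, ← comp_whiskerRight_assoc,
    ← BraidedCategory.braiding_naturality_left, Category.assoc, SymmetricCategory.symmetry,
    Category.comp_id, associator_naturality_left]

theorem whiskerLeft_eq_of_sign (hn : n ≫ n = 𝟙 X) (f : K ⊗ X ⟶ K' ⊗ X) :
    (α_ X K X).hom ≫ X ◁ f =
      ((β_ X K).hom ≫ f ≫ (β_ K' X).hom) ▷ X ≫ (α_ X K' X).hom := by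
  have h : (β_ K' X).hom ▷ X ≫ (α_ X K' X).hom = (β_ (K' ⊗ X) X).hom ≫ n ▷ (K' ⊗ X) := by
    rw [← cancel_epi ((β_ X K').hom ▷ X), cyc_eq_assoc hβ, ← comp_whiskerRight_assoc,
      ← comp_whiskerRight, SymmetricCategory.symmetry, hn, id_whiskerRight, id_whiskerRight,
      Category.id_comp, Category.comp_id]
  rw [comp_whiskerRight, comp_whiskerRight, Category.assoc, Category.assoc, h,
    BraidedCategory.braiding_naturality_left_assoc, cyc_eq_assoc hβ, ← whisker_exchange_assoc,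
    ← comp_whiskerRight, hn, id_whiskerRight, Category.comp_id]

end sign

variable {a b c : O} {K K' : LC}

theorem homotopic_braiding (a : O) : Homotopic (β_ (V a) (V a)).hom (negV a ▷ V a) := by
  let q : II ⟶ 𝟙_ LC := LC.ofCompact (X := II) (Y := LC.of Unit) (fun _ => ()) continuous_const
  have hq : ∀ t, LC.incl t (V a) ≫ V a ◁ q ≫ (ρ_ _).hom = 𝟙 _ := fun _ => LC.hom_ext fun _ => rfl
  have h : Homotopic (𝟙 _) ((β_ (V a) (V a)).hom ≫ negV a ▷ V a) :=
    ⟨rotV a ≫ (V a ◁ q ≫ (ρ_ _).hom) ▷ V a, by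
      rw [reassoc_of% incl_zero_rotV, ← comp_whiskerRight, hq, id_whiskerRight], by
      rw [reassoc_of% incl_one_rotV, ← comp_whiskerRight, Category.assoc, hq, Category.comp_id]⟩
  have k := h.comp_left (β_ (V a) (V a)).hom
  rwa [Category.comp_id, SymmetricCategory.symmetry_assoc] at k

theorem homotopic_desusp (f : K ⊗ V a ⟶ K' ⊗ V a) : Homotopic ((α_ (V a) K (V a)).hom ≫ V a ◁ f)
    (((β_ (V a) K).hom ≫ f ≫ (β_ K' (V a)).hom) ▷ V a ≫ (α_ (V a) K' (V a)).hom) :=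
  (HLC.proj_map_eq_iff _ _).1 (whiskerLeft_eq_of_sign (C := HLC) (X := ⟨V a⟩) (K := ⟨K⟩)
    (K' := ⟨K'⟩) (n := HLC.proj.map (negV a)) (HLC.sound (homotopic_braiding a))
    (congrArg HLC.proj.map (negV_negV a)) (HLC.proj.map f))

theorem shT_eq (L K : LC) : (shT b L c K).hom = (L ⊗ K) ◁ ((splitV b c).hom ≫ (β_ _ _).hom) ≫
    (α_ _ _ _).inv ≫ (α_ L K (V c)).hom ▷ V b ≫ (α_ _ _ _).hom ≫ L ◁ (β_ _ _).hom ≫
      (α_ _ _ _).inv :=
  shT_ext fun _ _ _ _ => rfl

theorem homotopic_shT (f : K ⊗ V a ⟶ K' ⊗ V a) :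
    Homotopic ((shT b (V a) a K).hom ≫ (V a ⊗ V b) ◁ f)
      (((β_ (V a) K).hom ≫ f ≫ (β_ K' (V a)).hom) ▷ V (b ⊗ a) ≫ (shT b (V a) a K').hom) := by
  have k : (α_ (V a) K (V a)).hom ▷ V b ≫ (α_ _ _ _).hom ≫ V a ◁ (β_ _ _).hom ≫
      (α_ _ _ _).inv ≫ (V a ⊗ V b) ◁ f = ((α_ (V a) K (V a)).hom ≫ V a ◁ f) ▷ V b ≫
        (α_ _ _ _).hom ≫ V a ◁ (β_ _ _).hom ≫ (α_ _ _ _).inv := by
    rw [← associator_inv_naturality_right, ← MonoidalCategory.whiskerLeft_comp_assoc,
      ← BraidedCategory.braiding_naturality_left, MonoidalCategory.whiskerLeft_comp,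
      Category.assoc, ← associator_naturality_middle_assoc, comp_whiskerRight, Category.assoc]
  rw [shT_eq, shT_eq, ← whisker_exchange_assoc, associator_inv_naturality_left_assoc,
    ← comp_whiskerRight_assoc, Category.assoc, Category.assoc, Category.assoc, Category.assoc,
    Category.assoc, k]
  exact ((((homotopic_desusp f).whiskerRight _).comp_right _).comp_left _).comp_left _

/-- desuspension after one stabilisation -/
theorem mHtpy_stb {y : Cel a K ⟶ MUo} {y' : Cel a K' ⟶ MUo} {f : K ⊗ V a ⟶ K' ⊗ V a}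
    (h : Homotopic (flat y) (f ≫ flat y')) : MHtpy (stb a a K ≫ y)
      (cm (𝟙 _) ((β_ (V a) K).hom ≫ f ≫ (β_ K' (V a)).hom) ≫ stb a a K' ≫ y') := by
  refine mHtpy_of_flat ?_
  rw [flat_cm_left, flat_stb, flat_stb]
  refine ((((Homotopic.refl _).tensor h).comp_right _).comp_left _).trans ?_
  rw [← whiskerLeft_comp_tensorHom, Category.assoc, ← Category.assoc, ← Category.assoc (_ ▷ _)]
  exact (homotopic_shT f).comp_right _

theorem lam0_eq (b : O) : lam0 b = lamV (𝟭 O) b :=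
  RF_ext fun k => (lamOf_tm (K := V b) _ _ _ _ k _).trans (Eq.trans
    (congrArg (fun z => pr (smp (z ≫ 𝟙 b) (𝟙 _))) (Category.id_comp _).symm)
    (lamV_tm (𝟭 O) (𝟙 b) k _).symm)

variable (D : Stab (EF O)) [IsIso ((st D).map (lamC O))]

instance (b : O) : IsIso ((st D).map (lam0 b)) := lam0_eq b ▸ isIso_lamV (𝟭 O) (st D) b

instance (b c : O) (K : LC) : IsIso ((st D).map (stb b c K)) := by
  rw [stb, Functor.map_comp, Functor.map_comp, SC.st_whiskerRight]
  infer_instance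

theorem exists_st_flat {y : Cel a K ⟶ MUo} {y' : Cel a K' ⟶ MUo} (f : K ⊗ V a ≅ K' ⊗ V a)
    (h : Homotopic (flat y) (f.hom ≫ flat y')) :
    ∃ φ : (st D).obj (Cel a K) ≅ (st D).obj (Cel a K'), (st D).map y = φ.hom ≫ (st D).map y' := by
  refine ⟨(asIso ((st D).map (stb a a K))).symm ≪≫ (st D).mapIso (cmIso (Iso.refl _)
    (β_ (V a) K ≪≫ f ≪≫ β_ K' (V a))) ≪≫ asIso ((st D).map (stb a a K')), ?_⟩
  have k := SC.st_htpy (D := D) (mHtpy_stb h)
  rw [Functor.map_comp, Functor.map_comp, Functor.map_comp] at k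
  exact (IsIso.eq_inv_comp _).2 k |>.trans (by simp)

/-- **UNIT** -/
theorem unit_of_lin {W : Type} [Fintype W] [DecidableEq W] (e : Cpow W ≅ K ⊗ V a)
    (h : Fintype.card W = Fintype.card a.El) (u : Matrix (a.El ⊕ a.El) W ℂ) (hu : uᴴ * u = 1) :
    ∃ φ : (st D).obj (Cel a K) ≅ 𝟙_ _, (st D).map (ofFlat (e.inv ≫ Th.incl' h ≫ Th.map u hu)) =
      φ.hom ≫ (st D).map η[MUo] := by
  let σ := Fintype.equivOfCardEq h
  have h1 : injMat σ * (injMat σ)ᴴ = 1 := by
    have := injMat_equiv_conj σ (1 : Matrix W W ℂ)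
    rwa [Matrix.mul_one, submatrix_one_equiv] at this
  have h2 : (cpowIso σ).hom = Th.cmap (injMat σ) (injMat_isom σ.injective) :=
    LC.hom_ext fun v => by rw [app_cpowIso_hom_coe, Th.app_cmap_coe, injMat_equiv_mulVec]
  obtain ⟨φ, hφ⟩ := exists_st_flat D (y := ofFlat (e.inv ≫ Th.incl' h ≫ Th.map u hu))
    (y' := lam0 a ≫ η[MUo]) (e.symm ≪≫ cpowIso σ ≪≫ (cpx a).symm) (by
      rw [flat_ofFlat, flat_lam0, Iso.trans_hom, Iso.trans_hom, Category.assoc, Category.assoc,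
        Iso.symm_hom, Iso.symm_hom, Iso.inv_hom_id_assoc, inN, h2,
        ← reassoc_of% Th.incl_map h rfl _ _ h1, Th.map_comp]
      exact ((Th.map_homotopic_map _ _ _ _).comp_left _).comp_left _)
  exact ⟨φ ≪≫ asIso ((st D).map (lam0 a)), by
    rw [hφ, Functor.map_comp, Iso.trans_hom, asIso_hom, Category.assoc]⟩

end Vale.Agent.P257.Det
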