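import Vale.Agent.P257.Det.Val
import Vale.Agent.P257.Det.Unit

/-!
# P257, detection: the linear representative of the Thom class

For a strict presentation `PY` of `Y` a map `thU PY hle` from
`(rep Q' ⊗ S^Q') ⊗ (triv T' ⊗ Y)` to `MU` with Borel class `1`, which is stably the unit.
-/

open CategoryTheory MonoidalCategory Limits Matrix MonObj

universe v

noncomputable section

namespace Vale.Agent.P257.Det

open Vale.Agent.P251.G Vale.Agent.P251.Q Vale.Agent.P251.Q.MultTheory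
open Vale.Agent.P257.D Vale.Agent.P257.E Vale.Agent.P257.P Vale.Agent.P257.K
open Vale.Agent.P257.D.O (V)

variable {G : Type} [Group G] {Y : Action (EF O) G}

theorem injMat_comm {I J : Type} [Fintype I] [Fintype J] [DecidableEq I] [DecidableEq J]
    {j : I → J} (hj : Function.Injective j) {A : Matrix I I ℂ} {B : Matrix J J ℂ}
    (h1 : ∀ a k, B (j a) (j k) = A a k) (h2 : ∀ i k, i ∉ Set.range j → B i (j k) = 0) :
    injMat j * A = B * injMat j := by
  ext i k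
  have h : (B * injMat j) i k = B i (j k) := by simp [Matrix.mul_apply, injMat_apply]
  rw [h]
  by_cases hi : i ∈ Set.range j
  · obtain ⟨a, rfl⟩ := hi
    rw [injMat_mul_apply hj, h1]
  · rw [injMat_mul_apply_of_notMem _ _ hi, h2 i k hi]

/-- the even cell on `f ⊗ f` -/
@[reducible] def evF (f : O) : EvC (Cel (f ⊗ f) (𝟙_ LC)) where
  c := f ⊗ f
  c' := f
  K := 𝟙_ LC
  e := O.vecIso f f ≪≫ (λ_ _).symm
  i := Iso.refl _

variable (PY : Pz Y)

/-- the complement -/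
def thC : O := O.fin (Fintype.card PY.Q'.V.El - Fintype.card PY.Q.V.El)

/-- the dual cell -/
abbrev thT : EF O := Cel (thC PY ⊗ thC PY) (𝟙_ LC)

/-- the presentation of the dual cell -/
abbrev thP : EvC (thT PY) := evF (thC PY)

/-- the total presentation -/
abbrev thZ : Pz ((repA (𝟭 O) PY.Q' ⊗ sphQ O PY.Q') ⊗ ((triv G).obj (thT PY) ⊗ Y)) :=
  (Pz.lam PY.Q').ten (((thP PY).pz G).ten PY)

/-- the indices of the isometry -/
def thJ : (thZ PY).Q'.V.El → (thZ PY).Q.V.El ⊕ (thZ PY).Q.V.El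
  | .inl x => .inl (.inl x)
  | .inr (.inl y) => .inl (.inr (.inl (.inl y)))
  | .inr (.inr x) => .inr (.inl x)

theorem thJ_injective : Function.Injective (thJ PY) := by
  rintro (x | x | x) (y | y | y) h <;> first | cases h; rfl | cases h

theorem thJ_comm (g : G) :
    injMat (thJ PY) * gm (thZ PY).Q' g = dm (thZ PY).Q g * injMat (thJ PY) := by
  have h1 : gm (thZ PY).Q' g = fromBlocks (gm PY.Q' g) 0 0 (fromBlocks 1 0 0 (gm PY.Q' g)) :=
    (gm_tensor _ _ g).trans (congrArg _ ((gm_tensor _ _ g).trans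
      (congrArg (fromBlocks · 0 0 _) (gm_of_triv (Q := (triv G).obj _) rfl))))
  have h2 : gm (thZ PY).Q g = fromBlocks (gm PY.Q' g) 0 0 (fromBlocks 1 0 0 (gm PY.Q g)) :=
    (gm_tensor _ _ g).trans (congrArg _ ((gm_tensor _ _ g).trans
      (congrArg (fromBlocks · 0 0 _) (gm_of_triv (Q := (triv G).obj _) rfl))))
  rw [dm, h1, h2]
  refine injMat_comm (thJ_injective PY) ?_ ?_
  · rintro (x | x | x) (y | y | y)
    all_goals first
      | rfl
      | exact (fromBlocks_apply₁₁ (1 : Matrix (thC PY).El _ ℂ) 0 0 1 x y).symm.trans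
          (congrFun (congrFun fromBlocks_one _) _) |>.symm
  · rintro ((x | (x | x) | x) | (x | x | x)) (y | y | y) h
    all_goals first
      | rfl
      | exact (h ⟨.inl x, rfl⟩).elim
      | exact (h ⟨.inr (.inl x), rfl⟩).elim
      | exact (h ⟨.inr (.inr x), rfl⟩).elim

variable (hle : Fintype.card PY.Q.V.El ≤ Fintype.card PY.Q'.V.El)

include hle in
theorem thZ_card : Fintype.card (thZ PY).Q'.V.El = Fintype.card (thZ PY).Q.V.El := by
  have h : Fintype.card (thC PY).El = Fintype.card PY.Q'.V.El - Fintype.card PY.Q.V.El :=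
    Fintype.card_fin _
  change Fintype.card (PY.Q'.V ⊗ (thC PY ⊗ PY.Q'.V)).El =
    Fintype.card (PY.Q'.V ⊗ ((thC PY ⊗ thC PY) ⊗ PY.Q.V)).El
  simp only [← card_tensor]
  omega

variable [IsIso PY.e] [IsIso PY.i]

instance : IsIso (thZ PY).e := inferInstanceAs (IsIso (eT (𝟙 _) (eT (thP PY).e.hom PY.e)))

instance : IsIso (thZ PY).i :=
  inferInstanceAs (IsIso ((P257.P.cT _ _ _ _).hom ≫
    (𝟙 _ ⊗ₘ ((P257.P.cT _ _ _ _).hom ≫ ((thP PY).i.hom ⊗ₘ PY.i)))))

/-- the linear representative -/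
def thU : (repA (𝟭 O) PY.Q' ⊗ sphQ O PY.Q') ⊗ ((triv G).obj (thT PY) ⊗ Y) ⟶ (triv G).obj MUo :=
  (thZ PY).lin (thZ_card PY hle) (injMat (thJ PY)) (injMat_isom (thJ_injective PY)) (thJ_comm PY)

theorem val_thU {E : MultTheory.{v}} (o : Orientation E) {B : LC} [CompactSpace B] [GoodBase E B]
    {r : ℕ} (L : CycF B r) {g : G} (hg : g ^ (r + 1) = 1) :
    (thZ PY).val o L g (thU PY hle) = 1 :=
  Pz.val_lin o L hg _ _ _ _ (thJ_comm PY g) (Pz.tm_lin _ _ _ _ _)

theorem st_thU (D : Stab (EF O)) [IsIso ((st D).map (EF.lamC O))] :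
    ∃ φ : (st D).obj ((repA (𝟭 O) PY.Q' ⊗ sphQ O PY.Q') ⊗ ((triv G).obj (thT PY) ⊗ Y)).V ≅ 𝟙_ _,
      (st D).map (thU PY hle).hom = φ.hom ≫ (st D).map η[MUo] := by
  obtain ⟨φ, h⟩ := unit_of_lin D ((cpx _).symm ≪≫ asIso (thZ PY).e) (thZ_card PY hle)
    (injMat (thJ PY)) (injMat_isom (thJ_injective PY))
  refine ⟨(st D).mapIso (asIso (thZ PY).i).symm ≪≫ φ, ?_⟩
  rw [Iso.trans_hom, Category.assoc, ← h, Functor.mapIso_hom, ← Functor.map_comp, Iso.trans_inv,
    Category.assoc]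
  rfl

include hle in
/-- **THL** -/
theorem exists_lin : ∃ (T' : EF O) (P' : EvC T')
    (u' : (repA (𝟭 O) PY.Q' ⊗ sphQ O PY.Q') ⊗ ((triv G).obj T' ⊗ Y) ⟶ (triv G).obj MUo),
    (∀ (E : MultTheory.{v}) (o : Orientation E) (B : LC) [CompactSpace B] [GoodBase E B] (r : ℕ)
      (L : CycF B r) (g : G), g ^ (r + 1) = 1 →
        ((Pz.lam PY.Q').ten ((P'.pz G).ten PY)).val o L g u' = 1) ∧
    ∀ (D : Stab (EF O)) [IsIso ((st D).map (EF.lamC O))],
      ∃ φ : (st D).obj ((repA (𝟭 O) PY.Q' ⊗ sphQ O PY.Q') ⊗ ((triv G).obj T' ⊗ Y)).V ≅ 𝟙_ _,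
        (st D).map u'.hom = φ.hom ≫ (st D).map η[MUo] :=
  ⟨_, thP PY, thU PY hle, fun _ o _ _ _ _ L _ hg => val_thU PY hle o L hg,
    fun D _ => st_thU PY hle D⟩

end Vale.Agent.P257.Det
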