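import Vale.Agent.P257.E.Res

/-!
# P257, detection: the stable Thom class

`exists_u`: from a class `u2` on `triv T' ⊗ Y` which restricts to a unit one gets a class
`u : Y ⟶ triv Y.V ⊗ triv B` which restricts to `1 ⊗ η`.
-/

open CategoryTheory MonoidalCategory Limits Functor.LaxMonoidal Functor.OplaxMonoidal

namespace Vale.Agent.P257.Det

open Vale.Agent.P251.H
open Vale.Agent.P251.M (IsInv)
open Vale.Agent.P257.K Vale.Agent.P257.E

universe v u

section gen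

variable {C : Type u} [Category.{v} C] [MonoidalCategory C]

theorem exists_coev [SymmetricCategory C] {T Z : C} (ev : T ⊗ Z ≅ 𝟙_ C) :
    ∃ e : Z ⊗ T ≅ 𝟙_ C, (λ_ Z).inv ≫ e.inv ▷ Z ≫ (α_ _ _ _).hom ≫ Z ◁ ev.hom = (ρ_ Z).inv := by
  have : IsInv Z := IsInv.of_inverse' ev
  have : (tensorRight Z).IsEquivalence :=
    Functor.isEquivalence_of_iso (BraidedCategory.tensorLeftIsoTensorRight Z)
  let w : (tensorRight Z).obj (Z ⊗ T) ≅ (tensorRight Z).obj (𝟙_ C) :=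
    α_ Z T Z ≪≫ whiskerLeftIso Z ev ≪≫ ρ_ Z ≪≫ (λ_ Z).symm
  refine ⟨(tensorRight Z).preimageIso w, ?_⟩
  have h : ((tensorRight Z).preimageIso w).inv ▷ Z = w.inv := (tensorRight Z).map_preimage w.inv
  rw [h]
  simp [w]

theorem coev_calc {W A T Y B B' Z : C} (f : W ⟶ 𝟙_ C) (k : W ⟶ A ⊗ T) (i : 𝟙_ C ⟶ A ⊗ T)
    (h : f ≫ i = k) (x : T ⊗ Y ⟶ B) (ξ : A ⟶ B') (m : B' ⊗ B ⟶ Z) :
    (f ▷ Y ≫ (λ_ Y).hom) ≫ ((λ_ Y).inv ≫ i ▷ Y ≫ (α_ _ _ _).hom ≫ A ◁ x) ≫ ξ ▷ B ≫ m =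
      (k ▷ Y ≫ (α_ _ _ _).hom) ≫ (ξ ⊗ₘ x) ≫ m := by
  rw [← h, tensorHom_def']
  simp

end gen

variable {M : Type u} [Category.{v} M] [MonoidalCategory M] [SymmetricCategory M]
  [MonoidalClosed M] [HasZeroMorphisms M] [HasColimitsOfSize.{0, 0} M] [StabInput M]
  {G : Type} [Group G] {D : Stab M} {U : Action M G} {a : U ⟶ 𝟙_ _} {ha : Rot a}
  [IsIso ((st D).map a.hom)] {B : M} [MonObj B]

/-- **the stable Thom class** -/
theorem exists_u {Y : Action M G} (T' : M)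
    (u2 : (st (DX D a ha)).obj ((triv G).obj T' ⊗ Y) ⟶ (st (DX D a ha)).obj ((triv G).obj B))
    (ev : (st D).obj (T' ⊗ Y.V) ≅ 𝟙_ (SC D))
    (h : ((rsA D a ha).map u2).hom = ev.hom ≫ (st D).map (MonObj.one (X := B))) :
    ∃ u : (st (DX D a ha)).obj Y ⟶ (st (DX D a ha)).obj ((triv G).obj Y.V ⊗ (triv G).obj B),
      ((rsA D a ha).map u).hom = (st D).map ((ρ_ Y.V).inv ≫ Y.V ◁ MonObj.one (X := B)) ∧
      ∃ (j : ℕ) (f : D.pw j (Y.V ⊗ T') ⟶ 𝟙_ M), IsIso ((st D).map f) ∧ ∀ ξ : Y.V ⟶ B,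
        (st (DX D a ha)).map (tt ((triv G).map f ≫ η (triv G)) Y) ≫ u ≫
          (st (DX D a ha)).map ((triv G).map ξ ▷ (triv G).obj B ≫
            μ (triv G) B B ≫ (triv G).map MonObj.mul) =
        (st (DX D a ha)).map (((triv G).map (D.tk j _) ≫ δ (triv G) Y.V T') ▷ Y ≫
          (α_ _ _ _).hom) ≫ ((st (DX D a ha)).map ((triv G).map ξ) ⊗ₘ u2) ≫
            (st (DX D a ha)).map (μ (triv G) B B ≫ (triv G).map MonObj.mul) := by
  obtain ⟨e, he⟩ := exists_coev (T := (st D).obj T') (Z := (st D).obj Y.V) ev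
  obtain ⟨j, f, hf⟩ := SC.exists_frac (A := Y.V ⊗ T') (B := 𝟙_ M) e.hom
  let i : 𝟙_ (SC (DX D a ha)) ⟶
      (st (DX D a ha)).obj ((triv G).obj Y.V) ⊗ (st (DX D a ha)).obj ((triv G).obj T') :=
    (st (DX D a ha)).map (ε (triv G)) ≫ (tau D a ha).map e.inv ≫
      (st (DX D a ha)).map (δ (triv G) Y.V T')
  refine ⟨(λ_ _).inv ≫ i ▷ (st (DX D a ha)).obj Y ≫ (α_ _ _ _).hom ≫
    (st (DX D a ha)).obj ((triv G).obj Y.V) ◁ u2, ?_, j, f, hf ▸ inferInstance, fun ξ => ?_⟩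
  · have hi : ((rsA D a ha).map i).hom = e.inv := by
      rw [Functor.map_comp, Functor.map_comp, Action.comp_hom, Action.comp_hom, rsA_st_hom,
        rsA_st_hom, rsA_tau_hom, triv_ε_hom, triv_δ_hom]
      exact (congrArg₂ (· ≫ e.inv ≫ ·) ((st D).map_id _) ((st D).map_id _)).trans
        ((Category.id_comp _).trans (Category.comp_id _))
    rw [Functor.map_comp, Functor.map_comp, Functor.map_comp, Action.comp_hom, Action.comp_hom,
      Action.comp_hom, rsA_whiskerRight_hom, rsA_whiskerLeft_hom, hi, h, ← SC.st_leftUnitor_inv,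
      ← SC.st_associator_hom, rsA_st_hom, rsA_st_hom, Action.leftUnitor_inv_hom,
      Action.associator_hom_hom, MonoidalCategory.whiskerLeft_comp, Functor.map_comp,
      SC.st_whiskerLeft, SC.st_rightUnitor_inv]
    exact (reassoc_of% he) _
  · have hk : (st (DX D a ha)).map ((triv G).map f ≫ η (triv G)) ≫ i =
        (st (DX D a ha)).map ((triv G).map (D.tk j _) ≫ δ (triv G) Y.V T') := by
      rw [← Functor.map_comp_assoc, Category.assoc, Functor.Monoidal.η_ε, Category.comp_id,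
        ← tau_st, ← hf, ← Functor.map_comp_assoc, Category.assoc, e.hom_inv_id, Functor.map_comp,
        Functor.map_comp, tau_st]
      exact congrArg (· ≫ _) ((congrArg (_ ≫ ·) ((tau D a ha).map_id _)).trans (Category.comp_id _))
    rw [tt, Functor.map_comp, Functor.map_comp _ (_ ▷ _), Functor.map_comp _ (_ ▷ _),
      SC.st_whiskerRight, SC.st_whiskerRight, SC.st_whiskerRight]
    exact coev_calc _ _ i hk u2 _ _

end Vale.Agent.P257.Det
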