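import Vale.Agent.P257.Det.SC1
import Vale.Agent.P257.Det.Pw
import Vale.Agent.P257.Det.ThomL
import Vale.Agent.P257.Det.ThomU
import Vale.Agent.P257.Det.End
import Vale.Agent.P257.W.DetM2

/-!
# P257, detection: the detection property of `MU`

`detO : W.DetO p E Gs`.
-/

open CategoryTheory MonoidalCategory Limits
open Functor.LaxMonoidal Functor.OplaxMonoidal

universe v

noncomputable section

namespace Vale.Agent.P257.Det

open Vale.Agent.P251.G Vale.Agent.P251.Q Vale.Agent.P251.Q.MultTheory Vale.Agent.P251.F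
open Vale.Agent.P251.G.LC (point)
open Vale.Agent.P257.A Vale.Agent.P257.D Vale.Agent.P257.E Vale.Agent.P257.P Vale.Agent.P257.K
open Vale.Agent.P257.T
open Equiv (Perm)

theorem dg_thP {G : Type} [Group G] {Y : Action (EF O) G} (PY : Pz Y)
    (hle : Fintype.card PY.Q.V.El ≤ Fintype.card PY.Q'.V.El) :
    PY.dg + ((thP PY).pz G).dg = 0 := by
  have h : Fintype.card (thC PY).El = Fintype.card PY.Q'.V.El - Fintype.card PY.Q.V.El :=
    Fintype.card_fin _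
  change _ + ((Fintype.card (thC PY).El : ℤ) - Fintype.card (thC PY ⊗ thC PY).El) = 0
  rw [← card_tensor, Pz.dg]
  omega

theorem rsA_inv {G : Type} [Group G] {D : Stab (EF O)} {U A B : Action (EF O) G} {a : U ⟶ 𝟙_ _}
    {ha : Rot a} [IsIso ((st D).map a.hom)] (t : A ⟶ B) [IsIso ((st (DX D a ha)).map t)] :
    (st D).map t.hom ≫ ((rsA D a ha).map (inv ((st (DX D a ha)).map t))).hom = 𝟙 _ := by
  rw [← rsA_st_hom D a ha, ← Action.comp_hom, ← Functor.map_comp, IsIso.hom_inv_id,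
    CategoryTheory.Functor.map_id]
  rfl

theorem isIso_of_rsA {G : Type} [Group G] {D : Stab (EF O)} {U A B : Action (EF O) G}
    {a : U ⟶ 𝟙_ _} (ha : Rot a) [IsIso ((st D).map a.hom)] (t : A ⟶ B)
    [IsIso ((st (DX D a ha)).map t)] : IsIso ((st D).map t.hom) :=
  rsA_st_hom D a ha t ▸ (Pz.isoV ((rsA D a ha).mapIso (asIso ((st _).map t)))).isIso_hom

section

variable {G : Type} [Group G] {E : MultTheory.{v}} {o : Orientation E} {B : LC} [CompactSpace B]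
  [GoodBase E B] {r : ℕ} {L : CycF B r} {g : G} (hg : g ^ (r + 1) = 1) {R : Type v} [CommRing R]
  {φ : E.U B →+* R} {D : Stab (Action (EF O) G)} {PU : Pz D.U} (hu : IsUnit (φ (vth o L g D PU)))
  {Y Y' : Action (EF O) G}
include hg hu

theorem hat_det {P : Pz Y} {P' : Pz Y'} {χ : Y ⟶ Y'} {w : E.U B} (hr : Pz.Rel o L g w (P.push χ) P')
    {h : (st D).obj Y' ⟶ (st D).obj ((triv G).obj MUo)} {N : Y ⟶ (triv G).obj MUo} {x}
    (e : (st D).map χ ≫ h = (st D).map N - x) {l : ℕ} {f : D.pw l Y' ⟶ _}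
    (hf : (st D).map (D.tk l Y') ≫ h = (st D).map f) : φ (w * (spw D PU P' l).val o L g f) =
      φ (vth o L g D PU) ^ l * (φ (P.val o L g N) - hat o L g φ D PU P x) := by
  rw [map_mul, ← hat_spec hg hu _ hf, mul_left_comm, ← hat_rel hg hu hr, hat_push hg hu, e,
    hat_sub hg hu, hat_st hg hu]

theorem hat_u {A Z T : EF O} {PA : Pz ((triv G).obj A)} (hT : PA.Triv) {f : A ⟶ 𝟙_ _} {a : E.A}
    (ha : a • o.lin _ = E.map (PA.tm (f ≫ MonObj.one)) (tauN o _)) {PZ : Pz ((triv G).obj Z)}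
    {PT : Pz ((triv G).obj T)} {t : A ⟶ Z ⊗ T} {c : E.U B}
    (hc : Pz.Rel o L g c (PA.push ((triv G).map t)) ((PZ.ten PT).push (μ (triv G) Z T))) (P : Pz Y)
    {x : (st D).obj Y ⟶ (st D).obj ((triv G).obj MUo)} {y}
    (e : (st D).map (tt ((triv G).map f ≫ η (triv G)) Y) ≫ x =
      (st D).map (((triv G).map t ≫ δ (triv G) Z T) ▷ Y ≫ (α_ _ _ _).hom) ≫ y) :
    φ (algebraMap E.A (E.U B) a) * hat o L g φ D PU P x =
      φ c * hat o L g φ D PU (PZ.ten (PT.ten P)) y := by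
  have h := ((hc.push (δ (triv G) _ _)).ten_right hg P).push (α_ _ _ _).hom
  rw [Pz.push_push, Pz.push_push (PZ.ten PT), Functor.Monoidal.μ_δ, Pz.push_id, Pz.push_ten_left,
    Pz.push_push] at h
  rw [← hat_rel hg hu (h.trans_one (Pz.rel_assoc hg _ _ _)), hat_push hg hu, ← e, ← hat_push hg hu,
    hat_rel hg hu (Pz.rel_tt hg _ _ _), Pz.val_triv o L hT g (x := a) (by simpa using ha.symm)]

end

section

variable {G : Type} [Group G] {E : ThomTheory.{v}} {D : Stab (EF O)} {cc : P257.C.Cells (SC D) ℤ}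
  [MonObj ((st D).obj MUo)] {p : ℕ} (hp : p.Prime) {Gs : L.RegSeq p E.A}
  (h0 : ∀ a ∈ Gs.gr 0, ∃ n : ℤ, a = n) {Q : L.Coef cc ((st D).obj MUo) Gs} (hQ : HasCls E (st D) Q)
  [IsIso ((st D).map (EF.lamC O))] {Y : Action (EF O) G}
include hp h0 hQ

theorem exists_int {P : Pz Y} (hP : P.Good D) (hd : P.dg = 0) (a : Y.V ⟶ 𝟙_ _)
    (ha : IsIso ((st D).map a)) : ∃ t : ℤ, ¬ (p : ℤ) ∣ t ∧
      (t : E.A) • E.o.lin _ = E.map (P.tm (a ≫ MonObj.one)) (tauN E.o _) := by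
  obtain ⟨c, hc⟩ := (smul_lin_bijective E.o _).2 (E.map (P.tm (a ≫ MonObj.one)) (tauN E.o _))
  obtain ⟨t, ht, rfl⟩ := exists_int_of_cl hp h0 (cl_unit hQ hP hd a hc) (cl_one hQ)
  exact ⟨t, ht, hc⟩

theorem exists_thom {U : Action (EF O) G} {a : U ⟶ 𝟙_ _} (ha : Rot a) [IsIso ((st D).map a.hom)]
    {P₀ : Pz ((triv G).obj D.U)} (t₀ : P₀.Triv) (g₀ : P₀.Good D) (d₀ : P₀.dg = 0) (PY : Pz Y)
    [IsIso PY.e] [IsIso PY.i] (hle : Fintype.card PY.Q.V.El ≤ Fintype.card PY.Q'.V.El)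
    [IsIso ((st (DX D a ha)).map (lamQ (𝟭 O) PY.Q'))] {PZ : Pz ((triv G).obj Y.V)} (t₁ : PZ.Triv)
    (g₁ : PZ.Good D) (d₁ : PZ.dg = PY.dg) :
    ∃ u : (st (DX D a ha)).obj Y ⟶ (st (DX D a ha)).obj ((triv G).obj Y.V ⊗ (triv G).obj MUo),
      ((rsA D a ha).map u).hom = (st D).map ((ρ_ Y.V).inv ≫ Y.V ◁ MonObj.one) ∧
      ∃ n : ℤ, ¬ (p : ℤ) ∣ n ∧ ∀ {B : LC} [CompactSpace B] [GoodBase E.toMultTheory B] {r : ℕ}
        (L : CycF B r) {g : G}, g ^ (r + 1) = 1 → ∃ z : E.A, ∀ {R : Type v} [CommRing R]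
        {φ : E.U B →+* R} {PU : Pz (DX D a ha).U}, IsUnit (φ (vth E.o L g _ PU)) →
        ∀ {ξ : Y.V ⟶ MUo} {c : E.A}, E.map (PZ.tm ξ) (tauN E.o _) = c • E.o.lin _ →
          n * hat E.o L g φ _ PU PY (u ≫ (st _).map ((triv G).map ξ ▷ _ ≫ mulT G)) =
            φ (algebraMap E.A (E.U B) (z * c)) := by
  obtain ⟨ψ, hψ⟩ := st_thU PY hle D
  have : IsIso ((st D).map (lamQ (𝟭 O) PY.Q').hom) := isIso_lamV (𝟭 O) _ _
  obtain ⟨u, hu, j, f, hf, hξ⟩ := exists_u (D := D) (ha := ha) (thT PY)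
    (inv ((st _).map (tt (lamQ (𝟭 O) PY.Q') _)) ≫ (st _).map (thU PY hle))
    ((asIso ((st D).map (tt (lamQ (𝟭 O) PY.Q').hom _))).symm ≪≫ ψ) (by
      rw [Functor.map_comp, Action.comp_hom, rsA_st_hom, hψ, Iso.trans_hom, Category.assoc]
      refine congrArg (· ≫ _) (IsIso.eq_inv_of_hom_inv_id ?_)
      exact (congrArg (fun y => (st D).map y ≫ _) (tt_hom _)).symm.trans (rsA_inv _))
  let P₁ := (PZ.ten ((thP PY).pz G)).push (μ (triv G) _ _)
  obtain ⟨n, hn, hc⟩ := exists_int hp h0 hQ (P := tpw D P₀ P₁ j)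
    (good_tpw g₀ ((g₁.ten (EvC.good_pz D _)).iso _) j)
    ((dg_tpw d₀ j).trans ((Pz.dg_ten _ _).trans (d₁ ▸ dg_thP PY hle))) f hf
  refine ⟨u, hu, n, hn, fun L g hg => ?_⟩
  obtain ⟨z, hz⟩ := rel_tpw (o := E.o) (L := L) hg t₀ P₁ j
  refine ⟨z, fun hφ ξ c h => ?_⟩
  have h1 := hat_u hg hφ (triv_tpw t₀ (t₁.ten (EvC.triv_pz _)) j) hc hz PY (hξ ξ)
  rw [map_intCast, map_intCast] at h1
  rw [map_mul, map_mul, ← Pz.val_triv E.o L t₁ g (f := (triv G).map ξ) h,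
    ← hat_thom hg hφ PZ _ _ _ (val_thU PY hle E.o L hg)]
  exact h1

omit hp h0 [IsIso ((st D).map (EF.lamC O))] in
theorem cl_of_frac {U : Action (EF O) G} {a : U ⟶ 𝟙_ _} (ha : Rot a) [IsIso ((st D).map a.hom)]
    {PU : Pz (DX D a ha).U} (g₀ : PU.Good D) (d₀ : PU.dg = 0) {P : Pz Y} (g₁ : P.Good D)
    {h : (st (DX D a ha)).obj Y ⟶ (st _).obj ((triv G).obj MUo)} {l : ℕ} {f}
    (hf : (st _).map ((DX D a ha).tk l Y) ≫ h = (st _).map f) {B : LC} [CompactSpace B]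
    [GoodBase E.toMultTheory B] {r : ℕ} (L : CycF B r) {g : G} (hg : g ^ (r + 1) = 1) (b : B) :
    Q.Cl P.dg (P := (st D).obj Y.V) ((rsA D a ha).map h).hom
      (E.toA (E.map (point b) ((spw _ PU P l).val E.o L g f))) := by
  have := isIso_of_rsA (D := D) ha ((DX D a ha).tk l Y)
  refine cl_of_good hQ (good_spw g₀ g₁ l) (asIso ((st D).map ((DX D a ha).tk l Y).hom)) ?_
    (Pz.val_pt E.o L hg _ f b) (dg_spw d₀ l)
  have h1 := congrArg (fun y => ((rsA D a ha).map y).hom) hf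
  rwa [Functor.map_comp, Action.comp_hom, rsA_st_hom, rsA_st_hom] at h1

end

theorem dg_rr_pow {X : EF O} (P : EvC X) {r m : ℕ}
    (hP : Fintype.card P.c.El + ((r + 1) ^ m - 1) = Fintype.card P.c'.El) :
    (P.pow (Fin (r + 1)) (Perm (Fin (r + 1)))).rr.dg = ((r + 1 : ℕ) : ℤ) ^ (m + 1) - 1 := by
  refine (Pz.dg_rr _).trans ((congrArg₂ (fun a b : ℕ => (a : ℤ) - b + _) (card_pw' _ _).symm
    (card_pw' _ _).symm).trans ?_)
  rw [← hP, Z.pd, Nat.card_eq_fintype_card, Fintype.card_fin, Nat.add_sub_cancel]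
  push_cast [Nat.cast_sub (Nat.one_le_pow m _ r.succ_pos)]
  ring

/-- **The detection property.** -/
theorem detO {p : ℕ} [hp : Fact p.Prime] (E : ThomTheory.{v}) (hR : RepRel E.o)
    (hreg : ∀ a : E.A, (p : E.A) * a = 0 → a = 0) (Gs : L.RegSeq p E.A)
    (hv : ∀ m, Gs.v m = vF p E.o.law.toFG m) (hI : ∀ m, Gs.I m = IF p E.o.law.toFG m)
    (h0 : ∀ a ∈ Gs.gr 0, ∃ n : ℤ, a = n) : W.DetO p E Gs := by
  obtain ⟨r, rfl⟩ : ∃ r, p = r + 1 := ⟨p - 1, (Nat.succ_pred_eq_of_pos hp.out.pos).symm⟩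
  intro _ Q hQ m X P hP
  let G := Perm (Fin (r + 1))
  let D := De O (r + 1)
  let DH := Dh (𝟭 O) (r + 1) (Fin (r + 1))
  have ha := rot_aP (𝟭 O) (syl (r + 1) (Fin (r + 1))).toSubgroup
  obtain ⟨u, hu, a, k1, hz⟩ := exists_thom hp.out h0 hQ ha evU.triv_pz (evU.good_pz D) (sub_self _)
    (P.pow (Fin (r + 1)) G) ((card_pw' _ _).symm.trans_le ((Nat.mul_le_mul_left _
      (Nat.le.intro hP)).trans_eq (card_pw' _ _))) (P.big _).triv_pz (EvC.good_pz D _) rfl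
  refine ⟨u, hu, fun x h hx e => ?_⟩
  obtain ⟨c, hc⟩ := (smul_lin_bijective E.o _).2 (E.map ((P.pz G).tm x) (tauN E.o _))
  obtain ⟨n, hn, hcn⟩ := exists_unit_of_isV hp.out h0 (hv m) (hI m) hx
    (cl_of_good hQ (P.good_pz (G := G) D) (Iso.refl _) (Category.id_comp _) hc (by
      change (Fintype.card P.c'.El : ℤ) - Fintype.card P.c.El = _
      rw [← hP, Nat.cast_add, Nat.cast_sub (Nat.one_le_pow m _ r.succ_pos), Nat.cast_pow]
      ring))
  obtain ⟨k, hk⟩ := det_end E hR hp.out hreg m _ c hc.symm hP n hcn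
  have hg := cyc_pow r
  let PU' : Pz DH.U := PU (permRep G G)
  obtain ⟨t, ht, htc⟩ := exists_int hp.out h0 hQ (P := PU') (good_PU D _) (dg_PU _) DH.lam.hom
    (isIso_of_rsA ha _)
  have hth : ∀ b, E.toA (E.map (point b) (vth E.o (lensCyc r k) (cyc r) DH PU')) = t := fun b =>
    (smul_lin_bijective E.o _).1 ((PU'.val_pt E.o _ hg _ b).trans (by
      rw [Action.comp_hom, oneT_hom]
      exact htc.symm))
  have hφ := (isUnit_of_pt hp.out _ t ht hth).2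
  obtain ⟨z, hz⟩ := hz (lensCyc r k) hg
  obtain ⟨l, f, hf⟩ := SC.exists_frac h
  obtain ⟨s, hs, hk⟩ := hk _ _ _ l t a z _ ht k1 hth (P.isPsi_pow x E r k)
    (hat_det hg hφ (rel_am_am E r k _) e hf) (hz hφ (P.cls_pow x E.o G (r + 1) hc.symm))
  refine ⟨_, s * n, dg_rr_pow P hP ▸ cl_of_frac hQ ha (good_PU D _) (dg_PU _)
    (Pz.good_of_isIso D (P.pow _ G)).rr hf (lensCyc r k) hg (lensBasePt (r + 1) k),
    L.not_dvd_mul hp.out hs hn, ?_⟩
  rw [hv, hI, zsmul_eq_mul, Int.cast_mul]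
  exact hk

end Vale.Agent.P257.Det
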