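import Vale.Agent.P257.Det.Hat
import Vale.Agent.P257.Det.RRv

/-!
# P257, detection: presentations of the stabilisations

* `cl_of_good` : classes of maps from stably even cells;
* `tpw` : the presentations of the non-equivariant stabilisations;
* `PU` : the presentation of the source of the structure map of `DP`;
* `rel_am_am` : the class of `a ⊗ a`, `hat_thom` : the class of `x ^ p u`.
-/

set_option linter.unusedSectionVars false

open CategoryTheory MonoidalCategory Limits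
open Functor.LaxMonoidal Functor.OplaxMonoidal

universe v w

noncomputable section

namespace Vale.Agent.P257.Det

open Vale.Agent.P251.H.StabInput (S)
open Vale.Agent.P251.G Vale.Agent.P251.Q Vale.Agent.P251.Q.MultTheory
open Vale.Agent.P251.G.LC (RR point)
open Vale.Agent.P257.D Vale.Agent.P257.E Vale.Agent.P257.P Vale.Agent.P257.K
open Vale.Agent.P257.Z (unt pd)
open Vale.Agent.P257.W (am)
open Equiv (Perm)

theorem smul_lin_bijective {E : MultTheory.{v}} (o : Orientation E) (W : Type) [Fintype W]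
    [DecidableEq W] : Function.Bijective fun a : E.A => a • o.lin W :=
  (map_iso_bijective (λ_ (Cpow W)).symm).comp (lin_bijective o W (𝟙_ LC))

variable {G : Type} [Group G] {X Y Z : Action (EF O) G}

section cls

variable {E : ThomTheory.{v}} {D : Stab (EF O)} {cc : P257.C.Cells (SC D) ℤ}
  [MonObj ((st D).obj MUo)] {p : ℕ} {Gs : L.RegSeq p E.A} {Q : L.Coef cc ((st D).obj MUo) Gs}
  (hQ : HasCls E (st D) Q)
include hQ

theorem cl_of_good {P : Pz Y} (hP : P.Good D) {A : SC D} (ψ : (st D).obj Y.V ≅ A)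
    {x : A ⟶ (st D).obj MUo} {f : Y.V ⟶ MUo} (hf : ψ.hom ≫ x = (st D).map f) {a : E.A}
    (ha : a • E.o.lin _ = E.map (P.tm f) (tauN E.o _)) {n : ℤ} (hn : P.dg = n) : Q.Cl n x a := by
  obtain ⟨_, _⟩ := hP
  refine hQ P.Q.V P.Q'.V P.K.V (asIso P.e) A (asIso ((st D).map P.i) ≪≫ ψ) x (P.i ≫ f) a n
    (by rw [← hn, Pz.dg]; ring) (by simp [hf]) ?_
  rw [linV, ← MultTheory.map_smul, ha, ← MultTheory.map_comp, Pz.tm, Iso.hom_inv_id_assoc, asIso_hom]

theorem cl_one [IsIso ((st D).map (EF.lamC O))] : Q.Cl 0 ((st D).map MonObj.one) 1 :=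
  cl_of_good hQ (good_P1 Unit D) (Iso.refl _) (Category.id_comp _)
    (by rw [tm_P1, map_inN_tau, one_smul]) (dg_P1 _)

theorem cl_unit {P : Pz Y} (hP : P.Good D) (h0 : P.dg = 0) (a : Y.V ⟶ 𝟙_ _)
    [IsIso ((st D).map a)] {t : E.A}
    (ht : t • E.o.lin _ = E.map (P.tm (a ≫ MonObj.one)) (tauN E.o _)) :
    Q.Cl 0 ((st D).map MonObj.one) t :=
  cl_of_good hQ hP (asIso ((st D).map a)) ((st D).map_comp _ _).symm ht h0

end cls

/-- the presentation of the source of the standard structure map -/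
def evU : EvC (EF.rep O.pt ⊗ S (EF O)) :=
  ⟨O.pt, O.pt, RR, whiskerRightIso O.lineIso.symm _, Iso.refl _⟩

theorem Pz.Good.iso {D : Stab (EF O)} {P : Pz X} (h : P.Good D) (φ : X ⟶ Y) [IsIso φ] :
    (P.push φ).Good D :=
  have : IsIso φ.hom := (Pz.isoV (asIso φ)).isIso_hom
  h.push φ

theorem EvC.good_pz (D : Stab (EF O)) {X : EF O} (P : EvC X) : (P.pz G).Good D :=
  ⟨P.e.isIso_hom, ((st D).mapIso P.i).isIso_hom⟩

section tpw

variable (D : Stab (EF O)) (P₀ : Pz ((triv G).obj D.U)) {A : EF O} (P : Pz ((triv G).obj A))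

/-- the presentations of the non-equivariant stabilisations -/
def tpw : ∀ j, Pz ((triv G).obj (D.pw j A))
  | 0 => P
  | j + 1 => (P₀.ten (tpw j)).push (μ (triv G) _ _)

variable {D P₀ P}

theorem triv_tpw (h₀ : P₀.Triv) (h : P.Triv) : ∀ j, (tpw D P₀ P j).Triv
  | 0 => h
  | j + 1 => h₀.ten (triv_tpw h₀ h j)

theorem good_tpw {D' : Stab (EF O)} (h₀ : P₀.Good D') (h : P.Good D') :
    ∀ j, (tpw D P₀ P j).Good D'
  | 0 => h
  | j + 1 => (h₀.ten (good_tpw h₀ h j)).iso _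

theorem dg_tpw (h₀ : P₀.dg = 0) : ∀ j, (tpw D P₀ P j).dg = P.dg
  | 0 => rfl
  | j + 1 => (P₀.dg_ten _).trans (by rw [h₀, dg_tpw h₀ j, zero_add])

end tpw

theorem good_spw {D' : Stab (EF O)} {D : Stab (Action (EF O) G)} {PU : Pz D.U} {P : Pz Y}
    (h₀ : PU.Good D') (h : P.Good D') : ∀ k, (spw D PU P k).Good D'
  | 0 => h
  | k + 1 => h₀.ten (good_spw h₀ h k)

theorem dg_spw {D : Stab (Action (EF O) G)} {PU : Pz D.U} {P : Pz Y} (h₀ : PU.dg = 0) :
    ∀ k, (spw D PU P k).dg = P.dg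
  | 0 => rfl
  | k + 1 => (PU.dg_ten _).trans (by rw [h₀, dg_spw h₀ k, zero_add])

theorem good_lam (D : Stab (EF O)) (Q : Action O G) : (Pz.lam Q).Good D :=
  ⟨IsIso.id _, ((st D).mapIso (Iso.refl _)).isIso_hom⟩

/-- the presentation of the source of the equivariant structure map -/
@[reducible] def PU (Q : Action O G) : Pz (((repA (𝟭 O) Q ⊗ sphQ O Q) ⊗ (triv G).obj (EF.rep O.pt)) ⊗
    S (Action (EF O) G)) :=
  ((Pz.lam Q).ten ((evU.pz G).push (δ (triv G) _ _))).push (α_ _ _ _).inv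

theorem good_PU (D : Stab (EF O)) (Q : Action O G) : (PU Q).Good D :=
  ((good_lam D Q).ten ((evU.good_pz D).iso _)).iso _

theorem dg_PU (Q : Action O G) : (PU Q).dg = 0 :=
  (Pz.dg_ten _ _).trans ((congrArg₂ (· + ·) (sub_self _) (sub_self _)).trans (add_zero 0))

variable {E : MultTheory.{v}} {o : Orientation E} {B : LC} [CompactSpace B] [GoodBase E B] {r : ℕ}
  {L : CycF B r} {g : G} (hg : g ^ (r + 1) = 1)
include hg

theorem rel_tpw {D : Stab (EF O)} {P₀ : Pz ((triv G).obj D.U)} (h₀ : P₀.Triv) {A : EF O}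
    (P : Pz ((triv G).obj A)) (j : ℕ) : ∃ z : E.A, Pz.Rel o L g (algebraMap E.A (E.U B) z)
      ((tpw D P₀ P j).push ((triv G).map (D.tk j A))) P := by
  obtain ⟨c, hc⟩ := (smul_lin_bijective o _).2 (E.map (P₀.tm (D.lam ≫ MonObj.one)) (tauN o _))
  induction j with
  | zero => 
    refine ⟨1, ?_⟩
    rw [map_one, D.tk_zero, CategoryTheory.Functor.map_id, Pz.push_id]
    exact Pz.Rel.refl P
  | succ j ih =>
    obtain ⟨z, ih⟩ := ih
    have h := ((Pz.rel_tt (o := o) (L := L) hg P₀ ((triv G).map D.lam ≫ η (triv G))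
      (tpw D P₀ P j)).push ((triv G).map (D.tk j A))).trans ih
    rw [Pz.val_triv o L h₀ g (x := c) (by simpa using hc.symm), ← map_mul, Pz.push_push] at h
    refine ⟨_, cast (congrArg (Pz.Rel o L g _ · P) ?_) h⟩
    refine Eq.trans (congrArg _ (Action.hom_ext _ _ ?_)) (Pz.push_push _ _ _).symm
    simp [D.tk_succ, Stab.t, tt]

theorem rel_P1 (R : Pz X) : Pz.Rel o L g 1 ((R.ten (P1 G)).push (ρ_ X).hom) R :=
  ⟨fun f => by rw [Pz.val_push, val_ten_P1 o L hg, one_mul], fun R' f => by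
    rw [Pz.ten_push, Pz.val_push, Pz.val_assoc hg, one_mul, ← val_ten_P1 o L hg (R'.ten R)]
    simp⟩

variable {R : Type w} [CommRing R] {φ : E.U B →+* R} {D : Stab (Action (EF O) G)} {PU : Pz D.U}
  (hu : IsUnit (φ (vth o L g D PU)))
include hu

theorem hat_thom (PX : Pz X) (PY : Pz Y) (Q : Action O G) [IsIso ((st D).map (lamQ (𝟭 O) Q))]
    (u : (repA (𝟭 O) Q ⊗ sphQ O Q) ⊗ Y ⟶ (triv G).obj MUo)
    (h : ((Pz.lam Q).ten PY).val o L g u = 1) (ξ : X ⟶ (triv G).obj MUo) :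
    hat o L g φ D PU (PX.ten PY) (((st D).map ξ ⊗ₘ (inv ((st D).map (tt (lamQ (𝟭 O) Q) Y)) ≫
      (st D).map u)) ≫ (st D).map (mulT G)) = φ (PX.val o L g ξ) := by
  have k := hat_rel (φ := φ) (PU := PU) hg hu (((Pz.rel_tt (o := o) (L := L) hg (Pz.lam Q)
    (lamQ (𝟭 O) Q) PY)).ten_left hg PX) (((st D).map ξ ⊗ₘ (inv ((st D).map (tt (lamQ (𝟭 O) Q) Y)) ≫
      (st D).map u)) ≫ (st D).map (mulT G))
  rw [Pz.val_lam o L hg, map_one, one_mul, Pz.ten_push, hat_push hg hu] at k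
  rw [← k, ← mul_one (PX.val o L g ξ), ← h, ← Pz.val_ten o L hg, ← hat_st hg hu, Functor.map_comp,
    SC.st_tensorHom, SC.st_whiskerLeft, ← id_tensorHom, tensorHom_comp_tensorHom_assoc,
    Category.id_comp, IsIso.hom_inv_id_assoc]

omit hg hu

theorem rel_am_am (E : ThomTheory.{v}) (r k : ℕ) {X : Action (EF O) (Perm (Fin (r + 1)))}
    (R : Pz X) : Pz.Rel E.o (lensCyc r k) (cyc r) (wk E.o r k)
      (R.push (am (unt _ (pd _) (EF O)) X ≫ am (unt _ (pd _) (EF O)) _)) R.rr := by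
  have h := ((((cmpRR (Fin (r + 1))).rel (o := E.o) (L := lensCyc r k) (cyc_pow r)).ten_left
    (cyc_pow r) R).push (α_ _ _ _).inv)
  have h' := (rel_P1 (o := E.o) (L := lensCyc r k) (cyc_pow r) R).symm.push
    (am (unt _ (pd (Fin (r + 1))) (EF O)) X ≫ am (unt _ (pd (Fin (r + 1))) (EF O)) _)
  rw [Pz.push_push, am_am, Iso.hom_inv_id_assoc] at h'
  rw [Pz.ten_push, Pz.push_push (R.ten _)] at h
  rw [am_am]
  exact dgr_cmpRR E r k ▸ h'.one_trans h

end Vale.Agent.P257.Det
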