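import Vale.Agent.P257.Det.SC
import Vale.Agent.P257.P.Inst

/-!
# P257, detection: the detection property of `MU`, unconditionally

`detO_EM : DetO p (EM σ) (GM σ hp h2)` and `detM_MG : DetM p (QG σ hp h2).IsV`.
-/

namespace Vale.Agent.P257.W

open L

variable {U : P251.St.SHCat} (σ : P251.St.Susp U) {p : ℕ} [Fact p.Prime] (hp : p.Prime) (h2 : p ≠ 2)

/-- **DETO** -/
theorem detO_EM : DetO p (EM σ) (GM σ hp h2) :=
  Det.detO _ (EMU_repRel _ _) (fun a h => (EMU_qData _ _ hp h2).torsion a (by rwa [nsmul_eq_mul]))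
    _ (fun _ => rfl) (fun _ => rfl) fun a ha =>
      ((EM σ).deg_unit_zero _ ha).imp fun n h => h.trans (zsmul_one (R := (EM σ).A) n)

/-- **DETM** -/
theorem detM_MG : DetM p fun m => (QG σ hp h2).IsV m := detM_QG σ hp h2 (detO_EM σ hp h2)

end Vale.Agent.P257.W
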