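import Vale.Agent.P251.Q.FGL
import Vale.Agent.P251.F.Height
import Mathlib.RingTheory.AdjoinRoot
import Mathlib.NumberTheory.Wilson

/-!
# P257, detection: truncated polynomial rings and the isogeny `f(z) = ∏ (z +_F [j] t)`

* `TR S N = S[z] / z^(N+1)` with its coefficients `coef l`, `l ≤ N`;
* `fz F p x t = x ∏_{0<j<p} F(x, [j] t)`;
* `tri` : the triangular system `∑ C_j f(z)^(j+1) = f([p] z)` over a ring with `t^p = 0` in which
  `I_{m+1}` vanishes.
-/

open Polynomial Finset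
open Vale.Agent.P217 Vale.Agent.P251.F Vale.Agent.P251.Q

noncomputable section

namespace Vale.Agent.P257.Det

/-! ### Values of a formal group law at nilpotent elements -/

section fgl

variable {A S S' : Type*} [CommRing A] [CommRing S] [Algebra A S] [CommRing S'] [Algebra A S']
  (F : FormalGroup A)

theorem nev_zero_left {s : S} (hs : IsNilpotent s) : nev ![0, s] F.toPowerSeries = s := by
  have h := nev1_subst₂ hs (f := (0 : PowerSeries A)) (g := PowerSeries.X) (map_zero _)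
    PowerSeries.constantCoeff_X F.toPowerSeries
  rw [nev1_zero hs, nev1_X hs] at h
  rw [← h]
  exact (congrArg (nev1 s) F.zeroX_eq_X).trans (nev1_X hs)

theorem nev_zero_right {s : S} (hs : IsNilpotent s) : nev ![s, 0] F.toPowerSeries = s := by
  have h := nev1_subst₂ hs (f := PowerSeries.X) (g := (0 : PowerSeries A))
    PowerSeries.constantCoeff_X (map_zero _) F.toPowerSeries
  rw [nev1_zero hs, nev1_X hs] at h
  rw [← h]
  exact (congrArg (nev1 s) F.Xzero_eq_X).trans (nev1_X hs)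

theorem map_nev_pair (φ : S →ₐ[A] S') {x s : S} (hx : IsNilpotent x) (hs : IsNilpotent s)
    (G : MvPowerSeries (Fin 2) A) : φ (nev ![x, s] G) = nev ![φ x, φ s] G := by
  rw [map_nev φ (isNilpotent_pair hx hs)]
  congr 1
  funext i
  fin_cases i <;> rfl

theorem dvd_nev_sub_right {x s : S} (hx : IsNilpotent x) (hs : IsNilpotent s) :
    x ∣ nev ![x, s] F.toPowerSeries - s := by
  rw [← Ideal.mem_span_singleton, ← Ideal.Quotient.eq]
  have h := map_nev_pair (Ideal.Quotient.mkₐ A (Ideal.span {x})) hx hs F.toPowerSeries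
  have h0 : Ideal.Quotient.mkₐ A (Ideal.span {x}) x = 0 :=
    Ideal.Quotient.eq_zero_iff_mem.2 (Ideal.mem_span_singleton_self x)
  rw [h0, nev_zero_left F (hs.map _)] at h
  exact h

theorem dvd_nev_sub_left {x s : S} (hx : IsNilpotent x) (hs : IsNilpotent s) :
    s ∣ nev ![x, s] F.toPowerSeries - x := by
  rw [← Ideal.mem_span_singleton, ← Ideal.Quotient.eq]
  have h := map_nev_pair (Ideal.Quotient.mkₐ A (Ideal.span {s})) hx hs F.toPowerSeries
  have h0 : Ideal.Quotient.mkₐ A (Ideal.span {s}) s = 0 :=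
    Ideal.Quotient.eq_zero_iff_mem.2 (Ideal.mem_span_singleton_self s)
  rw [h0, nev_zero_right F (hx.map _)] at h
  exact h

theorem dvd_nev1 {t : S} (ht : IsNilpotent t) {g : PowerSeries A}
    (hg : PowerSeries.constantCoeff g = 0) : t ∣ nev1 t g := by
  obtain ⟨g', rfl⟩ := PowerSeries.X_dvd_iff.2 hg
  rw [nev1_mul ht, nev1_X ht]
  exact dvd_mul_right _ _

theorem nev1_prod {t : S} (ht : IsNilpotent t) {ι : Type*} (s : Finset ι) (g : ι → PowerSeries A) :
    nev1 t (∏ i ∈ s, g i) = ∏ i ∈ s, nev1 t (g i) := by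
  classical
  induction s using Finset.induction_on with
  | empty => rw [prod_empty, prod_empty, nev1_one ht]
  | insert a s ha ih => rw [prod_insert ha, prod_insert ha, nev1_mul ht, ih]

/-- `[j] t` -/
def mt (j : ℕ) (t : S) : S := nev1 t (multSeries F j)

theorem isNilpotent_mt (j : ℕ) {t : S} (ht : IsNilpotent t) : IsNilpotent (mt F j t) :=
  isNilpotent_nev1 ht (constantCoeff_multSeries F j)

theorem dvd_mt (j : ℕ) {t : S} (ht : IsNilpotent t) : t ∣ mt F j t :=
  dvd_nev1 ht (constantCoeff_multSeries F j)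

theorem map_mt (φ : S →ₐ[A] S') (j : ℕ) {t : S} (ht : IsNilpotent t) :
    φ (mt F j t) = mt F j (φ t) := map_nev1 φ ht _

/-- `f(x) = x ∏_{0<j<p} F(x, [j] t)` -/
def fz (p : ℕ) (x t : S) : S :=
  x * ∏ j ∈ range (p - 1), nev ![x, mt F (j + 1) t] F.toPowerSeries

theorem map_fz (φ : S →ₐ[A] S') (p : ℕ) {x t : S} (hx : IsNilpotent x) (ht : IsNilpotent t) :
    φ (fz F p x t) = fz F p (φ x) (φ t) := by
  rw [fz, fz, map_mul, map_prod]
  congr 1
  refine prod_congr rfl fun j _ => ?_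
  rw [map_nev_pair φ hx (isNilpotent_mt F _ ht), map_mt F φ _ ht]

theorem nev1_wSeries (p : ℕ) {t : S} (ht : IsNilpotent t) :
    nev1 t (wSeries F p) = ∏ j ∈ range (p - 1), mt F (j + 1) t := by
  rw [wSeries, nev1_prod ht]
  rfl

/-- congruences of products -/
theorem dvd_prod_sub_prod {ι : Type*} (s : Finset ι) {a : S} {x y : ι → S}
    (h : ∀ i ∈ s, a ∣ x i - y i) : a ∣ ∏ i ∈ s, x i - ∏ i ∈ s, y i := by
  rw [← Ideal.mem_span_singleton, ← Ideal.Quotient.eq, map_prod, map_prod]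
  refine prod_congr rfl fun i hi => ?_
  rw [Ideal.Quotient.eq, Ideal.mem_span_singleton]
  exact h i hi

theorem fz_of_sq_zero (p : ℕ) {x t : S} (hx : x * x = 0) (ht : IsNilpotent t) :
    fz F p x t = x * nev1 t (wSeries F p) := by
  have hx' : IsNilpotent x := ⟨2, by rw [sq, hx]⟩
  obtain ⟨c, hc⟩ := dvd_prod_sub_prod (range (p - 1)) (a := x)
    (x := fun j => nev ![x, mt F (j + 1) t] F.toPowerSeries) (y := fun j => mt F (j + 1) t)
    (fun j _ => dvd_nev_sub_right F hx' (isNilpotent_mt F _ ht))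
  rw [fz, nev1_wSeries F p ht, sub_eq_iff_eq_add.1 hc, mul_add, ← mul_assoc, hx, zero_mul, zero_add]

theorem dvd_fz_sub_pow {p : ℕ} (hp : 1 ≤ p) {x t : S} (hx : IsNilpotent x) (ht : IsNilpotent t) :
    t ∣ fz F p x t - x ^ p := by
  obtain ⟨c, hc⟩ := dvd_prod_sub_prod (range (p - 1)) (a := t)
    (x := fun j => nev ![x, mt F (j + 1) t] F.toPowerSeries) (y := fun _ => x)
    (fun j _ => (dvd_mt F (j + 1) ht).trans (dvd_nev_sub_left F hx (isNilpotent_mt F _ ht)))
  rw [prod_const, card_range] at hc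
  have h1 : x ^ p = x * x ^ (p - 1) := by
    rw [← pow_succ']
    congr 1
    omega
  rw [fz, h1, ← mul_sub, hc]
  exact Dvd.intro (x * c) (by ring)

end fgl

/-! ### Truncated polynomial rings -/

section trunc

variable {S S' : Type*} [CommRing S] [CommRing S']

/-- `S[z] / z^(N+1)` -/
abbrev TR (S : Type*) [CommRing S] (N : ℕ) : Type _ := AdjoinRoot (X ^ (N + 1) : S[X])

/-- the generator -/
abbrev TR.z (S : Type*) [CommRing S] (N : ℕ) : TR S N := AdjoinRoot.root _

theorem TR.z_pow (S : Type*) [CommRing S] (N : ℕ) : TR.z S N ^ (N + 1) = 0 := by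
  rw [TR.z, ← AdjoinRoot.mk_X, ← map_pow, AdjoinRoot.mk_self]

theorem TR.isNilpotent_z (S : Type*) [CommRing S] (N : ℕ) : IsNilpotent (TR.z S N) :=
  ⟨_, TR.z_pow S N⟩

variable {N : ℕ}

theorem TR.mk_eq_zero_iff (P : S[X]) :
    AdjoinRoot.mk (X ^ (N + 1) : S[X]) P = 0 ↔ ∀ l ≤ N, P.coeff l = 0 := by
  rw [AdjoinRoot.mk_eq_zero, X_pow_dvd_iff]
  exact ⟨fun h l hl => h l (by omega), fun h l hl => h l (by omega)⟩

theorem TR.coeff_eq_of_mk_eq {P Q : S[X]}
    (h : AdjoinRoot.mk (X ^ (N + 1) : S[X]) P = AdjoinRoot.mk (X ^ (N + 1) : S[X]) Q) {l : ℕ}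
    (hl : l ≤ N) : P.coeff l = Q.coeff l := by
  have h1 : AdjoinRoot.mk (X ^ (N + 1) : S[X]) (P - Q) = 0 := by rw [map_sub, h, sub_self]
  have h2 := (TR.mk_eq_zero_iff _).1 h1 l hl
  rwa [coeff_sub, sub_eq_zero] at h2

variable {A : Type*} [CommRing A] [Algebra A S] [Algebra A S']

theorem TR.ev₂ {W : Type*} [CommRing W] (i : S →+* W) {z : W} (hz : z ^ (N + 1) = 0) :
    eval₂ i z (X ^ (N + 1) : S[X]) = 0 := by
  rw [eval₂_pow, eval₂_X, hz]

/-- change of coefficients -/
def TR.map (φ : S →ₐ[A] S') (N : ℕ) : TR S N →ₐ[A] TR S' N where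
  toRingHom := AdjoinRoot.lift ((AdjoinRoot.of _).comp φ.toRingHom) (TR.z S' N)
    (TR.ev₂ _ (TR.z_pow S' N))
  commutes' a := by
    change AdjoinRoot.lift _ _ (TR.ev₂ _ (TR.z_pow S' N))
      (AdjoinRoot.of _ (algebraMap A S a)) = _
    rw [AdjoinRoot.lift_of]
    change AdjoinRoot.of _ (φ (algebraMap A S a)) = _
    rw [φ.commutes]
    rfl

theorem TR.map_z (φ : S →ₐ[A] S') : TR.map φ N (TR.z S N) = TR.z S' N :=
  AdjoinRoot.lift_root (TR.ev₂ _ (TR.z_pow S' N))

theorem TR.map_of (φ : S →ₐ[A] S') (s : S) :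
    TR.map φ N (algebraMap S (TR S N) s) = algebraMap S' (TR S' N) (φ s) :=
  AdjoinRoot.lift_of (TR.ev₂ _ (TR.z_pow S' N))

theorem TR.map_mk (φ : S →ₐ[A] S') (P : S[X]) :
    TR.map φ N (AdjoinRoot.mk _ P) = AdjoinRoot.mk _ (P.map φ.toRingHom) := by
  change AdjoinRoot.lift _ _ (TR.ev₂ _ (TR.z_pow S' N)) (AdjoinRoot.mk _ P) = _
  rw [AdjoinRoot.lift_mk, ← eval₂_map, ← AdjoinRoot.aeval_eq, aeval_def]
  rfl

theorem TR.map_injective {φ : S →ₐ[A] S'} (hφ : Function.Injective φ) :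
    Function.Injective (TR.map φ N) := by
  rw [injective_iff_map_eq_zero]
  intro y hy
  obtain ⟨P, rfl⟩ := AdjoinRoot.mk_surjective y
  rw [TR.map_mk, TR.mk_eq_zero_iff] at hy
  rw [TR.mk_eq_zero_iff]
  intro l hl
  have h := hy l hl
  rw [coeff_map] at h
  exact hφ (h.trans (map_zero φ).symm)

/-- an element killed by `a` goes to zero if all elements of `S` killed by `a` do -/
theorem TR.map_eq_zero (φ : S →ₐ[A] S') {a : S} (h : ∀ s, a * s = 0 → φ s = 0) {y : TR S N}
    (hy : algebraMap S (TR S N) a * y = 0) : TR.map φ N y = 0 := by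
  obtain ⟨P, rfl⟩ := AdjoinRoot.mk_surjective y
  rw [TR.map_mk, TR.mk_eq_zero_iff]
  have h1 : AdjoinRoot.mk (X ^ (N + 1) : S[X]) (C a * P) = 0 := by
    rw [map_mul, AdjoinRoot.mk_C]
    exact hy
  rw [TR.mk_eq_zero_iff] at h1
  intro l hl
  have h2 := h1 l hl
  rw [coeff_C_mul] at h2
  rw [coeff_map]
  exact h _ h2

variable {W : Type*} [CommRing W] [Algebra S W] [Algebra A W] [IsScalarTower A S W]

/-- evaluation at an element with `z^(N+1) = 0` -/
def TR.lift (A : Type*) [CommRing A] [Algebra A S] [Algebra A W] [IsScalarTower A S W] (z : W)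
    (hz : z ^ (N + 1) = 0) : TR S N →ₐ[A] W where
  toRingHom := AdjoinRoot.lift (algebraMap S W) z (TR.ev₂ _ hz)
  commutes' a := by
    change AdjoinRoot.lift _ _ (TR.ev₂ _ hz) (AdjoinRoot.of _ (algebraMap A S a)) = _
    rw [AdjoinRoot.lift_of, ← IsScalarTower.algebraMap_apply]

theorem TR.lift_z (z : W) (hz : z ^ (N + 1) = 0) : TR.lift (S := S) A z hz (TR.z S N) = z :=
  AdjoinRoot.lift_root (TR.ev₂ _ hz)

theorem TR.lift_of (z : W) (hz : z ^ (N + 1) = 0) (s : S) :
    TR.lift A z hz (algebraMap S (TR S N) s) = algebraMap S W s :=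
  AdjoinRoot.lift_of (TR.ev₂ _ hz)

theorem TR.lift_injective {z : W} (hz : z ^ (N + 1) = 0)
    (hli : ∀ a : ℕ → S, ∑ l ∈ range (N + 1), a l • z ^ l = 0 → ∀ l ≤ N, a l = 0) :
    Function.Injective (TR.lift (S := S) A z hz) := by
  rw [injective_iff_map_eq_zero]
  intro y hy
  obtain ⟨P, rfl⟩ := AdjoinRoot.mk_surjective y
  rw [TR.mk_eq_zero_iff]
  refine hli (fun l => P.coeff l) ?_
  have h1 : TR.lift (S := S) A z hz (AdjoinRoot.mk _ P) = aeval z P := by
    change AdjoinRoot.lift _ _ (TR.ev₂ _ hz) (AdjoinRoot.mk _ P) = _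
    rw [AdjoinRoot.lift_mk, aeval_def]
  rw [h1, aeval_eq_sum_range' (n := P.natDegree + (N + 1) + 1) (by omega)] at hy
  rw [← hy]
  refine sum_subset (range_subset_range.2 (by omega)) fun l _ hl => ?_
  rw [mem_range, not_lt] at hl
  rw [pow_eq_zero_of_le hl hz, smul_zero]

/-! ### The filtration by powers of `(z, t)` -/

/-- the coefficient of `X ^ l` is divisible by `t ^ (n - l)` -/
def JP (t : S) (n : ℕ) (P : S[X]) : Prop := ∀ l, t ^ (n - l) ∣ P.coeff l

theorem JP.zero (t : S) (P : S[X]) : JP t 0 P := fun l => by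
  rw [Nat.zero_sub, pow_zero]
  exact one_dvd _

theorem JP.mul {t : S} {a b : ℕ} {P Q : S[X]} (hP : JP t a P) (hQ : JP t b Q) :
    JP t (a + b) (P * Q) := fun l => by
  rw [coeff_mul]
  refine dvd_sum fun x hx => ?_
  rw [HasAntidiagonal.mem_antidiagonal] at hx
  refine (pow_dvd_pow t (show a + b - l ≤ (a - x.1) + (b - x.2) by omega)).trans ?_
  rw [pow_add]
  exact mul_dvd_mul (hP _) (hQ _)

theorem JP.one_of {t : S} {P : S[X]} (h : t ∣ P.coeff 0) : JP t 1 P := fun l => by
  rcases l with _ | l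
  · simpa using h
  · rw [show 1 - (l + 1) = 0 by omega, pow_zero]
    exact one_dvd _

/-- elements of `(z, t) ^ n` -/
def JT (t : S) (n : ℕ) (y : TR S N) : Prop := ∃ P, AdjoinRoot.mk _ P = y ∧ JP t n P

theorem JT.one (t : S) : JT t 0 (1 : TR S N) := ⟨1, map_one _, JP.zero t 1⟩

theorem JT.mul {t : S} {a b : ℕ} {y y' : TR S N} (h : JT t a y) (h' : JT t b y') :
    JT t (a + b) (y * y') := by
  obtain ⟨P, rfl, hP⟩ := h
  obtain ⟨Q, rfl, hQ⟩ := h'
  exact ⟨P * Q, map_mul _ _ _, hP.mul hQ⟩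

theorem JT.pow {t : S} {a : ℕ} {y : TR S N} (h : JT t a y) (n : ℕ) : JT t (a * n) (y ^ n) := by
  induction n with
  | zero => rw [pow_zero]; exact JT.one t
  | succ n ih => rw [pow_succ, Nat.mul_succ]; exact ih.mul h

theorem JT.prod {t : S} {ι : Type*} (s : Finset ι) {y : ι → TR S N} (h : ∀ i ∈ s, JT t 1 (y i)) :
    JT t s.card (∏ i ∈ s, y i) := by
  classical
  induction s using Finset.induction_on with
  | empty => rw [prod_empty]; exact JT.one t
  | insert a s ha ih =>
    rw [prod_insert ha, card_insert_of_notMem ha, add_comm]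
    exact (h a (mem_insert_self a s)).mul (ih fun i hi => h i (mem_insert_of_mem hi))

theorem JT.of_add {t c : S} (hc : t ∣ c) (r : TR S N) :
    JT t 1 (algebraMap S (TR S N) c + TR.z S N * r) := by
  obtain ⟨R, rfl⟩ := AdjoinRoot.mk_surjective r
  refine ⟨C c + X * R, ?_, JP.one_of ?_⟩
  · rw [map_add, map_mul, AdjoinRoot.mk_C, AdjoinRoot.mk_X]
    rfl
  · simpa using hc

end trunc

/-! ### The triangular system -/

section tri

variable {A S : Type*} [CommRing A] [CommRing S] [Algebra A S] (F : FormalGroup A)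

theorem jt_fz {p N : ℕ} (hp : 1 ≤ p) {t : S} (ht : IsNilpotent t) :
    JT t p (fz F p (TR.z S N) (algebraMap S (TR S N) t)) := by
  have h1 : JT t 1 (TR.z S N) := by
    have := JT.of_add (N := N) (dvd_zero t) 1
    rwa [map_zero, zero_add, mul_one] at this
  have h2 : JT t (range (p - 1)).card (∏ j ∈ range (p - 1),
      nev ![TR.z S N, mt F (j + 1) (algebraMap S (TR S N) t)] F.toPowerSeries) := by
    refine JT.prod _ fun j _ => ?_
    have h3 : mt F (j + 1) (algebraMap S (TR S N) t) = algebraMap S (TR S N) (mt F (j + 1) t) :=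
      (map_mt F (IsScalarTower.toAlgHom A S (TR S N)) (j + 1) ht).symm
    obtain ⟨r, hr⟩ := dvd_nev_sub_right F (TR.isNilpotent_z S N)
      (isNilpotent_mt F (j + 1) (ht.map (algebraMap S (TR S N))))
    rw [sub_eq_iff_eq_add'] at hr
    rw [hr, h3]
    exact JT.of_add (dvd_mt F (j + 1) ht) r
  have h4 := h1.mul h2
  rw [card_range, show 1 + (p - 1) = p by omega] at h4
  exact h4

theorem mt_z_eq {p : ℕ} [hp : Fact p.Prime] [F.IsComm] {h : ℕ}
    (hI : ∀ a ∈ IF p F h, algebraMap A S a = 0) :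
    mt F p (TR.z S (p ^ h)) =
      algebraMap S (TR S (p ^ h)) (algebraMap A S (vF p F h)) * TR.z S (p ^ h) ^ (p ^ h) := by
  rw [mt, nev1_eq_sum (TR.z_pow S (p ^ h)), sum_range_succ, sum_eq_zero, zero_add,
    Algebra.smul_def, ← IsScalarTower.algebraMap_apply]
  · rfl
  · intro l hl
    rw [mem_range] at hl
    rcases Nat.eq_zero_or_pos l with rfl | hpos
    · rw [PowerSeries.coeff_zero_eq_constantCoeff_apply, constantCoeff_multSeries, zero_smul]
    · have h1 := hI _ (coeff_multSeries_mem p F h l fun hd => by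
        have := Nat.le_of_dvd hpos hd
        omega)
      rw [Algebra.smul_def, IsScalarTower.algebraMap_apply A S, h1, map_zero, zero_mul]

/-- **The triangular system.** -/
theorem tri {p : ℕ} [hp : Fact p.Prime] [F.IsComm] {m : ℕ}
    (hI : ∀ a ∈ IF p F (m + 1), algebraMap A S a = 0) {t : S} (ht : t ^ p = 0) (c : ℕ → S)
    (h : ∑ j ∈ range (p ^ (m + 1)), algebraMap S (TR S (p ^ (m + 1))) (c j) *
        fz F p (TR.z S _) (algebraMap S _ t) ^ (j + 1) =
      fz F p (mt F p (TR.z S _)) (algebraMap S _ t)) :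
    (∀ j, j + 1 < p ^ m → c j = 0) ∧
      c (p ^ m - 1) = nev1 t (wSeries F p) * algebraMap A S (vF p F (m + 1)) := by
  have hp1 : 1 ≤ p := hp.out.one_lt.le
  have hp2 : 2 ≤ p := hp.out.two_le
  set N := p ^ (m + 1) with hN
  have hNpos : 0 < N := pow_pos hp.out.pos _
  have ht' : IsNilpotent t := ⟨p, ht⟩
  have ht'' : IsNilpotent (algebraMap S (TR S N) t) := ht'.map _
  set w : S := nev1 t (wSeries F p) with hw
  set v : S := algebraMap A S (vF p F (m + 1)) with hv
  -- the right hand side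
  have hR : fz F p (mt F p (TR.z S N)) (algebraMap S _ t) =
      AdjoinRoot.mk _ (C (w * v) * X ^ N) := by
    have h1 : mt F p (TR.z S N) = algebraMap S (TR S N) v * TR.z S N ^ N := mt_z_eq F hI
    have h2 : nev1 (algebraMap S (TR S N) t) (wSeries F p) = algebraMap S (TR S N) w :=
      (map_nev1 (IsScalarTower.toAlgHom A S (TR S N)) ht' _).symm
    rw [fz_of_sq_zero F p _ ht'', h1, h2, map_mul, map_pow, AdjoinRoot.mk_C, AdjoinRoot.mk_X,
      map_mul]
    · change _ = algebraMap S (TR S N) w * algebraMap S (TR S N) v * _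
      ring
    · have h3 : TR.z S N ^ N * TR.z S N ^ N = 0 := by
        rw [← pow_add]
        exact pow_eq_zero_of_le (by omega) (TR.z_pow S N)
      rw [h1, mul_mul_mul_comm, h3, mul_zero]
  -- lifts of the powers of `f`
  have hlift : ∀ j, ∃ P : S[X], AdjoinRoot.mk _ P = fz F p (TR.z S N) (algebraMap S _ t) ^ j ∧
      JP t (p * j) P := fun j => (jt_fz F hp1 ht').pow j
  choose P hP hJ using hlift
  have hsum : AdjoinRoot.mk (X ^ (N + 1) : S[X]) (∑ j ∈ range N, C (c j) * P (j + 1)) =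
      AdjoinRoot.mk _ (C (w * v) * X ^ N) := by
    rw [← hR, ← h, map_sum]
    refine sum_congr rfl fun j _ => ?_
    rw [map_mul, AdjoinRoot.mk_C, hP]
    rfl
  -- the diagonal coefficients
  have hdiag : ∀ i, p * i ≤ N → ∃ s, (P i).coeff (p * i) = 1 + t * s := by
    intro i hi
    have h1 : algebraMap S (TR S N) t ∣
        fz F p (TR.z S N) (algebraMap S _ t) ^ i - (TR.z S N ^ p) ^ i :=
      (dvd_fz_sub_pow F hp1 (TR.isNilpotent_z S N) ht'').trans (sub_dvd_pow_sub_pow _ _ i)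
    obtain ⟨y, hy⟩ := h1
    obtain ⟨Y, rfl⟩ := AdjoinRoot.mk_surjective y
    have h2 : AdjoinRoot.mk (X ^ (N + 1) : S[X]) (P i) =
        AdjoinRoot.mk _ (X ^ (p * i) + C t * Y) := by
      rw [hP, map_add, map_mul, map_pow, AdjoinRoot.mk_C, AdjoinRoot.mk_X, pow_mul,
        sub_eq_iff_eq_add'.1 hy]
      rfl
    refine ⟨Y.coeff (p * i), ?_⟩
    rw [TR.coeff_eq_of_mk_eq h2 hi, coeff_add, coeff_X_pow_self, coeff_C_mul]
  have hunit : ∀ s a : S, a * (1 + t * s) = 0 → a = 0 := by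
    intro s a ha
    have h1 : IsUnit (1 + t * s) :=
      (Commute.isNilpotent_mul_right (Commute.all _ _) ht').isUnit_one_add
    exact (h1.mul_left_eq_zero).1 ha
  -- the equations
  have key : ∀ i, i + 1 ≤ p ^ m → (∀ j < i, c j = 0) →
      c i * (P (i + 1)).coeff (p * (i + 1)) = if p * (i + 1) = N then w * v else 0 := by
    intro i hi hc
    have hle : p * (i + 1) ≤ N := by
      rw [hN, pow_succ']
      exact Nat.mul_le_mul_left p hi
    have hiN : i < N := by nlinarith
    have h1 := TR.coeff_eq_of_mk_eq hsum hle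
    rw [finsetSum_coeff, sum_eq_single i, coeff_C_mul, coeff_C_mul, coeff_X_pow, mul_ite,
      mul_one, mul_zero] at h1
    · exact h1
    · intro j _ hji
      rw [coeff_C_mul]
      rcases lt_or_gt_of_ne hji with h2 | h2
      · rw [hc j h2, zero_mul]
      · obtain ⟨s, hs⟩ := hJ (j + 1) (p * (i + 1))
        have h3 : p ≤ p * (j + 1) - p * (i + 1) := by
          have : p * (i + 1) + p ≤ p * (j + 1) := by nlinarith
          omega
        rw [hs, pow_eq_zero_of_le h3 ht, zero_mul, mul_zero]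
    · intro h2
      exact absurd (mem_range.2 hiN) h2
  have hzero : ∀ j, j + 1 < p ^ m → c j = 0 := by
    intro j
    induction j using Nat.strong_induction_on with
    | _ j ih =>
      intro hj
      have h1 := key j hj.le fun i hi => ih i hi (by omega)
      have hlt : p * (j + 1) < N := by
        rw [hN, pow_succ']
        exact Nat.mul_lt_mul_of_pos_left hj hp.out.pos
      obtain ⟨s, hs⟩ := hdiag (j + 1) hlt.le
      rw [if_neg hlt.ne, hs] at h1
      exact hunit s _ h1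
  refine ⟨hzero, ?_⟩
  have hm : 0 < p ^ m := pow_pos hp.out.pos _
  have he : p ^ m - 1 + 1 = p ^ m := by omega
  have hN' : p * (p ^ m - 1 + 1) = N := by rw [he, hN, pow_succ']
  have h1 := key (p ^ m - 1) he.le fun j hj => hzero j (by omega)
  obtain ⟨s, hs⟩ := hdiag (p ^ m - 1 + 1) hN'.le
  rw [if_pos hN', hs] at h1
  have hwt : w * t = 0 := by
    rw [hw, wSeries_eq, nev1_mul ht', nev1_pow ht', nev1_X ht', mul_right_comm, ← pow_succ,
      show p - 1 + 1 = p by omega, ht, zero_mul]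
  rw [← sub_eq_zero]
  refine hunit s _ ?_
  rw [sub_mul, h1]
  linear_combination (-(v * s)) * hwt

end tri

end Vale.Agent.P257.Det
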